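import Crest.Agent.R096.Ce1_537

/-!
# Row 212, layer T, LEV (helper33): format of PL 3-manifolds and splittings in `ℝ³`

`IsCh e` PL chart, `Man A` PL 3-manifold with boundary `bd A` (not compact), `Split U A B` two
sides of a flat surface `A ∩ B` of the open set `U`.  Input Props `LT` (loop theorem), `THICK`.
-/

set_option autoImplicit false

open Set Metric Topology Filter Crest.Agent.R096.Ce_537

namespace Crest.Agent.X212.Lev33

/-- the space -/
abbrev E3 := Fin 3 → ℝ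

/-- a PL chart -/
structure IsCh (e : OpenPartialHomeomorph E3 E3) : Prop where
  pl : PLOn e e.source
  pl' : PLOn e.symm e.target

/-- `A` is a half space at `x` -/
def HalfAt (A : Set E3) (x : E3) : Prop :=
  ∃ e : OpenPartialHomeomorph E3 E3, IsCh e ∧ x ∈ e.source ∧ e x = 0 ∧
    ∀ y ∈ e.source, (y ∈ A ↔ 0 ≤ e y 0)

/-- a PL 3-manifold with boundary in `ℝ³` (no compactness) -/
def Man (A : Set E3) : Prop := ∀ x ∈ A, A ∈ 𝓝 x ∨ HalfAt A x

/-- the boundary -/
def bd (A : Set E3) : Set E3 := A \ interior A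

/-- `A`, `B` are the two sides at `x` -/
def FlatAt (A B : Set E3) (x : E3) : Prop :=
  ∃ e : OpenPartialHomeomorph E3 E3, IsCh e ∧ x ∈ e.source ∧ e x = 0 ∧
    ∀ y ∈ e.source, (y ∈ A ↔ 0 ≤ e y 0) ∧ (y ∈ B ↔ e y 0 ≤ 0)

/-- the open set `U` is split by the flat surface `A ∩ B` into the sides `A`, `B` -/
structure Split (U A B : Set E3) : Prop where
  isOpen : IsOpen U
  union : A ∪ B = U
  clA : IsOpen (U \ A)
  clB : IsOpen (U \ B)
  flat : ∀ x ∈ A ∩ B, FlatAt A B x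

/-- `f | dD` extends to a continuous map `D → F` -/
def Null {V X : Type*} [TopologicalSpace V] [TopologicalSpace X] (F : Set X) (f : V → X)
    (D dD : Set V) : Prop :=
  ∃ g : V → X, ContinuousOn g D ∧ MapsTo g D F ∧ EqOn g f dD

/-- **the loop theorem** (for a part `F` of the boundary apply it to `A \ (bd A \ F)`) -/
def LT : Prop := ∀ A : Set E3, Man A → ∀ f : (Fin 2 → ℝ) → E3, ContinuousOn f (cube 2) →
  MapsTo f (cube 2) A → MapsTo f (sph 2) (bd A) → ¬ Null (bd A) f (cube 2) (sph 2) →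
  ∃ D dD : Set E3, IsBall 2 D dD ∧ D ⊆ A ∧ D ∩ bd A = dD ∧ ¬ Null (bd A) id D dD

/-- **product neighbourhood of a proper disc** (inside an open `W`: apply it to `A ∩ W`) -/
def THICK : Prop := ∀ A : Set E3, Man A → ∀ D dD : Set E3, IsBall 2 D dD → D ⊆ A →
  D ∩ bd A = dD → ∃ (N : Set E3) (k : PLEquiv (D ×ˢ Icc (-1 : ℝ) 1) N), N ⊆ A ∧
    (∀ x ∈ D, k.f (x, 0) = x) ∧ N ∩ bd A = k.f '' (dD ×ˢ Icc (-1 : ℝ) 1) ∧
    ∃ O : Set E3, IsOpen O ∧ A ∩ O = k.f '' (D ×ˢ Ioo (-1 : ℝ) 1)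

end Crest.Agent.X212.Lev33
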