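import Crest.Agent.X212.Prd34.Defs
import Crest.Agent.X212.Lev33.Defs

/-!
# Row 212, layer T, LEV (helper33): splittings in the format of `Prd34`, leaf Props

`Spl U A B`: the open set `U` is split by the flat surface `A ∩ B`.  `Move`: compression along a
thickened disc.  Props: `LTStmt` (loop theorem, 46), `CompStmt`, `LevStmt`.
-/

set_option autoImplicit false

open Set Metric Topology Crest.Agent.R096.Ce_537 Crest.Agent.X212.Prd34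

namespace Crest.Agent.X212.Lev33

/-- lower half space -/
def dn : Set V := {y | y 2 ≤ 0}

/-- `A` and `B` are the two sides at `x` -/
def Fl (A B : Set V) (x : V) : Prop :=
  ∃ (C : Set V) (e : PLEquiv (cube 3) C), e.f 0 = x ∧ C ∈ 𝓝 x ∧
    C ∩ A = e.f '' (cube 3 ∩ up) ∧ C ∩ B = e.f '' (cube 3 ∩ dn)

/-- the open set `U` is split by the flat surface `A ∩ B` into the sides `A`, `B` -/
structure Spl (U A B : Set V) : Prop where
  isOpen : IsOpen U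
  union : A ∪ B = U
  clA : IsOpen (U \ A)
  clB : IsOpen (U \ B)
  flat : ∀ x ∈ A ∩ B, Fl A B x

/-- **(LT)** the loop theorem, `N = 1` -/
def LTStmt : Prop := ∀ M dM : Set V, Mf M dM → ∀ f : P → V, ContinuousOn f (cube 2) →
  MapsTo f (cube 2) M → MapsTo f (sph 2) dM → ¬ Null dM f (cube 2) (sph 2) →
  ∃ D Γ : Set V, IsBall 2 D Γ ∧ D ⊆ M ∧ D ∩ dM = Γ ∧ ¬ Null dM id D Γ

/-- open and closed layer of the cube -/
def lo (ε : ℝ) : Set V := {y | y ∈ cube 3 ∧ |y 2| < ε}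
def lc (ε : ℝ) : Set V := {y | y ∈ cube 3 ∧ |y 2| ≤ ε}

/-- **(COMP)** the two-handle changes sides -/
def CompStmt : Prop := ∀ (U A B R : Set V) (e : PLEquiv (cube 3) R), Spl U A B → R ⊆ A →
  R ∩ (A ∩ B) = e.f '' side → (∀ x ∈ e.f '' (cube 3 ∩ fl), R ∈ 𝓝[A] x) →
  ∃ ε : ℝ, 0 < ε ∧ ε < 1 ∧ Spl U (A \ e.f '' lo ε) (B ∪ e.f '' lc ε)

/-- **(LEV)** a flat level surface near `{w = 0}`, equal to it where `w` is standard -/
def LevStmt : Prop := ∀ (U W O K : Set V) (w μ : V → ℝ) (η : ℝ), IsOpen U → IsOpen W → W ⊆ U →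
  IsOpen O → O ⊆ U → IsCompact K → K ⊆ O → 0 < η → ContinuousOn w U → ContinuousOn μ U →
  LocPL w W → (∀ x ∈ U, |w x| ≤ η → x ∈ W ∪ K) → (∀ x ∈ O, μ x = 1) →
  (∀ x ∈ U, 0 ≤ μ x ∧ μ x ≤ 1) →
  (∀ t : ℝ, |t| < η → ∀ x ∈ W, w x = t * μ x →
    Fl {y | y ∈ U ∧ t * μ y ≤ w y} {y | y ∈ U ∧ w y ≤ t * μ y} x) →
  ∃ (A B K' : Set V) (t : ℝ), Spl U A B ∧ IsCompact K' ∧ K' ⊆ O ∧ |t| < η ∧
    (∀ x ∈ U, x ∉ K' → ((x ∈ A ↔ t * μ x ≤ w x) ∧ (x ∈ B ↔ w x ≤ t * μ x))) ∧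
    (∀ x ∈ A, -η < w x) ∧ ∀ x ∈ B, w x < η

end Crest.Agent.X212.Lev33
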