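import Mathlib

/-!
# Row 212, layer T, LEV (helper33): germ cocycles

`Coc S c`: a `G`-valued cocycle near the diagonal of `S`; `Prim S c b`: a primitive.
Pull-back, uniqueness, extension along homotopies, gluing on closed covers.
-/

set_option autoImplicit false
set_option linter.unusedSectionVars false

open Set Topology Filter

namespace Crest.Agent.X212.Lev33

variable {X Y : Type*} [TopologicalSpace X] [TopologicalSpace Y] {G : Type*} [Group G]

/-- cocycle near the diagonal of `S` -/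
def Coc (S : Set X) (c : X → X → G) : Prop :=
  ∀ x ∈ S, ∀ᶠ y in 𝓝[S] x, ∀ᶠ z in 𝓝[S] y, c x z = c x y * c y z

/-- primitive -/
def Prim (S : Set X) (c : X → X → G) (b : X → G) : Prop :=
  ∀ x ∈ S, ∀ᶠ y in 𝓝[S] x, b y = b x * c x y

/-- equal near the diagonal -/
def Geq (S : Set X) (c c' : X → X → G) : Prop :=
  ∀ x ∈ S, ∀ᶠ y in 𝓝[S] x, c x y = c' x y

/-- locally constant on `S` -/
def LCo {A : Type*} (S : Set X) (f : X → A) : Prop := ∀ x ∈ S, ∀ᶠ y in 𝓝[S] x, f y = f x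

theorem LCo.eq {A : Type*} {S : Set X} {f : X → A} (h : LCo S f) (hs : IsPreconnected S)
    {x y : X} (hx : x ∈ S) (hy : y ∈ S) : f x = f y := by
  let _ : TopologicalSpace A := ⊥
  have _ : DiscreteTopology A := ⟨rfl⟩
  have hc : ContinuousOn f S := by
    intro z hz
    have : Tendsto f (𝓝[S] z) (pure (f z)) := by
      rw [tendsto_pure]; exact h z hz
    exact this.mono_right (pure_le_nhds _)
  exact hs.constant hc hx hy

theorem LCo.mono {A : Type*} {S T : Set X} {f : X → A} (h : LCo S f) (hT : T ⊆ S) : LCo T f :=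
  fun x hx => (h x (hT hx)).filter_mono (nhdsWithin_mono x hT)

theorem Coc.mono {S T : Set X} {c : X → X → G} (h : Coc S c) (hT : T ⊆ S) : Coc T c := by
  intro x hx
  filter_upwards [(h x (hT hx)).filter_mono (nhdsWithin_mono x hT)] with y hy
  exact hy.filter_mono (nhdsWithin_mono y hT)

theorem Prim.mono {S T : Set X} {c : X → X → G} {b : X → G} (h : Prim S c b) (hT : T ⊆ S) :
    Prim T c b := fun x hx => (h x (hT hx)).filter_mono (nhdsWithin_mono x hT)

theorem Geq.mono {S T : Set X} {c c' : X → X → G} (h : Geq S c c') (hT : T ⊆ S) :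
    Geq T c c' := fun x hx => (h x (hT hx)).filter_mono (nhdsWithin_mono x hT)

theorem Geq.symm {S : Set X} {c c' : X → X → G} (h : Geq S c c') : Geq S c' c :=
  fun x hx => (h x hx).mono fun _ hy => hy.symm

theorem Geq.trans {S : Set X} {c c' c'' : X → X → G} (h : Geq S c c') (h' : Geq S c' c'') :
    Geq S c c'' := fun x hx => ((h x hx).and (h' x hx)).mono fun _ hy => hy.1.trans hy.2

theorem Prim.congr {S : Set X} {c c' : X → X → G} {b : X → G} (h : Prim S c b)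
    (e : Geq S c c') : Prim S c' b := by
  intro x hx
  filter_upwards [h x hx, e x hx] with y h1 h2
  rw [h1, h2]

theorem Prim.congr' {S : Set X} {c : X → X → G} {b b' : X → G} (h : Prim S c b)
    (e : ∀ x ∈ S, b' x = b x) : Prim S c b' := by
  intro x hx
  filter_upwards [h x hx, self_mem_nhdsWithin] with y h1 h2
  rw [e y h2, e x hx, h1]

theorem Coc.congr {S : Set X} {c c' : X → X → G} (h : Coc S c) (e : Geq S c c') : Coc S c' := by
  intro x hx
  filter_upwards [h x hx, e x hx, self_mem_nhdsWithin,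
    eventually_eventually_nhdsWithin.2 (e x hx)] with y h1 h2 h3 h4
  filter_upwards [h1, h4, e y h3] with z k1 k2 k3
  rw [← k2, ← h2, ← k3, k1]

theorem Coc.self {S : Set X} {c : X → X → G} (h : Coc S c) {x : X} (hx : x ∈ S) : c x x = 1 := by
  have h1 := ((h x hx).self_of_nhdsWithin hx).self_of_nhdsWithin hx
  exact left_eq_mul.1 h1

theorem Coc.comp {S : Set X} {T : Set Y} {c : X → X → G} (h : Coc S c) {f : Y → X}
    (hf : ContinuousOn f T) (hm : MapsTo f T S) : Coc T (fun x y => c (f x) (f y)) := by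
  intro x hx
  have ht : ∀ y ∈ T, Tendsto f (𝓝[T] y) (𝓝[S] (f y)) := fun y hy =>
    (hf y hy).tendsto_nhdsWithin hm
  filter_upwards [ht x hx (h (f x) (hm hx)), self_mem_nhdsWithin] with y h1 h2
  exact ht y h2 h1

theorem Prim.comp {S : Set X} {T : Set Y} {c : X → X → G} {b : X → G} (h : Prim S c b) {f : Y → X}
    (hf : ContinuousOn f T) (hm : MapsTo f T S) :
    Prim T (fun x y => c (f x) (f y)) (fun x => b (f x)) := fun x hx =>
  (hf x hx).tendsto_nhdsWithin hm (h (f x) (hm hx))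

theorem Geq.comp {S : Set X} {T : Set Y} {c c' : X → X → G} (h : Geq S c c') {f : Y → X}
    (hf : ContinuousOn f T) (hm : MapsTo f T S) :
    Geq T (fun x y => c (f x) (f y)) (fun x y => c' (f x) (f y)) := fun x hx =>
  (hf x hx).tendsto_nhdsWithin hm (h (f x) (hm hx))

theorem LCo.comp {A : Type*} {S : Set X} {T : Set Y} {b : X → A} (h : LCo S b) {f : Y → X}
    (hf : ContinuousOn f T) (hm : MapsTo f T S) : LCo T (fun x => b (f x)) := fun x hx =>
  (hf x hx).tendsto_nhdsWithin hm (h (f x) (hm hx))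

theorem Prim.mul_left {S : Set X} {c : X → X → G} {b : X → G} (h : Prim S c b) (g : G) :
    Prim S c (fun x => g * b x) := by
  intro x hx
  filter_upwards [h x hx] with y hy
  rw [hy, mul_assoc]

theorem Prim.lco {S : Set X} {c : X → X → G} {b b' : X → G} (h : Prim S c b) (h' : Prim S c b') :
    LCo S (fun x => b' x * (b x)⁻¹) := by
  intro x hx
  filter_upwards [h x hx, h' x hx] with y h1 h2
  rw [h1, h2]; group

theorem Prim.uniq {S : Set X} {c : X → X → G} {b b' : X → G} (h : Prim S c b) (h' : Prim S c b')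
    (hs : IsPreconnected S) {x y : X} (hx : x ∈ S) (hy : y ∈ S) :
    b' y = b' x * (b x)⁻¹ * b y := by
  have : b' x * (b x)⁻¹ = b' y * (b y)⁻¹ := (h.lco h').eq hs hx hy
  rw [this]; group

/-- the trivial cocycle -/
theorem prim_one_iff {S : Set X} {b : X → G} : Prim S (fun _ _ => 1) b ↔ LCo S b := by
  constructor <;> intro h x hx <;> filter_upwards [h x hx] with y hy <;> simpa using hy

/-- local primitives -/
theorem Coc.loc {S : Set X} {c : X → X → G} (h : Coc S c) {x : X} (hx : x ∈ S) :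
    ∃ O : Set X, IsOpen O ∧ x ∈ O ∧ Prim (S ∩ O) c (c x) := by
  obtain ⟨O, hO, hxO, hs⟩ := mem_nhdsWithin.1 (h x hx)
  refine ⟨O, hO, hxO, fun y hy => ?_⟩
  exact (hs ⟨hy.2, hy.1⟩ : ∀ᶠ z in 𝓝[S] y, _).filter_mono (nhdsWithin_mono y inter_subset_left)

/-- a function with local primitives is a cocycle -/
theorem coc_of_loc {S : Set X} {c : X → X → G}
    (h : ∀ x ∈ S, ∃ N ∈ 𝓝[S] x, ∃ b : X → G, ∀ y ∈ N, ∀ᶠ z in 𝓝[S] y, b z = b y * c y z) :
    Coc S c := by
  intro x hx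
  obtain ⟨N, hN, b, hb⟩ := h x hx
  have hxN : x ∈ N := mem_of_mem_nhdsWithin hx hN
  filter_upwards [hN, hb x hxN, eventually_eventually_nhdsWithin.2 (hb x hxN)] with y h1 h2 h3
  filter_upwards [h3, hb y h1] with z k1 k2
  have : b x * c x z = b x * (c x y * c y z) := by rw [← k1, k2, h2, mul_assoc]
  exact mul_left_cancel this

theorem Prim.coc {S : Set X} {c : X → X → G} {b : X → G} (h : Prim S c b) : Coc S c :=
  coc_of_loc fun _ _ => ⟨S, self_mem_nhdsWithin, b, fun y hy => h y hy⟩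

/-- primitives on an interval -/
theorem Coc.prim_Icc {c : ℝ → ℝ → G} {a b : ℝ} (h : Coc (Icc a b) c) :
    ∃ β, Prim (Icc a b) c β := by
  classical
  by_cases hab : a ≤ b
  swap
  · exact ⟨fun _ => 1, fun x hx => absurd (hx.1.trans hx.2) hab⟩
  -- gluing along a point
  have glue : ∀ s t u : ℝ, s ≤ t → t ≤ u → (∃ β, Prim (Icc s t) c β) → (∃ β, Prim (Icc t u) c β) →
      ∃ β, Prim (Icc s u) c β := by
    rintro s t u hst htu ⟨β, hβ⟩ ⟨γ, hγ⟩
    have hγ' := hγ.mul_left (β t * (γ t)⁻¹)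
    refine ⟨fun x => if x ≤ t then β x else β t * (γ t)⁻¹ * γ x, fun x hx => ?_⟩
    rw [← Icc_union_Icc_eq_Icc hst htu, nhdsWithin_union, eventually_sup]
    have e1 : ∀ y ∈ Icc t u, (if y ≤ t then β y else β t * (γ t)⁻¹ * γ y) =
        β t * (γ t)⁻¹ * γ y := by
      intro y hy
      split_ifs with h1
      · rw [le_antisymm h1 hy.1]; group
      · rfl
    constructor
    · by_cases h1 : x ≤ t
      · filter_upwards [hβ x ⟨hx.1, h1⟩, self_mem_nhdsWithin] with y k1 k2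
        rw [if_pos k2.2, if_pos h1, k1]
      · have : 𝓝[Icc s t] x = ⊥ :=
          notMem_closure_iff_nhdsWithin_eq_bot.1 (by rw [isClosed_Icc.closure_eq]; exact fun k => h1 k.2)
        rw [this]; exact eventually_bot
    · by_cases h1 : t ≤ x
      · filter_upwards [hγ' x ⟨h1, hx.2⟩, self_mem_nhdsWithin] with y k1 k2
        rw [e1 y k2, e1 x ⟨h1, hx.2⟩, k1]
      · have : 𝓝[Icc t u] x = ⊥ :=
          notMem_closure_iff_nhdsWithin_eq_bot.1 (by rw [isClosed_Icc.closure_eq]; exact fun k => h1 k.1)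
        rw [this]; exact eventually_bot
  have loc : ∀ x ∈ Icc a b, ∃ δ > 0, ∀ s t, s ∈ Icc a b → t ∈ Icc a b → x - δ < s → t < x + δ →
      ∃ β, Prim (Icc s t) c β := by
    intro x hx
    obtain ⟨O, hO, hxO, hp⟩ := h.loc hx
    obtain ⟨δ, hδ, hb⟩ := Metric.isOpen_iff.1 hO x hxO
    refine ⟨δ, hδ, fun s t hs ht h1 h2 => ⟨_, hp.mono fun y hy => ⟨⟨hs.1.trans hy.1, hy.2.trans ht.2⟩, hb ?_⟩⟩⟩
    rw [Real.ball_eq_Ioo]
    exact ⟨h1.trans_le hy.1, hy.2.trans_lt h2⟩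
  have key : Icc a b ⊆ {t | ∃ β, Prim (Icc a t) c β} := by
    apply IsClosed.Icc_subset_of_forall_mem_nhdsWithin
    · rw [← isOpen_compl_iff, isOpen_iff_mem_nhds]
      intro x hx
      by_cases hx' : x ∈ Icc a b
      · obtain ⟨δ, hδ, hl⟩ := loc x hx'
        filter_upwards [Ioo_mem_nhds (show x - δ < x by linarith) (show x < x + δ by linarith)]
          with y hy hy2
        apply hx
        refine ⟨?_, hx'⟩
        rcases le_total x y with h1 | h1
        · obtain ⟨β, hβ⟩ := hy2.1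
          exact ⟨β, hβ.mono (Icc_subset_Icc_right h1)⟩
        · exact glue a y x hy2.2.1 h1 hy2.1 (hl y x hy2.2 hx' hy.1 (by linarith))
      · filter_upwards [isClosed_Icc.isOpen_compl.mem_nhds hx'] with y hy hy2
        exact hy hy2.2
    · obtain ⟨δ, hδ, hl⟩ := loc a ⟨le_rfl, hab⟩
      exact hl a a ⟨le_rfl, hab⟩ ⟨le_rfl, hab⟩ (by linarith) (by linarith)
    · rintro x ⟨hx, hx'⟩
      obtain ⟨δ, hδ, hl⟩ := loc x ⟨hx'.1, hx'.2.le⟩
      filter_upwards [Ioo_mem_nhdsGT (show x < min b (x + δ) from lt_min hx'.2 (by linarith))]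
        with y hy
      exact glue a x y hx'.1 hy.1.le hx (hl x y ⟨hx'.1, hx'.2.le⟩
        ⟨hx'.1.trans hy.1.le, (hy.2.trans_le (min_le_left _ _)).le⟩ (by linarith)
        (hy.2.trans_le (min_le_right _ _)))
  exact key ⟨hab, le_rfl⟩

/-- **extension of primitives along a homotopy** -/
theorem Coc.extend {T : Set Y} {c : Y × ℝ → Y × ℝ → G} (h : Coc (T ×ˢ Icc (0 : ℝ) 1) c)
    {b0 : Y → G} (h0 : Prim T (fun x y => c (x, 0) (y, 0)) b0) :
    ∃ b, Prim (T ×ˢ Icc (0 : ℝ) 1) c b ∧ ∀ y ∈ T, b (y, 0) = b0 y := by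
  classical
  have ex : ∀ y ∈ T, ∃ β : ℝ → G, Prim (Icc (0 : ℝ) 1) (fun s t => c (y, s) (y, t)) β ∧
      β 0 = b0 y := by
    intro y hy
    obtain ⟨β, hβ⟩ := (h.comp (T := Icc (0 : ℝ) 1) (f := fun t => (y, t)) (by fun_prop)
      (fun t ht => ⟨hy, ht⟩)).prim_Icc
    exact ⟨_, hβ.mul_left (b0 y * (β 0)⁻¹), by simp⟩
  choose! β hβ hβ0 using ex
  refine ⟨fun p => β p.1 p.2, ?_, fun y hy => hβ0 y hy⟩
  rintro ⟨y, t⟩ ⟨hy, ht⟩
  -- the property at level `s`
  let P : ℝ → Prop := fun s => ∀ᶠ z in 𝓝[T] y, β z s = β y s * c (y, s) (z, s)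
  -- boxes
  have box : ∀ s ∈ Icc (0 : ℝ) 1, ∃ δ > 0, ∃ V ∈ 𝓝[T] y, V ⊆ T ∧
      Prim (V ×ˢ (Icc 0 1 ∩ Ioo (s - δ) (s + δ))) c (c (y, s)) := by
    intro s hs
    obtain ⟨O, hO, hxO, hp⟩ := h.loc (show (y, s) ∈ T ×ˢ Icc (0 : ℝ) 1 from ⟨hy, hs⟩)
    obtain ⟨V, W, hV, hW, hyV, hsW, hVW⟩ := isOpen_prod_iff.1 hO y s hxO
    obtain ⟨δ, hδ, hb⟩ := Metric.isOpen_iff.1 hW s hsW
    rw [Real.ball_eq_Ioo] at hb
    refine ⟨δ, hδ, T ∩ V, inter_mem_nhdsWithin _ (hV.mem_nhds hyV), inter_subset_left,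
      hp.mono ?_⟩
    rintro ⟨z, u⟩ ⟨h1, h2⟩
    exact ⟨⟨h1.1, h2.1⟩, hVW ⟨h1.2, hb h2.2⟩⟩
  have vert : ∀ s ∈ Icc (0 : ℝ) 1, ∀ δ > 0, ∀ V : Set Y, V ⊆ T →
      Prim (V ×ˢ (Icc 0 1 ∩ Ioo (s - δ) (s + δ))) c (c (y, s)) → ∀ z ∈ V,
      ∀ u ∈ Icc (0 : ℝ) 1 ∩ Ioo (s - δ) (s + δ), ∀ u' ∈ Icc (0 : ℝ) 1 ∩ Ioo (s - δ) (s + δ),
        β z u * (c (y, s) (z, u))⁻¹ = β z u' * (c (y, s) (z, u'))⁻¹ := by
    intro s hs δ hδ V hVT hp z hz u hu u' hu'
    have h1 := hp.comp (T := Icc 0 1 ∩ Ioo (s - δ) (s + δ)) (f := fun t => (z, t)) (by fun_prop)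
      (fun t ht => ⟨hz, ht⟩)
    have h2 := (hβ z (hVT hz)).mono (inter_subset_left (t := Ioo (s - δ) (s + δ)))
    exact (h1.lco h2).eq ((ordConnected_Icc.inter ordConnected_Ioo).isPreconnected) hu hu'
  have iff1 : ∀ s ∈ Icc (0 : ℝ) 1, ∀ δ > 0, ∀ V ∈ 𝓝[T] y, V ⊆ T →
      Prim (V ×ˢ (Icc 0 1 ∩ Ioo (s - δ) (s + δ))) c (c (y, s)) →
      ∀ u ∈ Icc (0 : ℝ) 1 ∩ Ioo (s - δ) (s + δ), (P u ↔ ∀ᶠ z in 𝓝[T] y,
        β z u * (c (y, s) (z, u))⁻¹ = β y u * (c (y, s) (y, u))⁻¹) := by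
    intro s hs δ hδ V hV hVT hp u hu
    have hyV : y ∈ V := mem_of_mem_nhdsWithin hy hV
    have h1 := hp.comp (T := V) (f := fun z => (z, u)) (by fun_prop) (fun z hz => ⟨hz, hu⟩) y hyV
    have h2 : ∀ᶠ z in 𝓝[T] y, c (y, s) (z, u) = c (y, s) (y, u) * c (y, u) (z, u) :=
      h1.filter_mono (nhdsWithin_le_iff.2 hV)
    constructor
    · intro hP
      filter_upwards [hP, h2] with z k1 k2
      rw [k1, k2]; group
    · intro hP
      filter_upwards [hP, h2] with z k1 k2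
      rw [k2] at k1
      calc β z u = β z u * (c (y, s) (y, u) * c (y, u) (z, u))⁻¹ *
            (c (y, s) (y, u) * c (y, u) (z, u)) := by group
        _ = _ := by rw [k1]; group
  have step : ∀ s ∈ Icc (0 : ℝ) 1, ∀ δ > 0, ∀ V ∈ 𝓝[T] y, V ⊆ T →
      Prim (V ×ˢ (Icc 0 1 ∩ Ioo (s - δ) (s + δ))) c (c (y, s)) →
      ∀ u ∈ Icc (0 : ℝ) 1 ∩ Ioo (s - δ) (s + δ), ∀ u' ∈ Icc (0 : ℝ) 1 ∩ Ioo (s - δ) (s + δ),
        P u → P u' := by
    intro s hs δ hδ V hV hVT hp u hu u' hu' hP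
    have hyV : y ∈ V := mem_of_mem_nhdsWithin hy hV
    rw [iff1 s hs δ hδ V hV hVT hp u hu] at hP
    rw [iff1 s hs δ hδ V hV hVT hp u' hu']
    filter_upwards [hP, hV] with z k1 k2
    rw [← vert s hs δ hδ V hVT hp z k2 u hu u' hu', ← vert s hs δ hδ V hVT hp y hyV u hu u' hu', k1]
  have hlc : LCo (Icc (0 : ℝ) 1) P := by
    intro s hs
    obtain ⟨δ, hδ, V, hV, hVT, hp⟩ := box s hs
    have hs' : s ∈ Icc (0 : ℝ) 1 ∩ Ioo (s - δ) (s + δ) := ⟨hs, by constructor <;> linarith⟩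
    filter_upwards [inter_mem_nhdsWithin _ (Ioo_mem_nhds hs'.2.1 hs'.2.2)] with u hu
    exact propext ⟨step s hs δ hδ V hV hVT hp u hu s hs', step s hs δ hδ V hV hVT hp s hs' u hu⟩
  have P0 : P 0 := by
    filter_upwards [h0 y hy, self_mem_nhdsWithin] with z k1 k2
    rw [hβ0 z k2, hβ0 y hy, k1]
  have Pt : P t := by
    rw [← hlc.eq isPreconnected_Icc (show (0 : ℝ) ∈ Icc (0 : ℝ) 1 by simp) ht]; exact P0
  obtain ⟨δ, hδ, V, hV, hVT, hp⟩ := box t ht
  have ht' : t ∈ Icc (0 : ℝ) 1 ∩ Ioo (t - δ) (t + δ) := ⟨ht, by constructor <;> linarith⟩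
  rw [iff1 t ht δ hδ V hV hVT hp t ht'] at Pt
  rw [nhdsWithin_prod_eq]
  have e1 : c (y, t) (y, t) = 1 := h.self (show (y, t) ∈ T ×ˢ Icc (0 : ℝ) 1 from ⟨hy, ht⟩)
  filter_upwards [prod_mem_prod (Pt.and hV) (inter_mem_nhdsWithin _ (Ioo_mem_nhds ht'.2.1 ht'.2.2))]
  rintro ⟨z, u⟩ ⟨⟨k1, k2⟩, k3⟩
  have k4 := vert t ht δ hδ V hVT hp z k2 u k3 t ht'
  simp only at k1 ⊢
  rw [k1, e1] at k4
  calc β z u = β z u * (c (y, t) (z, u))⁻¹ * c (y, t) (z, u) := by group
    _ = _ := by rw [k4]; group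

/-- homotopy invariance of triviality -/
theorem Coc.homotopy {S : Set X} {T : Set Y} {c : X → X → G} (h : Coc S c) {H : Y × ℝ → X}
    (hH : ContinuousOn H (T ×ˢ Icc (0 : ℝ) 1)) (hm : MapsTo H (T ×ˢ Icc (0 : ℝ) 1) S)
    {b0 : Y → G} (h0 : Prim T (fun x y => c (H (x, 0)) (H (y, 0))) b0) :
    ∃ b1, Prim T (fun x y => c (H (x, 1)) (H (y, 1))) b1 := by
  obtain ⟨b, hb, -⟩ := (h.comp hH hm).extend h0
  exact ⟨_, hb.comp (T := T) (f := fun y => (y, (1 : ℝ))) (by fun_prop) (fun y hy => ⟨hy, by simp⟩)⟩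

/-- star-shaped sets -/
theorem Coc.prim_star {E : Type*} [AddCommGroup E] [Module ℝ E] [TopologicalSpace E]
    [ContinuousAdd E] [ContinuousSMul ℝ E] {S : Set E} {x0 : E} (hx0 : x0 ∈ S)
    (hs : StarConvex ℝ x0 S) {c : E → E → G} (h : Coc S c) : ∃ b, Prim S c b := by
  have := h.homotopy (T := S) (H := fun p => (1 - p.2) • x0 + p.2 • p.1) (by fun_prop)
    (fun p hp => hs hp.1 (by linarith [hp.2.2]) hp.2.1 (by ring)) (b0 := fun _ => 1)
    (fun x _ => Eventually.of_forall fun y => by simp [h.self hx0])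
  simpa using this

theorem Coc.prim_convex {E : Type*} [AddCommGroup E] [Module ℝ E] [TopologicalSpace E]
    [ContinuousAdd E] [ContinuousSMul ℝ E] {S : Set E} (hs : Convex ℝ S) {c : E → E → G}
    (h : Coc S c) : ∃ b, Prim S c b := by
  rcases S.eq_empty_or_nonempty with rfl | ⟨x0, hx0⟩
  · exact ⟨fun _ => 1, fun x hx => hx.elim⟩
  · exact h.prim_star hx0 (hs hx0)

/-! ### closed covers -/

/-- `A` is closed in `A ∪ B` -/
def RelCl (A B : Set X) : Prop := ∀ x ∈ B, x ∉ A → 𝓝[A] x = ⊥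

theorem IsClosed.relCl {A : Set X} (h : IsClosed A) (B : Set X) : RelCl A B := fun _ _ hx =>
  notMem_closure_iff_nhdsWithin_eq_bot.1 (by rwa [h.closure_eq])

theorem relCl_of_isOpen {U A B : Set X} (hB : B ⊆ U) (h : IsOpen (U \ A)) : RelCl A B := by
  intro x hx hxA
  rw [← notMem_closure_iff_nhdsWithin_eq_bot, mem_closure_iff_nhds]
  intro k
  obtain ⟨y, hy, hy'⟩ := k _ (h.mem_nhds ⟨hB hx, hxA⟩)
  exact hy.2 hy'

theorem ev_union {A B : Set X} (hA : RelCl A B) (hB : RelCl B A) {p : X → X → Prop}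
    (h1 : ∀ x ∈ A, ∀ᶠ y in 𝓝[A] x, p x y) (h2 : ∀ x ∈ B, ∀ᶠ y in 𝓝[B] x, p x y) :
    ∀ x ∈ A ∪ B, ∀ᶠ y in 𝓝[A ∪ B] x, p x y := by
  intro x hx
  rw [nhdsWithin_union, eventually_sup]
  constructor
  · by_cases h : x ∈ A
    · exact h1 x h
    · rw [hA x (hx.resolve_left h) h]; exact eventually_bot
  · by_cases h : x ∈ B
    · exact h2 x h
    · rw [hB x (hx.resolve_right h) h]; exact eventually_bot

theorem Prim.union {A B : Set X} (hA : RelCl A B) (hB : RelCl B A) {c : X → X → G} {b : X → G}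
    (h1 : Prim A c b) (h2 : Prim B c b) : Prim (A ∪ B) c b :=
  ev_union hA hB (p := fun x y => b y = b x * c x y) h1 h2

theorem LCo.union {A' : Type*} {A B : Set X} (hA : RelCl A B) (hB : RelCl B A) {b : X → A'}
    (h1 : LCo A b) (h2 : LCo B b) : LCo (A ∪ B) b :=
  ev_union hA hB (p := fun x y => b y = b x) h1 h2

theorem Geq.union {A B : Set X} (hA : RelCl A B) (hB : RelCl B A) {c c' : X → X → G}
    (h1 : Geq A c c') (h2 : Geq B c c') : Geq (A ∪ B) c c' :=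
  ev_union hA hB (p := fun x y => c x y = c' x y) h1 h2

/-- **gluing of cocycles** -/
theorem Coc.glue {A B : Set X} (hA : RelCl A B) (hB : RelCl B A) {c c' : X → X → G}
    (h1 : Coc A c) (h2 : Coc B c') (e : Geq (A ∩ B) c c') :
    ∃ d, Coc (A ∪ B) d ∧ Geq A d c ∧ Geq B d c' := by
  classical
  let d : X → X → G := fun x y => if y ∈ A then c x y else c' x y
  have dA : Geq A d c := fun x _ => by
    filter_upwards [self_mem_nhdsWithin] with y hy
    exact if_pos hy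
  have dB : Geq B d c' := by
    intro x hx
    by_cases hxA : x ∈ A
    · have := e x ⟨hxA, hx⟩
      rw [eventually_nhdsWithin_iff] at this
      filter_upwards [mem_nhdsWithin_of_mem_nhds this, self_mem_nhdsWithin] with y k1 k2
      by_cases hy : y ∈ A
      · rw [← k1 ⟨hy, k2⟩]; exact if_pos hy
      · exact if_neg hy
    · have : ∀ᶠ y in 𝓝 x, y ∉ A := by
        have := hA x hx hxA
        rw [← notMem_closure_iff_nhdsWithin_eq_bot] at this
        filter_upwards [isClosed_closure.isOpen_compl.mem_nhds this] with y hy hy2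
        exact hy (subset_closure hy2)
      filter_upwards [mem_nhdsWithin_of_mem_nhds this] with y hy
      exact if_neg hy
  have cA := h1.congr dA.symm
  have cB := h2.congr dB.symm
  refine ⟨d, coc_of_loc fun x hx => ?_, dA, dB⟩
  have ex : ∀ C : Set X, Coc C d → (x ∉ C → 𝓝[C] x = ⊥) →
      ∃ O : Set X, IsOpen O ∧ x ∈ O ∧ Prim (C ∩ O) d (d x) := by
    intro C hC hx
    by_cases h : x ∈ C
    · exact hC.loc h
    · have := hx h
      rw [← notMem_closure_iff_nhdsWithin_eq_bot] at this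
      exact ⟨_, isClosed_closure.isOpen_compl, this, fun y hy => (hy.2 (subset_closure hy.1)).elim⟩
  obtain ⟨O, hO, hxO, p1⟩ := ex A cA fun h => hA x (hx.resolve_left h) h
  obtain ⟨O', hO', hxO', p2⟩ := ex B cB fun h => hB x (hx.resolve_right h) h
  refine ⟨(A ∪ B) ∩ (O ∩ O'), inter_mem_nhdsWithin _ ((hO.inter hO').mem_nhds ⟨hxO, hxO'⟩), d x,
    fun y hy => ?_⟩
  rw [nhdsWithin_union, eventually_sup]
  constructor
  · by_cases h : y ∈ A
    · rw [← nhdsWithin_inter_of_mem' (mem_nhdsWithin_of_mem_nhds (hO.mem_nhds hy.2.1))]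
      exact p1 y ⟨h, hy.2.1⟩
    · rw [hA y (hy.1.resolve_left h) h]; exact eventually_bot
  · by_cases h : y ∈ B
    · rw [← nhdsWithin_inter_of_mem' (mem_nhdsWithin_of_mem_nhds (hO'.mem_nhds hy.2.2))]
      exact p2 y ⟨h, hy.2.2⟩
    · rw [hB y (hy.1.resolve_right h) h]; exact eventually_bot

end Crest.Agent.X212.Lev33
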