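import Crest.Agent.X212.Lev33.St2
import Crest.Agent.X212.Prd34.Top
import Crest.Agent.X212.Prd34.Leaf
import Crest.Agent.X212.Lad50.PL

/-!
# Row 212, layer T, LEV (helper33): local structure of splittings
-/

set_option autoImplicit false
set_option linter.unusedSectionVars false

open Set Metric Topology Filter Crest.Agent.R096 Crest.Agent.R096.Ce_537 Crest.Agent.X212.Prd34
  Crest.Agent.X212.Srf12 unitInterval

namespace Crest.Agent.X212.Lev33

section Cvx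

variable {X : Type*} [TopologicalSpace X]

/-- a retract of a convex set -/
def Cvx (N : Set X) : Prop :=
  ∃ (n : ℕ) (K : Set (Fin n → ℝ)) (f : (Fin n → ℝ) → X) (g : X → Fin n → ℝ), Convex ℝ K ∧
    ContinuousOn f K ∧ ContinuousOn g N ∧ MapsTo f K N ∧ MapsTo g N K ∧ ∀ x ∈ N, f (g x) = x

theorem Cvx.tr {G : Type*} [Group G] {N : Set X} (h : Cvx N) (c : X → X → G) (hc : Coc N c) :
    Tr N c := by
  obtain ⟨n, K, f, g, hK, hf, hg, mf, mg, e⟩ := h
  obtain ⟨b, hb⟩ := (hc.comp hf mf).prim_convex hK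
  exact ⟨_, (hb.comp hg mg).congr (geq_of_eq fun x hx y hy => by rw [e x hx, e y hy])⟩

theorem Cvx.homotopy {N : Set X} (h : Cvx N) {x y : X} (p q : Path x y) (hp : ∀ t, p t ∈ N)
    (hq : ∀ t, q t ∈ N) : ∃ F : p.Homotopy q, ∀ t, F t ∈ N := by
  obtain ⟨n, K, f, g, hK, hf, hg, mf, mg, e⟩ := h
  have m : ∀ z : I × I, (1 - (z.1 : ℝ)) • g (p z.2) + (z.1 : ℝ) • g (q z.2) ∈ K := fun z =>
    hK (mg (hp _)) (mg (hq _)) (by linarith [z.1.2.2]) z.1.2.1 (by ring)
  have c1 : Continuous fun t => g (p t) := hg.comp_continuous p.continuous hp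
  have c2 : Continuous fun t => g (q t) := hg.comp_continuous q.continuous hq
  refine ⟨⟨⟨⟨fun z => f ((1 - (z.1 : ℝ)) • g (p z.2) + (z.1 : ℝ) • g (q z.2)),
    hf.comp_continuous (((continuous_const.sub (continuous_subtype_val.comp continuous_fst)).smul
      (c1.comp continuous_snd)).add ((continuous_subtype_val.comp continuous_fst).smul
      (c2.comp continuous_snd))) m⟩, ?_, ?_⟩, ?_⟩, fun z => mf (m z)⟩
  · intro t; simp [e _ (hp t)]
  · intro t; simp [e _ (hq t)]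
  · intro t s hs
    have hx : x ∈ N := by simpa using hp 0
    have hy : y ∈ N := by simpa using hp 1
    rcases hs with rfl | rfl
    · simp [← add_smul, e x hx]
    · simp [← add_smul, e y hy]

theorem Cvx.joined {N : Set X} (h : Cvx N) {x y : X} (hx : x ∈ N) (hy : y ∈ N) :
    JoinedIn N x y := by
  obtain ⟨n, K, f, g, hK, hf, hg, mf, mg, e⟩ := h
  have m : ∀ t : I, (1 - (t : ℝ)) • g x + (t : ℝ) • g y ∈ K := fun t =>
    hK (mg hx) (mg hy) (by linarith [t.2.2]) t.2.1 (by ring)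
  exact ⟨⟨⟨fun t => f ((1 - (t : ℝ)) • g x + (t : ℝ) • g y), hf.comp_continuous (by fun_prop) m⟩,
    by simp [e x hx], by simp [e y hy]⟩, fun t => mf (m t)⟩

theorem Cvx.isPreconnected {N : Set X} (h : Cvx N) : IsPreconnected N := by
  rcases N.eq_empty_or_nonempty with rfl | ⟨x, hx⟩
  · exact isPreconnected_empty
  · exact (IsPathConnected.isConnected ⟨x, hx, fun _ hy => h.joined hx hy⟩).2

/-- locally a retract of a convex set -/
def LCv (S : Set X) : Prop := ∀ x ∈ S, ∀ W ∈ 𝓝 x, ∃ N ∈ 𝓝[S] x, N ⊆ W ∩ S ∧ Cvx N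

theorem LCv.lsc {S : Set X} (h : LCv S) : LSC S := by
  intro x hx W hW
  obtain ⟨N, h1, h2, h3⟩ := h x hx W hW
  have hxN := mem_of_mem_nhdsWithin hx h1
  refine ⟨N, h1, h2, fun y hy => h3.joined hxN hy, fun y p q hp hq => ?_⟩
  obtain ⟨F, hF⟩ := h3.homotopy p q hp hq
  exact ⟨F, fun t => (h2 (hF t)).2⟩

theorem LCv.lpc {S : Set X} (h : LCv S) : LPC S := h.lsc.lpc

theorem LCv.finite {X G : Type*} [PseudoMetricSpace X] [CommGroup G] [Finite G] {S : Set X}
    (h : LCv S) (hS : IsCompact S) : Finite (HH G S) := by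
  refine finite_HH hS (fun x hx W hW => ?_) fun x hx => ?_
  · obtain ⟨N, h1, h2, h3⟩ := h x hx W hW
    exact ⟨N, h1, h2, h3.isPreconnected⟩
  · obtain ⟨N, h1, h2, h3⟩ := h x hx univ univ_mem
    exact ⟨N, h1, fun y hy => (h2 hy).2, fun c hc => h3.tr c hc⟩

theorem LPC.clop {S : Set X} (h : LPC S) (x : X) : Clop S (connectedComponentIn S x) := by
  have key : ∀ y ∈ S, connectedComponentIn S y ∈ 𝓝[S] y := by
    intro y hy
    obtain ⟨N, h1, h2, h3⟩ := h y hy univ univ_mem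
    have hyN := mem_of_mem_nhdsWithin hy h1
    exact mem_of_superset h1 ((IsPathConnected.isConnected ⟨y, hyN, h3⟩).2.subset_connectedComponentIn
      hyN fun z hz => (h2 hz).2)
  refine clop_of (connectedComponentIn_subset _ _) (fun y hy => ?_) fun y hy hn => ?_
  · rw [connectedComponentIn_eq hy]; exact key y (connectedComponentIn_subset _ _ hy)
  · filter_upwards [key y hy] with z hz hz'
    apply hn
    rw [connectedComponentIn_eq hz', ← connectedComponentIn_eq hz]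
    exact mem_connectedComponentIn hy

theorem Clop.nhds_eq {S T : Set X} (h : Clop S T) {x : X} (hx : x ∈ T) : 𝓝[T] x = 𝓝[S] x :=
  le_antisymm (nhdsWithin_mono x h.sub) (nhdsWithin_le_iff.2 (h.mem hx))

theorem Clop.lpc {S T : Set X} (h : Clop S T) (hS : LPC S) : LPC T := by
  intro x hx W hW
  obtain ⟨O, hO, hOs⟩ := mem_nhdsWithin_iff_exists_mem_nhds_inter.1 (h.mem hx)
  obtain ⟨N, h1, h2, h3⟩ := hS x (h.sub hx) _ (inter_mem hW hO)
  exact ⟨N, by rwa [h.nhds_eq hx], fun y hy => ⟨(h2 hy).1.1, hOs ⟨(h2 hy).1.2, (h2 hy).2⟩⟩, h3⟩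

theorem Clop.isCompact {S T : Set X} [T2Space X] (h : Clop S T) (hS : IsCompact S) :
    IsCompact T := by
  refine hS.of_isClosed_subset ?_ h.sub
  rw [← isOpen_compl_iff, isOpen_iff_mem_nhds]
  intro x hx
  by_cases k : x ∈ S
  · obtain ⟨O, hO, hOs⟩ := mem_nhdsWithin_iff_exists_mem_nhds_inter.1 (h.notMem k hx)
    filter_upwards [hO] with y hy hy' using hOs ⟨hy, h.sub hy'⟩ hy'
  · filter_upwards [hS.isClosed.isOpen_compl.mem_nhds k] with y hy hy' using hy (h.sub hy')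

/-- a connected locally path connected set is path connected -/
theorem LPC.joined {S : Set X} (h : LPC S) (hc : IsPreconnected S) {x y : X} (hx : x ∈ S)
    (hy : y ∈ S) : JoinedIn S x y := by
  have : LCo S (fun z => JoinedIn S x z) := by
    intro z hz
    obtain ⟨N, h1, h2, h3⟩ := h z hz univ univ_mem
    filter_upwards [h1] with w hw
    have j := (h3 w hw).mono fun a ha => (h2 ha).2
    exact propext ⟨fun k => k.trans j.symm, fun k => k.trans j⟩
  exact (this.eq hc hx hy : JoinedIn S x x = JoinedIn S x y) ▸ JoinedIn.refl hx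

end Cvx

section Loc

variable {E : Type*} [NormedAddCommGroup E] [NormedSpace ℝ E]

theorem cvx_of_equiv {n : ℕ} {K : Set (Fin n → ℝ)} {D : Set E} (hK : Convex ℝ K)
    (e : PLEquiv K D) : Cvx D := ⟨n, K, e.f, e.g, hK, e.pf.1, e.pg.1, e.mf, e.mg, e.ri⟩

theorem cvx_ball {k : ℕ} {D Γ : Set E} (h : IsBall k D Γ) : Cvx D :=
  let ⟨e, _⟩ := h; cvx_of_equiv (convex_closedBall _ _) e

theorem lcv_at {n : ℕ} {K : Set (Fin n → ℝ)} {D S : Set E} (hK : Convex ℝ K) (e : PLEquiv K D)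
    (hs : D ⊆ S) {x : E} (hx : x ∈ D) (hD : D ∈ 𝓝[S] x) {W : Set E} (hW : W ∈ 𝓝 x) :
    ∃ N ∈ 𝓝[S] x, N ⊆ W ∩ S ∧ Cvx N := by
  have hc : ContinuousWithinAt e.f K (e.g x) := e.pf.1 _ (e.mg hx)
  have : e.f ⁻¹' W ∈ 𝓝[K] (e.g x) := hc (by rwa [e.ri x hx])
  obtain ⟨r, hr, hb⟩ := Metric.mem_nhdsWithin_iff.1 this
  refine ⟨e.f '' (K ∩ ball (e.g x) r), ?_, ?_,
    cvx_of_equiv (hK.inter (convex_ball _ _)) (e.restrImage inter_subset_left)⟩
  · have h1 : e.g ⁻¹' ball (e.g x) r ∈ 𝓝[D] x := e.pg.1 x hx (ball_mem_nhds _ hr)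
    filter_upwards [hD, nhdsWithin_le_iff.2 hD h1] with y k1 k2
    exact ⟨e.g y, ⟨e.mg k1, k2⟩, e.ri y k1⟩
  · rintro _ ⟨y, hy, rfl⟩
    exact ⟨hb ⟨hy.2, hy.1⟩, hs (e.mf hy.1)⟩

theorem Srf.lcv {S dS : Set E} (h : Srf S dS) : LCv S := by
  intro x hx W hW
  obtain ⟨D, Γ, ⟨e, -⟩, h2, h3, -⟩ := h.loc x hx
  exact lcv_at (convex_closedBall _ _) e h2 (mem_of_mem_nhdsWithin hx h3) h3 hW

end Loc

/-! ### levels of the cube -/

theorem mem_cube {k : ℕ} {y : Fin k → ℝ} : y ∈ cube k ↔ ∀ i, |y i| ≤ 1 := by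
  simp only [cube, mem_closedBall_zero_iff]
  exact pi_norm_le_iff_of_nonneg zero_le_one

theorem mem_sph {k : ℕ} {y : Fin k → ℝ} : y ∈ sph k ↔ y ∈ cube k ∧ ∃ i, |y i| = 1 := by
  simp only [sph, cube, mem_sphere_zero_iff_norm, mem_closedBall_zero_iff]
  constructor
  · intro h
    obtain ⟨i, hi⟩ := exists_coord (x := y) (by rintro rfl; simp at h)
    exact ⟨h.le, i, by rw [← hi, h]⟩
  · rintro ⟨h, i, hi⟩
    exact le_antisymm h (hi ▸ norm_le_pi_norm y i)

theorem mem_sph2 {y : P} : y ∈ sph 2 ↔ y ∈ cube 2 ∧ (|y 0| = 1 ∨ |y 1| = 1) := by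
  rw [mem_sph, Fin.exists_fin_two]

/-- the level `t` -/
def lev (t : ℝ) : Set V := {y | y 2 = t}

theorem lv_mem {t : ℝ} (ht : |t| ≤ 1) {y : P} (hy : y ∈ cube 2) : lv t y ∈ cube 3 := by
  rw [mem_cube] at *
  intro i
  fin_cases i
  · exact hy 0
  · exact hy 1
  · exact ht

theorem pr_mem {y : V} (hy : y ∈ cube 3) : pr y ∈ cube 2 := by
  rw [mem_cube] at *
  intro i
  fin_cases i
  · exact hy 0
  · exact hy 1

theorem pr_lv (t : ℝ) (y : P) : pr (lv t y) = y := by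
  ext i; fin_cases i <;> rfl

theorem lv_pr (y : V) : lv (y 2) (pr y) = y := by
  ext i; fin_cases i <;> rfl

theorem continuous_lv : Continuous fun p : ℝ × P => lv p.1 p.2 := by
  refine continuous_pi fun i => ?_
  fin_cases i <;> simp [lv] <;> fun_prop

theorem continuous_pr : Continuous pr := by
  refine continuous_pi fun i => ?_
  fin_cases i <;> simp [pr] <;> fun_prop

theorem pl_lv (t : ℝ) (K : Set P) : PLOn (lv t) K :=
  Lad50.pl_vec3 (Lad50.pl_coord 0 K) (Lad50.pl_coord 1 K) (plOn_const t K)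

theorem pl_pr (K : Set V) : PLOn pr K := Lad50.pl_vec2 (Lad50.pl_coord 0 K) (Lad50.pl_coord 1 K)

/-- the square at level `t` -/
def lvE {t : ℝ} (ht : |t| ≤ 1) : PLEquiv (cube 2) (cube 3 ∩ lev t) :=
  ⟨lv t, pr, pl_lv t _, pl_pr _, fun _ hy => ⟨lv_mem ht hy, rfl⟩, fun _ hy => pr_mem hy.1,
    fun y _ => pr_lv t y, fun y hy => by rw [← (hy.2 : y 2 = t)]; exact lv_pr y⟩

theorem lv_sph {t : ℝ} (ht : |t| ≤ 1) : lv t '' sph 2 = side ∩ lev t := by
  ext y
  constructor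
  · rintro ⟨z, hz, rfl⟩
    rw [mem_sph2] at hz
    exact ⟨⟨lv_mem ht hz.1, hz.2⟩, rfl⟩
  · rintro ⟨hy, hy'⟩
    exact ⟨pr y, mem_sph2.2 ⟨pr_mem hy.1, hy.2⟩, by rw [← (hy' : y 2 = t)]; exact lv_pr y⟩

theorem isBall_lev {R : Set V} (e : PLEquiv (cube 3) R) {t : ℝ} (ht : |t| ≤ 1) :
    IsBall 2 (e.f '' (cube 3 ∩ lev t)) (e.f '' (side ∩ lev t)) :=
  ⟨(lvE ht).trans (e.restrImage inter_subset_left), by
    rw [← lv_sph ht, image_image]; rfl⟩

/-! ### splittings -/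

theorem mem_img {R : Set V} (e : PLEquiv (cube 3) R) {T : Set V} {y : V} (hy : y ∈ cube 3) :
    e.f y ∈ e.f '' (cube 3 ∩ T) ↔ y ∈ T :=
  ⟨fun ⟨_, hz, h⟩ => e.injOn hz.1 hy h ▸ hz.2, fun h => ⟨y, ⟨hy, h⟩, rfl⟩⟩

theorem Fl.symm {A B : Set V} {x : V} (h : Fl A B x) : Fl B A x := by
  obtain ⟨C, e, rfl, hC, h1, h2⟩ := h
  obtain ⟨C', e', h0, hC', hsub, hA⟩ := shrink e hC univ_mem (-1) (by simp)
  refine ⟨C', e', h0, hC', ?_, ?_⟩
  · rw [← hA dn up (fun a ha y => by simp [dn, up, dg_apply, ha]), ← h2]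
    ext y; exact ⟨fun k => ⟨k.1, (hsub k.1).1, k.2⟩, fun k => ⟨k.1, k.2.2⟩⟩
  · rw [← hA up dn (fun a ha y => by
      simp only [dn, up, dg_apply, mem_ofPred_eq, if_true]
      constructor <;> intro k <;> nlinarith), ← h1]
    ext y; exact ⟨fun k => ⟨k.1, (hsub k.1).1, k.2⟩, fun k => ⟨k.1, k.2.2⟩⟩

theorem Fl.congr {A B A' B' : Set V} {x : V} (h : Fl A B x) {N : Set V} (hN : N ∈ 𝓝 x)
    (eA : ∀ y ∈ N, (y ∈ A' ↔ y ∈ A)) (eB : ∀ y ∈ N, (y ∈ B' ↔ y ∈ B)) : Fl A' B' x := by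
  obtain ⟨C, e, rfl, hC, h1, h2⟩ := h
  obtain ⟨C', e', h0, hC', hsub, hA⟩ := shrink e hC hN 1 (by simp)
  refine ⟨C', e', h0, hC', ?_, ?_⟩
  · rw [← hA up up dg_up, ← h1]
    ext y
    exact ⟨fun k => ⟨k.1, (hsub k.1).1, (eA y (hsub k.1).2).1 k.2⟩,
      fun k => ⟨k.1, (eA y (hsub k.1).2).2 k.2.2⟩⟩
  · rw [← hA dn dn (fun a ha y => by
      simp only [dn, dg_apply, mem_ofPred_eq, if_true]
      constructor <;> intro k <;> nlinarith), ← h2]
    ext y
    exact ⟨fun k => ⟨k.1, (hsub k.1).1, (eB y (hsub k.1).2).1 k.2⟩,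
      fun k => ⟨k.1, (eB y (hsub k.1).2).2 k.2.2⟩⟩

theorem chart_floor {A B C : Set V} (e : PLEquiv (cube 3) C) (h1 : C ∩ A = e.f '' (cube 3 ∩ up))
    (h2 : C ∩ B = e.f '' (cube 3 ∩ dn)) : C ∩ (A ∩ B) = e.f '' (cube 3 ∩ fl) := by
  rw [inter_inter_distrib_left, h1, h2, ← e.injOn.image_inter inter_subset_left inter_subset_left]
  congr 1
  ext y
  simp only [mem_inter_iff, up, dn, fl, mem_ofPred_eq]
  exact ⟨fun k => ⟨k.1.1, le_antisymm k.2.2 k.1.2⟩, fun k => ⟨⟨k.1, k.2.ge⟩, k.1, k.2.le⟩⟩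

theorem Spl.symm {U A B : Set V} (h : Spl U A B) : Spl U B A :=
  ⟨h.isOpen, by rw [union_comm, h.union], h.clB, h.clA, fun x hx => (h.flat x ⟨hx.2, hx.1⟩).symm⟩

theorem Spl.subA {U A B : Set V} (h : Spl U A B) : A ⊆ U := h.union ▸ subset_union_left
theorem Spl.subB {U A B : Set V} (h : Spl U A B) : B ⊆ U := h.union ▸ subset_union_right

theorem Spl.diff {U A B : Set V} (h : Spl U A B) : A \ (A ∩ B) = U \ B := by
  ext x
  rw [← h.union]
  simp only [Set.mem_sdiff, mem_inter_iff, mem_union]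
  tauto

theorem Spl.mf {U A B : Set V} (h : Spl U A B) : Mf A (A ∩ B) := by
  refine ⟨inter_subset_left, h.diff ▸ h.clB, fun x hx => ?_⟩
  obtain ⟨C, e, h0, hC, h1, h2⟩ := h.flat x hx
  exact ⟨C, e, h0, hC, h1, chart_floor e h1 h2⟩

theorem Spl.relCl {U A B : Set V} (h : Spl U A B) : RelCl A B := relCl_of_isOpen h.subB h.clA

theorem Mf.lcv {M dM : Set V} (h : Mf M dM) : LCv M := by
  intro x hx W hW
  by_cases k : x ∈ dM
  · obtain ⟨C, e, rfl, hC, h1, -⟩ := h.2.2 x k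
    have cv : Convex ℝ (cube 3 ∩ up) := (convex_closedBall _ _).inter
      (convex_halfSpace_ge (f := fun y : V => y 2) ⟨fun _ _ => rfl, fun _ _ => rfl⟩ 0)
    refine lcv_at cv (e.restrImage (inter_subset_left (t := up))) ?_ ?_ ?_ hW
    · rw [← h1]; exact inter_subset_right
    · exact ⟨0, ⟨zero_mem_cube 3, le_refl (0 : ℝ)⟩, rfl⟩
    · rw [← h1, inter_comm]; exact inter_mem_nhdsWithin _ hC
  · obtain ⟨r, hr, hb⟩ := Metric.mem_nhds_iff.1 (h.2.1.mem_nhds ⟨hx, k⟩)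
    exact lcv_at (convex_ball x r) (PLEquiv.refl _) (fun y hy => (hb hy).1) (mem_ball_self hr)
      (mem_nhdsWithin_of_mem_nhds (ball_mem_nhds x hr)) hW

theorem Spl.disc {U A B : Set V} (h : Spl U A B) {x : V} (hx : x ∈ A ∩ B) {W : Set V}
    (hW : W ∈ 𝓝 x) : ∃ D Γ : Set V, IsBall 2 D Γ ∧ D ⊆ A ∩ B ∩ W ∧ D ∈ 𝓝[A ∩ B] x ∧ x ∉ Γ := by
  obtain ⟨C, e, h0, hC, h1, h2⟩ := (h.flat x hx).congr (A' := A ∩ W) (B' := B ∩ W) hW
    (fun y hy => and_iff_left hy) fun y hy => and_iff_left hy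
  have h3 := chart_floor e h1 h2
  refine ⟨_, _, isBall_lev e (t := 0) (by simp), ?_, ?_, ?_⟩
  · intro y hy
    have := h3.superset hy
    exact ⟨⟨this.2.1.1, this.2.2.1⟩, this.2.1.2⟩
  · filter_upwards [mem_nhdsWithin_of_mem_nhds hC, mem_nhdsWithin_of_mem_nhds hW,
      self_mem_nhdsWithin] with y k1 k2 k3
    exact h3.subset ⟨k1, ⟨k3.1, k2⟩, k3.2, k2⟩
  · rintro ⟨y, hy, e1⟩
    have : y = 0 := e.injOn hy.1.1 (zero_mem_cube 3) (e1.trans h0.symm)
    subst this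
    simpa using hy.1.2

theorem Spl.lcv {U A B : Set V} (h : Spl U A B) : LCv (A ∩ B) := by
  intro x hx W hW
  obtain ⟨D, Γ, ⟨e, -⟩, h2, h3, -⟩ := h.disc hx univ_mem
  exact lcv_at (convex_closedBall _ _) e (fun y hy => (h2 hy).1) (mem_of_mem_nhdsWithin hx h3) h3 hW

theorem St.symm {U Γ A B : Set V} (h : St U Γ A B) : St U Γ B A :=
  ⟨h.spl.symm, h.dj, by rw [inter_comm]; exact h.cpt, by rw [inter_comm]; exact h.bd⟩

theorem St.nhds_eq {U Γ A B : Set V} (h : St U Γ A B) {x : V} (hx : x ∈ U) :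
    𝓝[A ∩ B ∪ Γ] x = 𝓝[A ∩ B] x := by
  refine nhdsWithin_eq_nhdsWithin' (h.spl.isOpen.mem_nhds hx) ?_
  rw [union_inter_distrib_right, h.dj.symm.inter_eq, union_empty]

theorem St.srf {U Γ A B : Set V} (h : St U Γ A B) : Srf (A ∩ B ∪ Γ) Γ := by
  refine ⟨h.cpt, subset_union_right, fun x hx => ?_⟩
  rcases hx with hx | hx
  · obtain ⟨D, G, h1, h2, h3, h4⟩ := h.spl.disc hx univ_mem
    have hU := h.spl.subA hx.1
    exact ⟨D, G, h1, fun y hy => Or.inl (h2 hy).1, by rwa [h.nhds_eq hU],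
      iff_of_false (disjoint_left.1 h.dj hU) h4⟩
  · obtain ⟨D, G, h1, h2, h3, h4⟩ := h.bd x hx univ univ_mem
    exact ⟨D, G, h1, fun y hy => (h2 hy).1, h3, iff_of_true hx h4⟩

theorem Srf.clop {S dS T : Set V} (h : Srf S dS) (hT : Clop S T) : Srf T (dS ∩ T) := by
  refine ⟨hT.isCompact h.cpt, inter_subset_right, fun x hx => ?_⟩
  obtain ⟨D, G, h1, h2, h3, h4⟩ := h.loc x (hT.sub hx)
  exact ⟨D, G, h1, hT.subset (cvx_ball h1).isPreconnected h2
    (mem_of_mem_nhdsWithin (hT.sub hx) h3) hx, by rwa [hT.nhds_eq hx],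
    by rw [← h4]; exact and_iff_left hx⟩

/-! ### bridges -/

section Bridge

variable {X : Type*} [TopologicalSpace X]

theorem coc_of_cech {ι A : Type*} [Finite ι] [AddCommGroup A] {C : ι → Set X}
    {d : ι → ι → X → A} {S : Set X} (h : Coh_184.Coc C d S) :
    ∃ c : X → X → Multiplicative A, Coc S c ∧
      ∀ T ⊆ S, (Tr T c ↔ Coh_184.Triv C d T) := by
  classical
  rcases S.eq_empty_or_nonempty with rfl | ⟨x0, hx0⟩
  · refine ⟨fun _ _ => 1, fun _ hx => hx.elim, fun T hT => iff_of_true (tr_one T) ?_⟩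
    exact ⟨fun _ _ => 0, fun i x hx => (hT hx.2).elim, fun i j x _ _ hx => (hT hx).elim⟩
  have : Nonempty ι := ⟨(mem_iUnion.1 (h.cov hx0)).choose⟩
  choose! ι0 hι using fun x (hx : x ∈ S) => mem_iUnion.1 (h.cov hx)
  have near : ∀ x : X, ∀ᶠ y in 𝓝 x, ∀ i, y ∈ C i → x ∈ C i := by
    intro x
    rw [eventually_all]
    intro i
    by_cases hxi : x ∈ C i
    · exact Eventually.of_forall fun _ _ => hxi
    · filter_upwards [(h.closed i).isOpen_compl.mem_nhds hxi] with y hy hy2 using (hy hy2).elim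
  have near2 : ∀ x ∈ S, ∀ᶠ y in 𝓝[S] x, ∀ i j, y ∈ C i → y ∈ C j → d i j y = d i j x := by
    intro x hx
    rw [eventually_all]; intro i
    rw [eventually_all]; intro j
    by_cases k : x ∈ C i ∩ C j ∩ S
    · have := h.lc i j x k
      rw [eventually_nhdsWithin_iff] at this ⊢
      filter_upwards [this] with y hy h1 h2 h3 using hy ⟨⟨h2, h3⟩, h1⟩
    · filter_upwards [mem_nhdsWithin_of_mem_nhds (near x)] with y hy h2 h3
      exact (k ⟨⟨hy i h2, hy j h3⟩, hx⟩).elim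
  refine ⟨fun x y => Multiplicative.ofAdd (d (ι0 y) (ι0 x) x), fun x hx => ?_, fun T hT => ?_⟩
  · filter_upwards [mem_nhdsWithin_of_mem_nhds (near x), near2 x hx, self_mem_nhdsWithin,
      mem_nhdsWithin_of_mem_nhds (near x).eventually_nhds] with y h1 h2 h3 h4
    filter_upwards [mem_nhdsWithin_of_mem_nhds (near y), mem_nhdsWithin_of_mem_nhds h4,
      self_mem_nhdsWithin] with z k1 k2 k3
    rw [← ofAdd_add, h2 _ _ (k1 _ (hι z k3)) (hι y h3), add_comm,
      h.coc _ _ _ x (k2 _ (hι z k3)) (h1 _ (hι y h3)) (hι x hx) hx]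
  · constructor
    · rintro ⟨b, hb⟩
      refine ⟨fun i x => d i (ι0 x) x + (b x).toAdd, fun i x hx => ?_, fun i j x hi hj hx => ?_⟩
      · have hxS := hT hx.2
        filter_upwards [(hb x hx.2).filter_mono (nhdsWithin_mono x inter_subset_right),
          (near2 x hxS).filter_mono (nhdsWithin_mono x fun y hy => hT hy.2),
          mem_nhdsWithin_of_mem_nhds (near x), self_mem_nhdsWithin] with y h1 h2 h3 h4
        have hy := hι y (hT h4.2)
        rw [h1, h2 _ _ h4.1 hy, toAdd_mul, toAdd_ofAdd,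
          ← h.coc i (ι0 y) (ι0 x) x hx.1 (h3 _ hy) (hι x hxS) hxS]
        abel
      · beta_reduce
        rw [← h.coc i j (ι0 x) x hi hj (hι x (hT hx)) (hT hx)]; abel
    · rintro ⟨χ, h1, h2⟩
      refine ⟨fun x => Multiplicative.ofAdd (χ (ι0 x) x), fun x hx => ?_⟩
      have n3 : ∀ᶠ y in 𝓝[T] x, ∀ i, y ∈ C i → χ i y = χ i x := by
        rw [eventually_all]; intro i
        by_cases k : x ∈ C i
        · have := h1 i x ⟨k, hx⟩
          rw [eventually_nhdsWithin_iff] at this ⊢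
          filter_upwards [this] with y hy k1 k2 using hy ⟨k2, k1⟩
        · filter_upwards [mem_nhdsWithin_of_mem_nhds (near x)] with y hy k2 using (k (hy i k2)).elim
      filter_upwards [n3, mem_nhdsWithin_of_mem_nhds (near x), self_mem_nhdsWithin] with y k1 k2 k3
      have hy := hι y (hT k3)
      rw [← ofAdd_add, k1 _ hy, ← h2 _ _ x (k2 _ hy) (hι x (hT hx)) hx]
      congr 1
      abel

theorem h1_of {S : Set X} (h : ∀ c : X → X → Z2, Coc S c → Tr S c) : H1 S := by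
  intro n C d hd
  obtain ⟨c, hc, k⟩ := coc_of_cech hd
  exact (k S Subset.rfl).1 (h c hc)

theorem h1rel_of {S A : Set X} (hA : A ⊆ S) (h : ∀ c : X → X → Z2, Coc S c → Tr A c → Tr S c) :
    H1Rel S A := by
  intro n C d hd ht
  obtain ⟨c, hc, k⟩ := coc_of_cech hd
  exact (k S Subset.rfl).1 (h c hc ((k A hA).2 ht))

/-- a null-homotopy as a map of the square -/
theorem NH.square {X : Type} [TopologicalSpace X] {A S : Set X} {x : X} {p : Path x x}
    (hp : ∀ t, p t ∈ S) (h : NH A p) :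
    ∃ f : P → X, Continuous f ∧ MapsTo f (cube 2) A ∧ MapsTo f (sph 2) S ∧
      (Null S f (cube 2) (sph 2) → NH S p) := by
  obtain ⟨F, hF⟩ := h
  let π : ℝ → I := fun s => projIcc 0 1 zero_le_one ((s + 1) / 2)
  have hπ : Continuous π := continuous_projIcc.comp (by fun_prop)
  have p0 : π (-1) = 0 := by simp only [π]; norm_num
  have p1 : π 1 = 1 := by simp only [π]; norm_num
  have pt : ∀ t : I, π (2 * t - 1) = t := fun t => by
    simp only [π]
    rw [show (2 * (t : ℝ) - 1 + 1) / 2 = t by ring]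
    exact projIcc_val _ t
  have hx : x ∈ S := by simpa using hp 0
  refine ⟨fun y => F (π (y 0), π (y 1)), by fun_prop, fun y _ => hF _, fun y hy => ?_, ?_⟩
  · rcases (mem_sph2.1 hy).2 with k | k <;> rcases abs_eq zero_le_one |>.1 k with k | k
    · simp [k, p1, hx]
    · simp [k, p0, hp]
    · simp only [k, p1, F.target]; exact hx
    · simp only [k, p0, F.source]; exact hx
  · rintro ⟨g, g1, g2, g3⟩
    have m : ∀ z : I × I, (![2 * (z.1 : ℝ) - 1, 2 * (z.2 : ℝ) - 1] : P) ∈ cube 2 := by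
      intro z
      rw [mem_cube]
      intro i
      fin_cases i <;> simp only [Fin.zero_eta, Fin.mk_one, Matrix.cons_val_zero,
        Matrix.cons_val_one, abs_le] <;> constructor <;>
        linarith [z.1.2.1, z.1.2.2, z.2.2.1, z.2.2.2]
    have e : ∀ z : I × I, (z.1 = 0 ∨ z.1 = 1 ∨ z.2 = 0 ∨ z.2 = 1) →
        g ![2 * (z.1 : ℝ) - 1, 2 * (z.2 : ℝ) - 1] = F z := by
      intro z hz
      rw [g3 (mem_sph2.2 ⟨m z, ?_⟩)]
      · simp [pt]
      · rcases hz with k | k | k | k <;> simp [k] <;> norm_num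
    refine ⟨⟨⟨⟨fun z => g ![2 * (z.1 : ℝ) - 1, 2 * (z.2 : ℝ) - 1],
      g1.comp_continuous (continuous_pi fun i => by fin_cases i <;> simp <;> fun_prop) m⟩,
      fun t => ?_, fun t => ?_⟩, fun t s hs => ?_⟩, fun z => g2 (m z)⟩
    · exact (e (0, t) (Or.inl rfl)).trans (by simp)
    · exact (e (1, t) (Or.inr (Or.inl rfl))).trans (by simp)
    · refine (e (t, s) (Or.inr (Or.inr hs))).trans (F.eq_fst t hs)

/-- the crossing cocycle of a clopen part of the surface; `sd` is constant on `U \ B` and on `B` -/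
theorem cross {G : Type*} [Group G] {U A B C : Set X} (hU : A ∪ B = U) (hA : IsOpen (U \ A))
    (hB : IsOpen (U \ B)) (hC : Clop (A ∩ B) C) {sd : X → G} {a b : G}
    (ha : ∀ x ∈ U \ B, sd x = a) (hb : ∀ x ∈ B, sd x = b) [DecidablePred (· ∈ C)] :
    Coc U (fun x y => if x ∈ C then (sd x)⁻¹ * sd y else 1) := by
  have lc : ∀ y ∈ U, y ∉ A ∩ B → ∀ᶠ z in 𝓝 y, sd z = sd y := by
    intro y hy hn
    by_cases k : y ∈ B
    · filter_upwards [hA.mem_nhds ⟨hy, fun q => hn ⟨q, k⟩⟩] with z hz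
      rw [hb y k, hb z ((hU.superset hz.1).resolve_left hz.2)]
    · filter_upwards [hB.mem_nhds ⟨hy, k⟩] with z hz
      rw [ha y ⟨hy, k⟩, ha z hz]
  have cl : ∀ y ∈ U, y ∉ A ∩ B → ∀ᶠ z in 𝓝 y, z ∉ A ∩ B := by
    intro y hy hn
    by_cases k : y ∈ B
    · filter_upwards [hA.mem_nhds ⟨hy, fun q => hn ⟨q, k⟩⟩] with z hz q using hz.2 q.1
    · filter_upwards [hB.mem_nhds ⟨hy, k⟩] with z hz q using hz.2 q.2
  intro x hx
  by_cases k : x ∈ C
  · have := hC.mem k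
    rw [← eventually_mem_set, eventually_nhdsWithin_iff] at this
    filter_upwards [mem_nhdsWithin_of_mem_nhds this, self_mem_nhdsWithin] with y h1 h2
    by_cases q : y ∈ C
    · filter_upwards with z
      rw [if_pos k, if_pos k, if_pos q]; group
    · filter_upwards [mem_nhdsWithin_of_mem_nhds (lc y h2 fun r => q (h1 r))] with z hz
      rw [if_pos k, if_pos k, if_neg q, hz, mul_one]
  · have : ∀ᶠ y in 𝓝 x, y ∉ C := by
      by_cases q : x ∈ A ∩ B
      · have := hC.notMem q k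
        rw [← eventually_mem_set, eventually_nhdsWithin_iff] at this
        filter_upwards [this] with y hy r using hy (hC.sub r) r
      · filter_upwards [cl x hx q] with y hy r using hy (hC.sub r)
    filter_upwards [mem_nhdsWithin_of_mem_nhds this] with y hy
    filter_upwards with z
    rw [if_neg k, if_neg k, if_neg hy, mul_one]

end Bridge

end Crest.Agent.X212.Lev33
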