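import Crest.Agent.X212.Lev33.Nice
import Crest.Agent.X212.Ann83.Main

/-!
# Row 212, layer T, LEV (helper33): the compression theorem
-/

set_option autoImplicit false

open Set Metric Topology Filter Crest.Agent.R096 Crest.Agent.R096.Ce_537 Crest.Agent.X212.Prd34
  Crest.Agent.X212.Srf12

namespace Crest.Agent.X212.Lev33

theorem isConnected_sph2 : IsConnected (sph 2) :=
  isConnected_sphere (by rw [rank_fin_fun]; exact_mod_cast one_lt_two) _ zero_le_one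

theorem side_sub : side ⊆ cube 3 := fun _ h => h.1

theorem lv_side {t : ℝ} (ht : |t| ≤ 1) {y : P} (hy : y ∈ sph 2) : lv t y ∈ side :=
  ((lv_sph ht).subset ⟨y, hy, rfl⟩).1

theorem conn_lev {R : Set V} (e : PLEquiv (cube 3) R) {t : ℝ} (ht : |t| ≤ 1) :
    IsConnected (e.f '' (side ∩ lev t)) := by
  rw [← lv_sph ht]
  exact (isConnected_sph2.image _ (pl_lv t _).1).image _ (e.pf.1.mono (by
    rw [lv_sph ht]; exact fun _ h => h.1.1))

theorem conn_band {R : Set V} (e : PLEquiv (cube 3) R) {ε : ℝ} (h1 : ε ≤ 1) :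
    IsPreconnected (e.f '' (side ∩ lc ε)) := by
  have : side ∩ lc ε = (fun p : ℝ × P => lv p.1 p.2) '' (Icc (-ε) ε ×ˢ sph 2) := by
    ext y
    constructor
    · rintro ⟨hy, hy'⟩
      exact ⟨(y 2, pr y), ⟨abs_le.1 hy'.2, mem_sph2.2 ⟨pr_mem hy.1, hy.2⟩⟩, lv_pr y⟩
    · rintro ⟨⟨t, z⟩, ⟨ht, hz⟩, rfl⟩
      have k := lv_side ((abs_le.2 ht).trans h1) hz
      exact ⟨k, k.1, abs_le.2 ht⟩
  refine IsPreconnected.image ?_ _ (e.pf.1.mono fun _ h => h.1.1)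
  rw [this]
  exact (isPreconnected_Icc.prod isConnected_sph2.2).image _ continuous_lv.continuousOn

/-- a parallel curve that bounds a disc in `S` -/
theorem null_of_cap {R S E : Set V} (e : PLEquiv (cube 3) R) {t : ℝ} (ht : |t| ≤ 1)
    (hE : IsBall 2 E (e.f '' (side ∩ lev t))) (hES : E ⊆ S) (hs : e.f '' side ⊆ S) :
    Null S id (e.f '' (cube 3 ∩ fl)) (e.f '' (side ∩ fl)) := by
  classical
  obtain ⟨φ, hφ, -⟩ := (isBall_lev e ht).extend hE (PLEquiv.refl _)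
  let G : P → V := fun y => if ‖y‖ ≤ 1 / 2 then φ.f (e.f (lv t ((2 : ℝ) • y)))
    else e.f (lv (t * (2 - 2 * ‖y‖)) (‖y‖⁻¹ • y))
  have m1 : ∀ y : P, ‖y‖ ≤ 1 / 2 → (2 : ℝ) • y ∈ cube 2 := fun y hy => by
    simp only [cube, mem_closedBall_zero_iff, norm_smul, Real.norm_ofNat]; linarith
  have m2 : ∀ y ∈ cube 2, 1 / 2 ≤ ‖y‖ → lv (t * (2 - 2 * ‖y‖)) (‖y‖⁻¹ • y) ∈ side := by
    intro y hy h
    have h1 : ‖y‖ ≤ 1 := by simpa [cube] using hy
    refine lv_side ?_ (smul_mem_sph (by rintro rfl; norm_num at h))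
    rw [abs_mul, abs_of_nonneg (by linarith : 0 ≤ 2 - 2 * ‖y‖)]
    nlinarith [abs_nonneg t]
  have G2 : ∀ y : P, 1 / 2 ≤ ‖y‖ → G y = e.f (lv (t * (2 - 2 * ‖y‖)) (‖y‖⁻¹ • y)) := by
    intro y h
    simp only [G]
    split_ifs with k
    · have k' : ‖y‖ = 1 / 2 := le_antisymm k h
      have : (2 : ℝ) • y ∈ sph 2 := by
        simp only [sph, mem_sphere_zero_iff_norm, norm_smul, Real.norm_ofNat, k']; norm_num
      rw [hφ ⟨_, ⟨lv_side ht this, rfl⟩, rfl⟩, k']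
      norm_num
      rfl
    · rfl
  have cG : ContinuousOn G (cube 2) := by
    have e1 : cube 2 = closedBall 0 (1 / 2) ∪ (cube 2 ∩ {y | 1 / 2 ≤ ‖y‖}) := by
      ext y
      simp only [cube, mem_union, mem_inter_iff, mem_closedBall_zero_iff, mem_ofPred_eq]
      constructor
      · intro h
        rcases le_total ‖y‖ (1 / 2) with k | k
        exacts [Or.inl k, Or.inr ⟨h, k⟩]
      · rintro (h | h)
        exacts [by linarith, h.1]
    rw [e1]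
    refine ContinuousOn.union_of_isClosed ?_ ?_ isClosed_closedBall
      (isClosed_closedBall.inter (isClosed_le continuous_const continuous_norm))
    · refine ContinuousOn.congr (f := fun y => φ.f (e.f (lv t ((2 : ℝ) • y)))) ?_
        fun y hy => if_pos (mem_closedBall_zero_iff.1 hy)
      refine φ.pf.1.comp (e.pf.1.comp
        (continuous_lv.comp (f := fun y : P => (t, (2 : ℝ) • y)) (by fun_prop)).continuousOn
        fun y hy => lv_mem ht (m1 y (mem_closedBall_zero_iff.1 hy))) fun y hy => ?_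
      exact ⟨_, ⟨lv_mem ht (m1 y (mem_closedBall_zero_iff.1 hy)), rfl⟩, rfl⟩
    · refine ContinuousOn.congr (f := fun y => e.f (lv (t * (2 - 2 * ‖y‖)) (‖y‖⁻¹ • y))) ?_
        fun y hy => G2 y hy.2
      refine e.pf.1.comp (continuous_lv.comp_continuousOn
        (f := fun y : P => (t * (2 - 2 * ‖y‖), ‖y‖⁻¹ • y)) ?_) fun y hy => (m2 y hy.1 hy.2).1
      refine ContinuousOn.prodMk (by fun_prop) (ContinuousOn.smul
        (continuous_norm.continuousOn.inv₀ fun y hy => ?_) continuousOn_id)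
      have : 1 / 2 ≤ ‖y‖ := hy.2
      linarith
  have mG : MapsTo G (cube 2) S := by
    intro y hy
    rcases le_total ‖y‖ (1 / 2) with k | k
    · simp only [G, if_pos k]
      exact hES (φ.mf ⟨_, ⟨lv_mem ht (m1 y k), rfl⟩, rfl⟩)
    · rw [G2 y k]; exact hs ⟨_, m2 y hy k, rfl⟩
  have sub : e.f '' (cube 3 ∩ fl) ⊆ R := by rintro _ ⟨y, hy, rfl⟩; exact e.mf hy.1
  refine ⟨fun x => G (pr (e.g x)), cG.comp (continuous_pr.comp_continuousOn (e.pg.1.mono sub))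
    fun x hx => pr_mem (e.mg (sub hx)), fun x hx => mG (pr_mem (e.mg (sub hx))), ?_⟩
  rintro _ ⟨y, hy, rfl⟩
  have h1 : ‖pr y‖ = 1 := by
    simpa [sph] using (mem_sph2.2 ⟨pr_mem hy.1.1, hy.1.2⟩ : pr y ∈ sph 2)
  show G (pr (e.g (e.f y))) = e.f y
  rw [e.li y hy.1.1, G2 _ (by rw [h1]; norm_num), h1]
  norm_num
  rw [← (hy.2 : y 2 = 0), lv_pr]

/-- the surgery data of a move -/
theorem move_sg {U Γ A B R : Set V} (h : St U Γ A B) (e : PLEquiv (cube 3) R) {ε : ℝ}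
    (hR : R ⊆ A) (hs : R ∩ (A ∩ B) = e.f '' side) (h0 : 0 < ε) (h1 : ε < 1)
    (h' : Spl U (A \ e.f '' lo ε) (B ∪ e.f '' lc ε)) :
    ∃ S0 : Set V, Sg Z2 S0 (e.f '' (side ∩ lc ε)) (e.f '' (cube 3 ∩ lev ε))
        (e.f '' (cube 3 ∩ lev (-ε))) ∧ S0 ∪ e.f '' (side ∩ lc ε) = A ∩ B ∪ Γ ∧
      S0 ∪ e.f '' (cube 3 ∩ lev ε) ∪ e.f '' (cube 3 ∩ lev (-ε)) =
        (A \ e.f '' lo ε) ∩ (B ∪ e.f '' lc ε) ∪ Γ ∧
      St U Γ (A \ e.f '' lo ε) (B ∪ e.f '' lc ε) := by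
  have a1 : |ε| ≤ 1 := by rw [abs_of_pos h0]; exact h1.le
  have a2 : |-ε| ≤ 1 := by rwa [abs_neg]
  have RU : R ⊆ U := hR.trans h.spl.subA
  have nΓ : ∀ y ∈ cube 3, e.f y ∉ Γ := fun y hy => disjoint_left.1 h.dj (RU (e.mf hy))
  have mS : ∀ y ∈ cube 3, (e.f y ∈ A ∩ B ↔ y ∈ side) := fun y hy =>
    ⟨fun k => by
      obtain ⟨z, hz, q⟩ := hs.subset ⟨e.mf hy, k⟩
      exact e.injOn hz.1 hy q ▸ hz, fun k => (hs.superset ⟨y, k, rfl⟩).2⟩
  have mlo : ∀ y ∈ cube 3, (e.f y ∈ e.f '' lo ε ↔ |y 2| < ε) := fun y hy => mem_img e hy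
  let S0 := (A ∩ B ∪ Γ) \ (U \ (A \ e.f '' lo ε))
  have m0 : ∀ y ∈ cube 3, (e.f y ∈ S0 ↔ y ∈ side ∧ ε ≤ |y 2|) := by
    intro y hy
    constructor
    · rintro ⟨k1, k2⟩
      refine ⟨(mS y hy).1 (k1.resolve_right (nΓ y hy)), not_lt.1 fun q => k2 ⟨RU (e.mf hy), ?_⟩⟩
      exact fun r => r.2 ((mlo y hy).2 q)
    · rintro ⟨k1, k2⟩
      exact ⟨Or.inl ((mS y hy).2 k1), fun q => q.2 ⟨hR (e.mf hy), fun r => not_lt.2 k2 ((mlo y hy).1 r)⟩⟩
  have cS0 : IsCompact S0 := h.cpt.diff h'.clA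
  have i1 : ∀ t, |t| = ε → S0 ∩ e.f '' (cube 3 ∩ lev t) = e.f '' (side ∩ lev t) := by
    intro t ht
    ext x
    constructor
    · rintro ⟨k, y, hy, rfl⟩
      exact ⟨y, ⟨((m0 y hy.1).1 k).1, hy.2⟩, rfl⟩
    · rintro ⟨y, hy, rfl⟩
      exact ⟨(m0 y hy.1.1).2 ⟨hy.1, by rw [(hy.2 : y 2 = t), ht]⟩, y, ⟨hy.1.1, hy.2⟩, rfl⟩
  have e2 : S0 ∪ e.f '' (cube 3 ∩ lev ε) ∪ e.f '' (cube 3 ∩ lev (-ε)) =
      (A \ e.f '' lo ε) ∩ (B ∪ e.f '' lc ε) ∪ Γ := by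
    have lv' : ∀ t, |t| = ε → e.f '' (cube 3 ∩ lev t) ⊆ (A \ e.f '' lo ε) ∩ (B ∪ e.f '' lc ε) := by
      rintro t ht _ ⟨y, hy, rfl⟩
      have q : |y 2| = ε := by rw [(hy.2 : y 2 = t), ht]
      exact ⟨⟨hR (e.mf hy.1), fun r => ((mlo y hy.1).1 r).ne q⟩, Or.inr ⟨y, ⟨hy.1, q.le⟩, rfl⟩⟩
    ext x
    constructor
    · rintro ((⟨k1, k2⟩ | k) | k)
      · rcases k1 with k1 | k1
        · exact Or.inl ⟨not_not.1 fun q => k2 ⟨h.spl.subA k1.1, q⟩, Or.inl k1.2⟩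
        · exact Or.inr k1
      · exact Or.inl (lv' ε (abs_of_pos h0) k)
      · exact Or.inl (lv' (-ε) (by rw [abs_neg, abs_of_pos h0]) k)
    · rintro (⟨k1, k2 | ⟨y, hy, rfl⟩⟩ | k)
      · exact Or.inl (Or.inl ⟨Or.inl ⟨k1.1, k2⟩, fun q => q.2 k1⟩)
      · have q : |y 2| = ε := le_antisymm hy.2 (not_lt.1 fun r => k1.2 ((mlo y hy.1).2 r))
        rcases (abs_eq h0.le).1 q with q | q
        · exact Or.inl (Or.inr ⟨y, ⟨hy.1, q⟩, rfl⟩)
        · exact Or.inr ⟨y, ⟨hy.1, q⟩, rfl⟩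
      · exact Or.inl (Or.inl ⟨Or.inr k, fun q => disjoint_left.1 h.dj q.1 k⟩)
  have cR : IsCompact R := e.image_eq ▸ (isCompact_closedBall _ _).image_of_continuousOn e.pf.1
  refine ⟨S0, ⟨cS0.isClosed, ?_, (isBall_lev e a1).isClosed, (isBall_lev e a2).isClosed, ?_, ?_,
    (cvx_ball (isBall_lev e a1)).tr, (cvx_ball (isBall_lev e a2)).tr, ?_, ?_, conn_band e h1.le,
    (cvx_ball (isBall_lev e a1)).isPreconnected, (cvx_ball (isBall_lev e a2)).isPreconnected⟩,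
    ?_, e2, h', h.dj, ?_, fun x hx W hW => ?_⟩
  · refine (IsCompact.image_of_continuousOn ?_ (e.pf.1.mono fun _ h => h.1.1)).isClosed
    refine (isCompact_closedBall (0 : V) 1).of_isClosed_subset ?_ fun _ h => h.1.1
    exact (isClosed_closedBall.inter
      ((isClosed_eq (f := fun y : V => |y 0|) (by fun_prop) continuous_const).union
      (isClosed_eq (f := fun y : V => |y 1|) (by fun_prop) continuous_const))).inter
      (isClosed_closedBall.inter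
        (isClosed_le (f := fun y : V => |y 2|) (by fun_prop) continuous_const))
  · rw [disjoint_left]
    rintro _ ⟨y, hy, rfl⟩ k
    have := (mem_img e hy.1).1 k
    have q : y 2 = ε := hy.2
    have q' : y 2 = -ε := this
    linarith
  · ext x
    constructor
    · rintro ⟨k, y, hy, rfl⟩
      have q : |y 2| = ε := le_antisymm hy.2.2 ((m0 y hy.1.1).1 k).2
      rcases (abs_eq h0.le).1 q with q | q
      · exact ⟨k, Or.inl ⟨y, ⟨hy.1.1, q⟩, rfl⟩⟩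
      · exact ⟨k, Or.inr ⟨y, ⟨hy.1.1, q⟩, rfl⟩⟩
    · rintro ⟨k, ⟨y, hy, rfl⟩ | ⟨y, hy, rfl⟩⟩
      · exact ⟨k, y, ⟨((m0 y hy.1).1 k).1, hy.1, by rw [(hy.2 : y 2 = ε), abs_of_pos h0]⟩, rfl⟩
      · exact ⟨k, y, ⟨((m0 y hy.1).1 k).1, hy.1,
          by rw [(hy.2 : y 2 = -ε), abs_neg, abs_of_pos h0]⟩, rfl⟩
  · rw [i1 ε (abs_of_pos h0)]; exact conn_lev e a1
  · rw [i1 (-ε) (by rw [abs_neg, abs_of_pos h0])]; exact conn_lev e a2
  · ext x
    constructor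
    · rintro (k | ⟨y, hy, rfl⟩)
      · exact k.1
      · exact Or.inl ((mS y hy.1.1).2 hy.1)
    · intro k
      by_cases q : x ∈ U \ (A \ e.f '' lo ε)
      · have k1 := k.resolve_right (disjoint_left.1 h.dj q.1)
        obtain ⟨y, hy, rfl⟩ : x ∈ e.f '' lo ε := not_not.1 fun r => q.2 ⟨k1.1, r⟩
        exact Or.inr ⟨y, ⟨(mS y hy.1).1 k1, hy.1, hy.2.le⟩, rfl⟩
      · exact Or.inl ⟨k, q⟩
  · rw [← e2]
    exact (cS0.union (isBall_lev e a1).isCompact).union (isBall_lev e a2).isCompact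
  · have hRc : Rᶜ ∈ 𝓝 x := cR.isClosed.isOpen_compl.mem_nhds fun q => disjoint_left.1 h.dj (RU q) hx
    have eq : ((A \ e.f '' lo ε) ∩ (B ∪ e.f '' lc ε) ∪ Γ) ∩ Rᶜ = (A ∩ B ∪ Γ) ∩ Rᶜ := by
      ext z
      have z1 : z ∈ e.f '' lo ε → z ∈ R := by rintro ⟨y, hy, rfl⟩; exact e.mf hy.1
      have z2 : z ∈ e.f '' lc ε → z ∈ R := by rintro ⟨y, hy, rfl⟩; exact e.mf hy.1
      simp only [mem_inter_iff, mem_union, Set.mem_sdiff, mem_compl_iff]
      tauto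
    obtain ⟨D, G, k1, k2, k3, k4⟩ := h.bd x hx _ (inter_mem hW hRc)
    refine ⟨D, G, k1, fun z hz => ⟨(eq.superset ⟨(k2 hz).1, (k2 hz).2.2⟩).1, (k2 hz).2.1⟩, ?_, k4⟩
    rwa [nhdsWithin_eq_nhdsWithin' hRc eq]

/-- the number of classes -/
noncomputable def nn (S : Set V) : ℕ := Nat.card (HH Z2 S)

theorem step (lt : LTStmt) (th : ThickStmt) (cp : CompStmt) (sp : SphStmt) {U Γ A B : Set V}
    (ess : ∀ x ∈ Γ, ∃ L ⊆ Γ, x ∈ L ∧ IsPreconnected L ∧ ∃ c : V → V → Z2, Coc (U ∪ Γ) c ∧ ¬ Tr L c)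
    (h : St U Γ A B) {x : V} (p : Path x x) (hp : ∀ t, p t ∈ A ∩ B) (hA : NH A p)
    (hn : ¬ NH (A ∩ B) p) : ∃ A' B', Move A B A' B' ∧ St U Γ A' B' ∧
      (nn (A' ∩ B' ∪ Γ) < nn (A ∩ B ∪ Γ) ∨ (nn (A' ∩ B' ∪ Γ) ≤ nn (A ∩ B ∪ Γ) ∧
        ∀ k, Fam Z2 (A ∩ B ∪ Γ) k → Fam Z2 (A' ∩ B' ∪ Γ) (k + 1))) := by
  obtain ⟨f, f1, f2, f3, f4⟩ := hA.square hp
  obtain ⟨D, G, hD, hDA, hG, hnull⟩ := lt A (A ∩ B) h.spl.mf f f1.continuousOn f2 f3 fun q => hn (f4 q)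
  obtain ⟨R, e, r1, r2, r3, r4⟩ := th A (A ∩ B) D G U h.spl.mf hD hDA hG h.spl.isOpen
    (hDA.trans h.spl.subA)
  have hR : R ⊆ A := fun z hz => (r1 hz).1
  obtain ⟨ε, h0, h1, h'⟩ := cp U A B R e h.spl hR r3 (by rw [r2]; exact r4)
  obtain ⟨S0, sg, e1, e2, st⟩ := move_sg h e hR r3 h0 h1 h'
  refine ⟨_, _, ⟨R, e, ε, hR, r3, h0, h1, rfl, rfl⟩, st, ?_⟩
  have fin : Finite (HH Z2 (S0 ∪ e.f '' (side ∩ lc ε))) := by
    rw [e1]; exact (Srf.lcv h.srf).finite h.cpt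
  have a1 : |ε| ≤ 1 := by rw [abs_of_pos h0]; exact h1.le
  have a2 : |-ε| ≤ 1 := by rwa [abs_neg]
  have srf := st.srf
  rw [← e2] at srf
  unfold nn
  rw [← e1, ← e2]
  rcases sg.lt_or with q | ⟨β, hβ, hne⟩
  · exact Or.inl q
  refine Or.inr ⟨sg.le, fun k hk => ?_⟩
  set D₁ := e.f '' (cube 3 ∩ lev ε)
  set D₂ := e.f '' (cube 3 ∩ lev (-ε))
  set S' := S0 ∪ D₁ ∪ D₂
  obtain ⟨x1, hx1⟩ := (isBall_lev e a1).nonempty
  obtain ⟨x2, hx2⟩ := (isBall_lev e a2).nonempty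
  have s1 : D₁ ⊆ S' := fun _ hz => Or.inl (Or.inr hz)
  have s2 : D₂ ⊆ S' := subset_union_right
  have d1 := sg.q1.subset_connectedComponentIn hx1 s1
  have d2 := sg.q2.subset_connectedComponentIn hx2 s2
  have dj : Disjoint (connectedComponentIn S' x1) (connectedComponentIn S' x2) := by
    rw [disjoint_left]
    intro z k1 k2
    refine hne x1 hx1 x2 hx2 ((hβ.mono (connectedComponentIn_subset _ _)).eq
      isPreconnected_connectedComponentIn (d1 hx1) ?_)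
    rw [connectedComponentIn_eq k1, ← connectedComponentIn_eq k2]
    exact d2 hx2
  have GD : G = e.f '' (side ∩ fl) := by
    rw [← hG, ← r2]
    ext z
    constructor
    · rintro ⟨⟨y, hy, rfl⟩, k⟩
      obtain ⟨w, hw, q⟩ := r3.subset ⟨e.mf hy.1, k⟩
      exact ⟨y, ⟨e.injOn hw.1 hy.1 q ▸ hw, hy.2⟩, rfl⟩
    · rintro ⟨y, hy, rfl⟩
      exact ⟨⟨y, ⟨hy.1.1, hy.2⟩, rfl⟩, (r3.superset ⟨y, hy.1, rfl⟩).2⟩
  have ntr : ∀ (t : ℝ) (ht : |t| ≤ 1) (C : Set V), Clop S' C → IsConnected C →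
      e.f '' (cube 3 ∩ lev t) ⊆ C → C ⊆ S0 ∪ e.f '' (cube 3 ∩ lev t) → Ntr Z2 C := by
    intro t ht C hC hc hDC hCs
    by_contra hn
    have tr : ∀ c : V → V → Z2, Coc C c → Tr C c := fun c hc => not_not.1 fun q => hn ⟨c, hc, q⟩
    have CΓ : Γ ∩ C = ∅ := by
      rw [eq_empty_iff_forall_notMem]
      rintro z ⟨k1, k2⟩
      obtain ⟨L, l1, l2, l3, c, hc, l4⟩ := ess z k1
      refine l4 ((tr c (hc.mono fun w hw => ?_)).mono
        (hC.subset l3 (fun w hw => srf.sub (l1 hw)) l2 k2))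
      rcases e2.subset (hC.sub hw) with q | q
      exacts [Or.inl (h.spl.subA q.1.1), Or.inr q]
    have sC := Srf.clop srf hC
    rw [CΓ] at sC
    obtain ⟨E, E1, E2, E3⟩ := Ann83.compl_disc (sp C sC hc (h1_of tr)) (isBall_lev e ht) hDC
    have sd : e.f '' side ⊆ A ∩ B := fun z hz => (r3.superset hz).2
    refine hnull (by
      rw [GD, ← r2]
      refine null_of_cap e ht E1 (fun z hz => ?_) sd
      have zC : z ∈ C := E2.subset (Or.inr hz)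
      rcases hCs zC with q | q
      · exact (e1.subset (Or.inl q)).resolve_right fun r =>
          (eq_empty_iff_forall_notMem.1 CΓ z) ⟨r, zC⟩
      · obtain ⟨y, hy, rfl⟩ := E3.subset ⟨q, hz⟩
        exact sd ⟨y, hy.1, rfl⟩)
  have lpc := (Srf.lcv srf).lpc
  refine sg.fam hk (lpc.clop x1) (lpc.clop x2)
    (ntr ε a1 _ (lpc.clop x1) (isConnected_connectedComponentIn_iff.2 (s1 hx1)) d1 fun z hz => ?_)
    (ntr (-ε) a2 _ (lpc.clop x2) (isConnected_connectedComponentIn_iff.2 (s2 hx2)) d2 fun z hz => ?_)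
    isPreconnected_connectedComponentIn isPreconnected_connectedComponentIn d1 d2 dj
  · exact (connectedComponentIn_subset _ _ hz).resolve_right fun q => disjoint_left.1 dj hz (d2 q)
  · rcases connectedComponentIn_subset _ _ hz with (q | q) | q
    · exact Or.inl q
    · exact (disjoint_left.1 dj (d1 q) hz).elim
    · exact Or.inr q

theorem Move.cpt {U A B A' B' : Set V} (hA : A ⊆ U) (h : Move A B A' B') :
    ∃ K, IsCompact K ∧ K ⊆ U ∧ ∀ x, x ∉ K → ((x ∈ A' ↔ x ∈ A) ∧ (x ∈ B' ↔ x ∈ B)) := by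
  obtain ⟨R, e, ε, hR, -, -, -, rfl, rfl⟩ := h
  refine ⟨R, e.image_eq ▸ (isCompact_closedBall _ _).image_of_continuousOn e.pf.1, hR.trans hA,
    fun x hx => ⟨and_iff_left ?_, or_iff_left ?_⟩⟩ <;>
  · rintro ⟨y, hy, rfl⟩; exact hx (e.mf hy.1)

/-- **(INC)** -/
theorem inc (lt : LTStmt) (th : ThickStmt) (cp : CompStmt) (sp : SphStmt) : IncStmt := by
  intro U Γ Q ess qA qB A0 B0 h0 q0
  let Q' : Set V → Set V → Prop := fun A B => St U Γ A B ∧ Q A B ∧ ∃ K, IsCompact K ∧ K ⊆ U ∧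
    ∀ x, x ∉ K → ((x ∈ A ↔ x ∈ A0) ∧ (x ∈ B ↔ x ∈ B0))
  have mv : ∀ A B, Q' A B → (∀ x (p : Path x x), (∀ t, p t ∈ A ∩ B) → NH U p → NH (A ∩ B) p) ∨
      ∃ A' B', Q' A' B' ∧ (nn (A' ∩ B' ∪ Γ) < nn (A ∩ B ∪ Γ) ∨
        (nn (A' ∩ B' ∪ Γ) ≤ nn (A ∩ B ∪ Γ) ∧
          ∀ k, Fam Z2 (A ∩ B ∪ Γ) k → Fam Z2 (A' ∩ B' ∪ Γ) (k + 1))) := by
    rintro A B ⟨h, q, K, k1, k2, k3⟩
    by_cases hA : ∀ x (p : Path x x), (∀ t, p t ∈ A ∩ B) → NH A p → NH (A ∩ B) p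
    · by_cases hB : ∀ x (p : Path x x), (∀ t, p t ∈ A ∩ B) → NH B p → NH (A ∩ B) p
      · left
        intro x p hp hn
        exact two h.spl.relCl h.spl.symm.relCl (Mf.lcv h.spl.mf).lsc (Mf.lcv h.spl.symm.mf).lsc
          h.spl.lcv.lpc hA hB p hp (by rwa [h.spl.union])
      · right
        push Not at hB
        obtain ⟨x, p, hp, h1, h2⟩ := hB
        rw [inter_comm] at hp h2
        obtain ⟨B', A', m, st, r⟩ := step lt th cp sp ess h.symm p hp h1 h2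
        obtain ⟨K', j1, j2, j3⟩ := m.cpt h.spl.subB
        rw [inter_comm B, inter_comm B'] at r
        refine ⟨A', B', ⟨st.symm, qB A B A' B' h q m st.symm, K ∪ K', k1.union j1,
          union_subset k2 j2, fun x hx => ?_⟩, r⟩
        have a := k3 x fun z => hx (Or.inl z)
        have b := j3 x fun z => hx (Or.inr z)
        exact ⟨b.2.trans a.1, b.1.trans a.2⟩
    · right
      push Not at hA
      obtain ⟨x, p, hp, h1, h2⟩ := hA
      obtain ⟨A', B', m, st, r⟩ := step lt th cp sp ess h p hp h1 h2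
      obtain ⟨K', j1, j2, j3⟩ := m.cpt h.spl.subA
      refine ⟨A', B', ⟨st, qA A B A' B' h q m st, K ∪ K', k1.union j1,
        union_subset k2 j2, fun x hx => ?_⟩, r⟩
      have a := k3 x fun z => hx (Or.inl z)
      have b := j3 x fun z => hx (Or.inr z)
      exact ⟨b.1.trans a.1, b.2.trans a.2⟩
  have main : ∀ n j k A B, Q' A B → nn (A ∩ B ∪ Γ) ≤ n → Fam Z2 (A ∩ B ∪ Γ) k → n < k + j →
      ∃ A' B', Q' A' B' ∧ ∀ x (p : Path x x), (∀ t, p t ∈ A' ∩ B') → NH U p → NH (A' ∩ B') p := by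
    intro n
    induction n using Nat.strong_induction_on with
    | _ n ihn =>
      intro j
      induction j with
      | zero =>
        intro k A B h hn hk hj
        have := (Srf.lcv h.1.srf).finite (G := Z2) h.1.cpt
        have := hk.le
        unfold nn at hn
        omega
      | succ j ihj =>
        intro k A B h hn hk hj
        rcases mv A B h with r | ⟨A', B', h', r | r⟩
        · exact ⟨A, B, h, r⟩
        · exact ihn _ (r.trans_le hn) (nn (A' ∩ B' ∪ Γ) + 1) 0 A' B' h' le_rfl (fam_zero _ _)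
            (by omega)
        · exact ihj (k + 1) A' B' h' (r.1.trans hn) (r.2 k hk) (by omega)
  obtain ⟨A, B, ⟨h, q, K, k1, k2, k3⟩, r⟩ := main _ (nn (A0 ∩ B0 ∪ Γ) + 1) 0 A0 B0
    ⟨h0, q0, ∅, isCompact_empty, empty_subset _, fun _ _ => ⟨Iff.rfl, Iff.rfl⟩⟩ le_rfl
    (fam_zero _ _) (by omega)
  exact ⟨A, B, K, h, q, k1, k2, k3, r⟩

end Crest.Agent.X212.Lev33
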