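import Crest.Agent.X212.Lev33.Nice

/-!
# Row 212, layer T, LEV (helper33): the lattice cocycle of a periodic embedding; lifts
-/

set_option autoImplicit false

open Set Metric Topology Filter Crest.Agent.X212.Prd34 unitInterval

namespace Crest.Agent.X212.Lev33

variable {J : Finset (Fin 3)} {H : V → V}

theorem lat_zero : (0 : V) ∈ lat J := fun _ => ⟨fun _ => ⟨0, by simp⟩, fun _ => rfl⟩

theorem lat_add {a b : V} (ha : a ∈ lat J) (hb : b ∈ lat J) : a + b ∈ lat J := fun i =>
  ⟨fun h => by
    obtain ⟨m, hm⟩ := (ha i).1 h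
    obtain ⟨n, hn⟩ := (hb i).1 h
    exact ⟨m + n, by simp [hm, hn]⟩, fun h => by simp [(ha i).2 h, (hb i).2 h]⟩

theorem lat_neg {a : V} (ha : a ∈ lat J) : -a ∈ lat J := fun i =>
  ⟨fun h => by
    obtain ⟨m, hm⟩ := (ha i).1 h
    exact ⟨-m, by simp [hm]⟩, fun h => by simp [(ha i).2 h]⟩

theorem lat_sub {a b : V} (ha : a ∈ lat J) (hb : b ∈ lat J) : a - b ∈ lat J := by
  rw [sub_eq_add_neg]; exact lat_add ha (lat_neg hb)

theorem lat_small {a : V} (ha : a ∈ lat J) (h : ‖a‖ < 1) : a = 0 := by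
  ext i
  by_cases k : i ∈ J
  · obtain ⟨m, hm⟩ := (ha i).1 k
    have : |(m : ℝ)| < 1 := by rw [← hm]; exact (norm_le_pi_norm a i).trans_lt h
    have : m = 0 := Int.abs_lt_one_iff.1 (by exact_mod_cast this)
    simp [hm, this]
  · exact (ha i).2 k

theorem per_add (h : Per J H) (x : V) {l : V} (hl : l ∈ lat J) : H (x + l) = H x :=
  (h.fib _ _).2 (by simpa using hl)

/-- a section -/
noncomputable def sec (H : V → V) (y : V) : V := Function.invFun H y

theorem sec_eq {y : V} (hy : y ∈ range H) : H (sec H y) = y := Function.invFun_eq hy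

theorem sec_lat (h : Per J H) (z : V) : sec H (H z) - z ∈ lat J :=
  (h.fib _ _).1 (sec_eq ⟨z, rfl⟩)

/-- the local section through `sec H x` -/
noncomputable def lsec (H : V → V) (x y : V) : V :=
  Classical.epsilon fun z => z ∈ ball (sec H x) (1 / 4) ∧ H z = y

theorem lsec_eq (h : Per J H) {x z : V} (hz : z ∈ ball (sec H x) (1 / 4)) : lsec H x (H z) = z := by
  have k : lsec H x (H z) ∈ ball (sec H x) (1 / 4) ∧ H (lsec H x (H z)) = H z :=
    Classical.epsilon_spec (p := fun w => w ∈ ball (sec H x) (1 / 4) ∧ H w = H z) ⟨z, hz, rfl⟩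
  refine sub_eq_zero.1 (lat_small ((h.fib _ _).1 k.2) ?_)
  have := dist_triangle_right (lsec H x (H z)) z (sec H x)
  rw [← dist_eq_norm]
  linarith [mem_ball.1 k.1, mem_ball.1 hz]

theorem lsec_tendsto (h : Per J H) {x : V} (hx : x ∈ range H) :
    Tendsto (lsec H x) (𝓝 x) (𝓝 (sec H x)) ∧ ∀ᶠ y in 𝓝 x, H (lsec H x y) = y := by
  have key : ∀ N ∈ 𝓝 (sec H x), ∀ᶠ y in 𝓝 x, lsec H x y ∈ N ∧ H (lsec H x y) = y := by
    intro N hN
    have := h.opn.image_mem_nhds (inter_mem hN (ball_mem_nhds (sec H x) (by norm_num : (0 : ℝ) < 1 / 4)))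
    rw [sec_eq hx] at this
    filter_upwards [this]
    rintro _ ⟨z, hz, rfl⟩
    rw [lsec_eq h hz.2]
    exact ⟨hz.1, rfl⟩
  exact ⟨fun N hN => (key N hN).mono fun _ k => k.1, (key univ univ_mem).mono fun _ k => k.2⟩

/-- the lattice cocycle -/
noncomputable def latc (H : V → V) (x y : V) : Multiplicative V :=
  Multiplicative.ofAdd (sec H y - lsec H x y)

section

variable {Y : Type*} [TopologicalSpace Y]

/-- a lift is a primitive -/
theorem prim_of_lift (h : Per J H) {T : Set Y} {g : Y → V} (hg : ContinuousOn g T) :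
    Prim T (fun s t => latc H (H (g s)) (H (g t)))
      (fun t => Multiplicative.ofAdd (sec H (H (g t)) - g t)) := by
  intro t ht
  have : ∀ᶠ s in 𝓝[T] t, g s ∈ ball (g t) (1 / 4) := hg t ht (ball_mem_nhds _ (by norm_num))
  filter_upwards [this] with s hs
  have e := lsec_eq h (x := H (g t)) (z := g s + (sec H (H (g t)) - g t)) (by
    rw [mem_ball, dist_eq_norm] at *
    convert hs using 2; abel)
  rw [per_add h _ (sec_lat h _)] at e
  rw [latc, e, ← ofAdd_add]
  congr 1; abel

theorem latc_coc (h : Per J H) : Coc (range H) (latc H) := by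
  refine coc_of_loc fun x hx => ⟨H '' ball (sec H x) (1 / 4), ?_, latc H x, ?_⟩
  · have := h.opn.image_mem_nhds (ball_mem_nhds (sec H x) (by norm_num : (0 : ℝ) < 1 / 4))
    rw [sec_eq hx] at this
    exact mem_nhdsWithin_of_mem_nhds this
  · rintro _ ⟨z, hz, rfl⟩
    have := prim_of_lift h (T := univ) (g := id) continuousOn_id z trivial
    rw [nhdsWithin_univ] at this
    have := h.opn.image_mem_nhds (this.and (isOpen_ball.mem_nhds hz))
    filter_upwards [mem_nhdsWithin_of_mem_nhds this]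
    rintro _ ⟨w, hw, rfl⟩
    rw [latc, latc, lsec_eq h hz, lsec_eq h hw.2]
    exact hw.1

/-- a primitive gives a lift -/
theorem exists_lift (h : Per J H) {T : Set Y} (hT : IsPreconnected T) {f : Y → V}
    (hf : ContinuousOn f T) (hm : MapsTo f T (range H))
    (ht : Tr T fun s t => latc H (f s) (f t)) {t0 : Y} (h0 : t0 ∈ T) {z0 : V} (hz : H z0 = f t0) :
    ∃ g : Y → V, ContinuousOn g T ∧ (∀ t ∈ T, H (g t) = f t) ∧ g t0 = z0 := by
  obtain ⟨b0, hb0⟩ := ht
  have hb := hb0.mul_left (Multiplicative.ofAdd (sec H (f t0) - z0) * (b0 t0)⁻¹)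
  set b : Y → Multiplicative V := fun x =>
    Multiplicative.ofAdd (sec H (f t0) - z0) * (b0 t0)⁻¹ * b0 x with hbdef
  have b00 : (b t0).toAdd = sec H (f t0) - z0 := by simp [hbdef]
  have ev : ∀ t ∈ T, ∀ᶠ s in 𝓝[T] t,
      sec H (f s) - (b s).toAdd = lsec H (f t) (f s) - (b t).toAdd := by
    intro t ht
    filter_upwards [hb t ht] with s hs
    have : b s = b t * latc H (f t) (f s) := hs
    rw [this, latc, toAdd_mul, toAdd_ofAdd]; abel
  have lc : LCo T fun t => (b t).toAdd ∈ lat J := by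
    intro t ht
    filter_upwards [ev t ht, hf t ht (lsec_tendsto h (hm ht)).2, self_mem_nhdsWithin] with s h1 h2 h3
    have k : sec H (f s) - lsec H (f t) (f s) ∈ lat J :=
      (h.fib _ _).1 ((sec_eq (hm h3)).trans (Eq.symm h2))
    have e : (b s).toAdd = (b t).toAdd + (sec H (f s) - lsec H (f t) (f s)) := by
      linear_combination (exp := 1) -h1
    refine propext ⟨fun q => ?_, fun q => e ▸ lat_add q k⟩
    have := lat_sub q k
    rwa [e, add_sub_cancel_right] at this
  have mem : ∀ t ∈ T, (b t).toAdd ∈ lat J := fun t ht => by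
    rw [← lc.eq hT h0 ht, b00, ← hz]; exact sec_lat h z0
  refine ⟨fun t => sec H (f t) - (b t).toAdd, fun t ht => ?_, fun t ht => ?_,
    by beta_reduce; rw [b00]; abel⟩
  · refine Tendsto.congr' ((ev t ht).mono fun _ k => k.symm) ?_
    exact ((lsec_tendsto h (hm ht)).1.comp (hf t ht)).sub_const _
  · beta_reduce
    rw [sub_eq_add_neg, per_add h _ (lat_neg (mem t ht)), sec_eq (hm ht)]

end

/-- lifts over convex sets -/
theorem exists_lift_convex (h : Per J H) {E : Type*} [NormedAddCommGroup E] [NormedSpace ℝ E]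
    {T : Set E} (hT : Convex ℝ T) {f : E → V} (hf : ContinuousOn f T) (hm : MapsTo f T (range H))
    {t0 : E} (h0 : t0 ∈ T) {z0 : V} (hz : H z0 = f t0) :
    ∃ g : E → V, ContinuousOn g T ∧ (∀ t ∈ T, H (g t) = f t) ∧ g t0 = z0 :=
  exists_lift h hT.isPreconnected hf hm (((latc_coc h).comp hf hm).prim_convex hT) h0 hz

/-- uniqueness of lifts -/
theorem lift_uniq {Y : Type*} [TopologicalSpace Y] (h : Per J H) {T : Set Y} (hT : IsPreconnected T)
    {g g' : Y → V} (hg : ContinuousOn g T) (hg' : ContinuousOn g' T)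
    (e : ∀ t ∈ T, H (g t) = H (g' t)) {s t : Y} (hs : s ∈ T) (ht : t ∈ T) :
    g t - g' t = g s - g' s := by
  have : LCo T fun t => g t - g' t := by
    intro x hx
    have : ∀ᶠ y in 𝓝[T] x, g y - g' y ∈ ball (g x - g' x) 1 :=
      (hg.sub hg') x hx (ball_mem_nhds _ one_pos)
    filter_upwards [this, self_mem_nhdsWithin] with y h1 h2
    exact sub_eq_zero.1 (lat_small (lat_sub ((h.fib _ _).1 (e y h2)) ((h.fib _ _).1 (e x hx)))
      (by rwa [mem_ball, dist_eq_norm] at h1))
  exact this.eq hT ht hs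

/-- the holonomy of a closed curve is minus the displacement of its lift -/
theorem hol_latc (h : Per J H) {g : ℝ → V} (hg : ContinuousOn g (Icc 0 1))
    (hc : H (g 0) = H (g 1)) :
    hol (latc H) (fun t => H (g t)) = Multiplicative.ofAdd (g 0 - g 1) := by
  rw [hol_eq (prim_of_lift h hg), hc, ← ofAdd_neg, ← ofAdd_add]
  congr 1; abel

/-- lifting paths -/
theorem lift_path (h : Per J H) {x y : V} (p : Path x y) (hp : ∀ t, p t ∈ range H) {z : V}
    (hz : H z = x) : ∃ (w : V) (q : Path z w), ∀ t, H (q t) = p t := by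
  obtain ⟨g, g1, g2, g3⟩ := exists_lift_convex h (convex_Icc (0 : ℝ) 1) (path_cont p) (path_maps hp)
    (t0 := 0) (by simp) (z0 := z) (by simpa using hz)
  exact ⟨g 1, ⟨⟨fun t => g t, g1.comp_continuous continuous_subtype_val fun t => t.2⟩, g3, rfl⟩,
    fun t => (g2 t t.2).trans (p.extend_extends' t)⟩

/-- lifting null-homotopies -/
theorem lift_nh (h : Per J H) {C : Set V} (hC : C ⊆ range H) {z : V} (q : Path z z)
    (hn : NH C (q.map h.cont)) : NH (H ⁻¹' C) q := by
  obtain ⟨F, hF⟩ := hn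
  let π : ℝ → I := projIcc 0 1 zero_le_one
  have hπ : Continuous π := continuous_projIcc
  obtain ⟨g, g1, g2, g3⟩ := exists_lift_convex h (T := (univ : Set (ℝ × ℝ))) convex_univ
    (f := fun z => F (π z.1, π z.2)) (by fun_prop) (fun w _ => hC (hF _)) (t0 := (0, 0)) trivial
    (z0 := z) (by simp [π])
  have gc : Continuous g := continuousOn_univ.1 g1
  have pt : ∀ t : I, π t = t := fun t => projIcc_val _ t
  have e0 : ∀ t : I, g (0, t) = q t := fun t => by
    have := lift_uniq h (T := (univ : Set I)) isPreconnected_univ (g := fun t => g (0, t))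
      (g' := fun t => q t) (by fun_prop) (by fun_prop)
      (fun t _ => by rw [g2 _ trivial]; simp [pt, π]) (s := 0) (t := t) trivial trivial
    simp only [Set.Icc.coe_zero, Path.source] at this
    rw [show ((0 : ℝ), (0 : ℝ)) = (0, 0) from rfl, g3, sub_self] at this
    exact sub_eq_zero.1 this
  have side : ∀ (u : I), (u = 0 ∨ u = 1) → ∀ s : I, g (s, u) = z := fun u hu s => by
    have := lift_uniq h (T := (univ : Set I)) isPreconnected_univ (g := fun s => g (s, u))
      (g' := fun _ => z) (by fun_prop) (by fun_prop)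
      (fun s _ => by
        rw [g2 _ trivial]
        rcases hu with rfl | rfl
        · simp only [pt]; exact F.source _
        · simp only [pt]; exact F.target _) (s := 0) (t := s) trivial trivial
    simp only [Set.Icc.coe_zero] at this
    rw [e0 u] at this
    rcases hu with rfl | rfl <;> simpa [sub_eq_zero] using this
  have e1 : ∀ t : I, g (1, t) = z := fun t => by
    have := lift_uniq h (T := (univ : Set I)) isPreconnected_univ (g := fun t => g (1, t))
      (g' := fun _ => z) (by fun_prop) (by fun_prop)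
      (fun t _ => by rw [g2 _ trivial]; simp [pt, π]) (s := 0) (t := t) trivial trivial
    have k := side 0 (Or.inl rfl) 1
    simp only [Set.Icc.coe_zero, Set.Icc.coe_one] at this k
    rw [k, sub_self] at this
    exact sub_eq_zero.1 this
  refine ⟨⟨⟨⟨fun w => g (w.1, w.2), by fun_prop⟩, e0, e1⟩, fun s t ht => ?_⟩, fun w => ?_⟩
  · show g (s, t) = q t
    rw [side t ht s]
    rcases ht with rfl | rfl <;> simp
  · show H (g (w.1, w.2)) ∈ C
    rw [g2 _ trivial]; exact hF _

end Crest.Agent.X212.Lev33
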