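import Crest.Agent.X212.Lev33.Coc

/-!
# Row 212, layer T, LEV (helper33): holonomy of germ cocycles, path functionals
-/

set_option autoImplicit false
set_option linter.unusedSectionVars false

open Set Topology Filter unitInterval

namespace Crest.Agent.X212.Lev33

variable {X Y : Type*} [TopologicalSpace X] [TopologicalSpace Y] {G : Type*} [Group G]

open Classical in
/-- holonomy along `γ | [0,1]` -/
noncomputable def hol (c : X → X → G) (γ : ℝ → X) : G :=
  if h : ∃ β, Prim (Icc (0 : ℝ) 1) (fun s t => c (γ s) (γ t)) β then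
    (h.choose 0)⁻¹ * h.choose 1 else 1

theorem hol_eq {c : X → X → G} {γ : ℝ → X} {β : ℝ → G}
    (hβ : Prim (Icc (0 : ℝ) 1) (fun s t => c (γ s) (γ t)) β) : hol c γ = (β 0)⁻¹ * β 1 := by
  have h : ∃ β, Prim (Icc (0 : ℝ) 1) (fun s t => c (γ s) (γ t)) β := ⟨β, hβ⟩
  rw [hol, dif_pos h, hβ.uniq h.choose_spec isPreconnected_Icc (x := 0) (y := 1) (by simp) (by simp)]
  group

theorem hol_prim {S : Set X} {c : X → X → G} {b : X → G} (h : Prim S c b) {γ : ℝ → X}
    (hγ : ContinuousOn γ (Icc 0 1)) (hm : MapsTo γ (Icc 0 1) S) :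
    hol c γ = (b (γ 0))⁻¹ * b (γ 1) := hol_eq (h.comp hγ hm)

theorem hol_geq {S : Set X} {c c' : X → X → G} (h : Coc S c) (e : Geq S c c') {γ : ℝ → X}
    (hγ : ContinuousOn γ (Icc 0 1)) (hm : MapsTo γ (Icc 0 1) S) : hol c γ = hol c' γ := by
  obtain ⟨β, hβ⟩ := (h.comp hγ hm).prim_Icc
  rw [hol_eq hβ, hol_eq (hβ.congr (e.comp hγ hm))]

theorem hol_congr {S : Set X} {c : X → X → G} (h : Coc S c) {γ γ' : ℝ → X}
    (hγ : ContinuousOn γ (Icc 0 1)) (hm : MapsTo γ (Icc 0 1) S) (e : EqOn γ γ' (Icc 0 1)) :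
    hol c γ = hol c γ' := by
  obtain ⟨β, hβ⟩ := (h.comp hγ hm).prim_Icc
  rw [hol_eq hβ, hol_eq (hβ.congr (c' := fun s t => c (γ' s) (γ' t)) ?_)]
  intro x hx
  filter_upwards [self_mem_nhdsWithin] with y hy
  rw [e hx, e hy]

theorem hol_comp (c : X → X → G) (f : Y → X) (γ : ℝ → Y) :
    hol (fun x y => c (f x) (f y)) γ = hol c (fun t => f (γ t)) := rfl

/-- gauge change -/
theorem hol_gauge {S : Set X} {c : X → X → G} (h : Coc S c) (g : X → G) {γ : ℝ → X}
    (hγ : ContinuousOn γ (Icc 0 1)) (hm : MapsTo γ (Icc 0 1) S) :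
    hol (fun x y => g x * c x y * (g y)⁻¹) γ = g (γ 0) * hol c γ * (g (γ 1))⁻¹ := by
  obtain ⟨β, hβ⟩ := (h.comp hγ hm).prim_Icc
  have : Prim (Icc (0 : ℝ) 1) (fun s t => g (γ s) * c (γ s) (γ t) * (g (γ t))⁻¹)
      (fun t => β t * (g (γ t))⁻¹) := by
    intro x hx
    filter_upwards [hβ x hx] with y hy
    rw [hy]; group
  rw [hol_eq hβ, hol_eq this]; group

theorem Coc.gauge {S : Set X} {c : X → X → G} (h : Coc S c) (g : X → G) :
    Coc S (fun x y => g x * c x y * (g y)⁻¹) := by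
  intro x hx
  filter_upwards [h x hx] with y hy
  filter_upwards [hy] with z hz
  rw [hz]; group

theorem Coc.map {G' : Type*} [Group G'] {S : Set X} {c : X → X → G} (h : Coc S c) (f : G →* G') :
    Coc S (fun x y => f (c x y)) := by
  intro x hx
  filter_upwards [h x hx] with y hy
  filter_upwards [hy] with z hz
  rw [hz, map_mul]

theorem Prim.map {G' : Type*} [Group G'] {S : Set X} {c : X → X → G} {b : X → G} (h : Prim S c b)
    (f : G →* G') : Prim S (fun x y => f (c x y)) (fun x => f (b x)) := by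
  intro x hx
  filter_upwards [h x hx] with y hy
  rw [hy, map_mul]

theorem hol_map {G' : Type*} [Group G'] {S : Set X} {c : X → X → G} (h : Coc S c) (f : G →* G')
    {γ : ℝ → X} (hγ : ContinuousOn γ (Icc 0 1)) (hm : MapsTo γ (Icc 0 1) S) :
    hol (fun x y => f (c x y)) γ = f (hol c γ) := by
  obtain ⟨β, hβ⟩ := (h.comp hγ hm).prim_Icc
  rw [hol_eq hβ, hol_eq (hβ.map f), map_mul, map_inv]

/-- a constant map -/
theorem Coc.lco_const {S : Set X} {c : X → X → G} (h : Coc S c) {T : Set Y} {f : Y → X} {x : X}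
    (hx : x ∈ S) (hf : ∀ y ∈ T, f y = x) {β : Y → G} (hβ : Prim T (fun s t => c (f s) (f t)) β) :
    LCo T β := by
  intro y hy
  filter_upwards [hβ y hy, self_mem_nhdsWithin] with z h1 h2
  rw [h1, hf y hy, hf z h2, h.self hx, mul_one]

/-- **homotopy invariance** (the ends may move along the paths `F (·, 0)`, `F (·, 1)`) -/
theorem hol_square {S : Set X} {c : X → X → G} (h : Coc S c) {F : ℝ × ℝ → X}
    (hF : ContinuousOn F (Icc 0 1 ×ˢ Icc 0 1)) (hm : MapsTo F (Icc 0 1 ×ˢ Icc 0 1) S) :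
    hol c (fun t => F (0, t)) * hol c (fun s => F (s, 1)) =
      hol c (fun s => F (s, 0)) * hol c (fun t => F (1, t)) := by
  obtain ⟨β, hβ⟩ := (h.comp hF hm).prim_convex ((convex_Icc _ _).prod (convex_Icc _ _))
  have v : ∀ s ∈ Icc (0 : ℝ) 1, hol c (fun t => F (s, t)) = (β (s, 0))⁻¹ * β (s, 1) := fun s hs =>
    hol_eq (hβ.comp (T := Icc 0 1) (f := fun t => (s, t)) (by fun_prop) fun t ht => ⟨hs, ht⟩)
  have w : ∀ t ∈ Icc (0 : ℝ) 1, hol c (fun s => F (s, t)) = (β (0, t))⁻¹ * β (1, t) := fun t ht =>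
    hol_eq (hβ.comp (T := Icc 0 1) (f := fun s => (s, t)) (by fun_prop) fun s hs => ⟨hs, ht⟩)
  rw [v 0 (by simp), v 1 (by simp), w 0 (by simp), w 1 (by simp)]; group

theorem hol_const {S : Set X} {c : X → X → G} (h : Coc S c) {x : X} (hx : x ∈ S) {γ : ℝ → X}
    (hγ : ∀ t ∈ Icc (0 : ℝ) 1, γ t = x) : hol c γ = 1 := by
  have : Prim (Icc (0 : ℝ) 1) (fun s t => c (γ s) (γ t)) (fun _ => 1) := by
    intro s hs
    filter_upwards [self_mem_nhdsWithin] with t ht
    rw [hγ s hs, hγ t ht, h.self hx, mul_one]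
  rw [hol_eq this]; simp

theorem path_maps {S : Set X} {x y : X} {p : Path x y} (hp : ∀ t, p t ∈ S) :
    MapsTo p.extend (Icc 0 1) S := fun t ht => by rw [p.extend_apply ht]; exact hp _

theorem path_cont {x y : X} (p : Path x y) : ContinuousOn p.extend (Icc 0 1) :=
  p.continuous_extend.continuousOn

theorem hol_homotopy {S : Set X} {c : X → X → G} (h : Coc S c) {x y : X} {p q : Path x y}
    (F : p.Homotopy q) (hF : ∀ t, F t ∈ S) : hol c p.extend = hol c q.extend := by
  let π : ℝ → I := projIcc 0 1 zero_le_one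
  have hπ : Continuous π := continuous_projIcc
  have := hol_square h (F := fun z => F (π z.1, π z.2)) (by fun_prop) (fun z _ => hF _)
  have hx : x ∈ S := by simpa using hF (0, 0)
  have hy : y ∈ S := by simpa using hF (0, 1)
  have p0 : π 0 = 0 := projIcc_left _
  have p1 : π 1 = 1 := projIcc_right _
  rw [hol_const h hy (γ := fun s => F (π s, π 1)) (fun t _ => by rw [p1]; exact F.target _),
    hol_const h hx (γ := fun s => F (π s, π 0)) (fun t _ => by rw [p0]; exact F.source _)] at this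
  simp only [p0, p1, mul_one, one_mul, ContinuousMap.HomotopyWith.apply_zero,
    ContinuousMap.HomotopyWith.apply_one] at this
  exact this

theorem hol_trans {S : Set X} {c : X → X → G} (h : Coc S c) {x y z : X} {p : Path x y}
    {q : Path y z} (hp : ∀ t, p t ∈ S) (hq : ∀ t, q t ∈ S) :
    hol c (p.trans q).extend = hol c p.extend * hol c q.extend := by
  have hpq : ∀ t, (p.trans q) t ∈ S := fun t => by
    rw [Path.trans_apply]; split_ifs <;> [exact hp _; exact hq _]
  obtain ⟨β, hβ⟩ := (h.comp (path_cont (p.trans q)) (path_maps hpq)).prim_Icc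
  have h1 := hβ.comp (T := Icc (0 : ℝ) 1) (f := fun t => t / 2) (by fun_prop)
    (fun t ht => ⟨by linarith [ht.1], by linarith [ht.2]⟩)
  have h2 := hβ.comp (T := Icc (0 : ℝ) 1) (f := fun t => (t + 1) / 2) (by fun_prop)
    (fun t ht => ⟨by linarith [ht.1], by linarith [ht.2]⟩)
  have e1 : ∀ t ∈ Icc (0 : ℝ) 1, (p.trans q).extend (t / 2) = p.extend t := fun t ht => by
    rw [Path.extend_trans_of_le_half _ _ (by linarith [ht.2])]; congr 1; ring
  have e2 : ∀ t ∈ Icc (0 : ℝ) 1, (p.trans q).extend ((t + 1) / 2) = q.extend t := fun t ht => by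
    rw [Path.extend_trans_of_half_le _ _ (by linarith [ht.1])]; congr 1; ring
  have k1 := h1.congr (c' := fun s t => c (p.extend s) (p.extend t)) (fun s hs => by
    filter_upwards [self_mem_nhdsWithin] with t ht
    rw [e1 s hs, e1 t ht])
  have k2 := h2.congr (c' := fun s t => c (q.extend s) (q.extend t)) (fun s hs => by
    filter_upwards [self_mem_nhdsWithin] with t ht
    rw [e2 s hs, e2 t ht])
  rw [hol_eq hβ, hol_eq k1, hol_eq k2]
  norm_num

theorem trans_mem {S : Set X} {x y z : X} {p : Path x y} {q : Path y z} (hp : ∀ t, p t ∈ S)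
    (hq : ∀ t, q t ∈ S) : ∀ t, (p.trans q) t ∈ S := fun t => by
  rw [Path.trans_apply]; split_ifs <;> [exact hp _; exact hq _]

theorem hol_refl {S : Set X} {c : X → X → G} (h : Coc S c) {x : X} (hx : x ∈ S) :
    hol c (Path.refl x).extend = 1 := hol_const h hx fun _ _ => by simp

theorem hol_symm {S : Set X} {c : X → X → G} (h : Coc S c) {x y : X} {p : Path x y}
    (hp : ∀ t, p t ∈ S) : hol c p.symm.extend = (hol c p.extend)⁻¹ := by
  have hx : x ∈ S := by simpa using hp 0
  have := hol_homotopy h (Path.Homotopy.reflTransSymm p) (fun t => hp _)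
  rw [hol_refl h hx, hol_trans h hp (fun t => hp _)] at this
  exact eq_inv_of_mul_eq_one_right this.symm

/-- locally path connected set -/
def LPC (S : Set X) : Prop := ∀ x ∈ S, ∀ W ∈ 𝓝 x, ∃ N ∈ 𝓝[S] x, N ⊆ W ∩ S ∧ ∀ y ∈ N, JoinedIn N x y

/-- base point of the path component -/
noncomputable def rep (S : Set X) (y : X) : X :=
  @Classical.epsilon X ⟨y⟩ fun z => JoinedIn S z y

theorem rep_joined {S : Set X} {y : X} (hy : y ∈ S) : JoinedIn S (rep S y) y :=
  Classical.epsilon_spec (p := fun z => JoinedIn S z y) ⟨y, JoinedIn.refl hy⟩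

theorem rep_eq {S : Set X} {x y : X} (h : JoinedIn S x y) : rep S x = rep S y := by
  unfold rep
  congr 1
  ext z
  exact ⟨fun k => k.trans h, fun k => k.trans h.symm⟩

/-- a cocycle all of whose loops have trivial holonomy has a primitive -/
theorem prim_of_hol {S : Set X} (hS : LPC S) {c : X → X → G} (h : Coc S c)
    (hl : ∀ x (p : Path x x), (∀ t, p t ∈ S) → hol c p.extend = 1) : ∃ b, Prim S c b := by
  classical
  have ind : ∀ x y (p q : Path x y), (∀ t, p t ∈ S) → (∀ t, q t ∈ S) →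
      hol c p.extend = hol c q.extend := by
    intro x y p q hp hq
    have := hl x (p.trans q.symm) (trans_mem hp fun t => hq _)
    rw [hol_trans h hp (fun t => hq _), hol_symm h hq] at this
    exact mul_inv_eq_one.1 this
  refine ⟨fun y => if hy : y ∈ S then hol c (rep_joined hy).somePath.extend else 1, fun x hx => ?_⟩
  obtain ⟨O, hO, hxO, hp⟩ := h.loc hx
  obtain ⟨N, hN, hNs, hj⟩ := hS x hx O (hO.mem_nhds hxO)
  filter_upwards [hN] with y hy
  have hyS : y ∈ S := (hNs hy).2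
  have j := hj y hy
  have e := rep_eq (j.mono fun z hz => (hNs hz).2)
  rw [dif_pos hyS, dif_pos hx]
  have k := ind _ _ ((rep_joined hyS).somePath.cast e rfl)
    ((rep_joined hx).somePath.trans j.somePath) (fun t => (rep_joined hyS).somePath_mem t)
    (trans_mem (rep_joined hx).somePath_mem fun t => (hNs (j.somePath_mem t)).2)
  rw [hol_trans h (rep_joined hx).somePath_mem fun t => (hNs (j.somePath_mem t)).2,
    hol_prim hp (path_cont j.somePath) (path_maps fun t => (hNs (j.somePath_mem t)).symm)] at k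
  simp only [Path.extend_zero, Path.extend_one, h.self hx, inv_one, one_mul] at k
  exact k

/-! ### path functionals -/

/-- a multiplicative homotopy invariant of paths in `A` -/
structure PF (A : Set X) (φ : ∀ x y : X, Path x y → G) : Prop where
  mul : ∀ x y z (p : Path x y) (q : Path y z), (∀ t, p t ∈ A) → (∀ t, q t ∈ A) →
    φ x z (p.trans q) = φ x y p * φ y z q
  hom : ∀ x y (p q : Path x y) (F : p.Homotopy q), (∀ t, F t ∈ A) → φ x y p = φ x y q

theorem pf_ext (φ : ∀ x y : X, Path x y → G) {x y x' y' : X} {p : Path x y} {q : Path x' y'}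
    (h : ∀ t, p t = q t) : φ x y p = φ x' y' q := by
  obtain rfl : x = x' := by simpa using h 0
  obtain rfl : y = y' := by simpa using h 1
  congr 1
  ext t
  exact h t

theorem PF.refl {A : Set X} {φ : ∀ x y : X, Path x y → G} (h : PF A φ) {x : X} (hx : x ∈ A) :
    φ x x (Path.refl x) = 1 := by
  have := h.mul x x x (Path.refl x) (Path.refl x) (fun _ => hx) (fun _ => hx)
  rw [Path.refl_trans_refl] at this
  exact left_eq_mul.1 this

theorem PF.symm {A : Set X} {φ : ∀ x y : X, Path x y → G} (h : PF A φ) {x y : X} (p : Path x y)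
    (hp : ∀ t, p t ∈ A) : φ y x p.symm = (φ x y p)⁻¹ := by
  have hx : x ∈ A := by simpa using hp 0
  have := h.hom _ _ _ _ (Path.Homotopy.reflTransSymm p) (fun t => hp _)
  rw [h.refl hx, h.mul _ _ _ _ _ hp (fun t => hp _)] at this
  exact eq_inv_of_mul_eq_one_right this.symm

theorem pf_hol {S : Set X} {c : X → X → G} (h : Coc S c) : PF S (fun _ _ p => hol c p.extend) :=
  ⟨fun _ _ _ _ _ hp hq => hol_trans h hp hq, fun _ _ _ _ F hF => hol_homotopy h F hF⟩

/-- straight homotopy in a convex set -/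
theorem convex_homotopy {E : Type*} [AddCommGroup E] [Module ℝ E] [TopologicalSpace E]
    [ContinuousAdd E] [ContinuousSMul ℝ E] {K : Set E} (hK : Convex ℝ K) {a b : E} (p q : Path a b)
    (hp : ∀ t, p t ∈ K) (hq : ∀ t, q t ∈ K) : ∃ F : p.Homotopy q, ∀ t, F t ∈ K := by
  refine ⟨⟨⟨⟨fun z => (1 - (z.1 : ℝ)) • p z.2 + (z.1 : ℝ) • q z.2, by fun_prop⟩, ?_, ?_⟩, ?_⟩, ?_⟩
  · intro t; simp
  · intro t; simp
  · intro t x hx
    rcases hx with rfl | rfl
    · simp [← add_smul]
    · simp [← add_smul]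
  · intro z
    exact hK (hp _) (hq _) (by linarith [z.1.2.2]) z.1.2.1 (by ring)

/-- locally simply connected set -/
def LSC (A : Set X) : Prop := ∀ x ∈ A, ∀ W ∈ 𝓝 x, ∃ N ∈ 𝓝[A] x, N ⊆ W ∩ A ∧
  (∀ y ∈ N, JoinedIn N x y) ∧ ∀ y (p q : Path x y), (∀ t, p t ∈ N) → (∀ t, q t ∈ N) →
    ∃ F : p.Homotopy q, ∀ t, F t ∈ A

theorem LSC.lpc {A : Set X} (h : LSC A) : LPC A := fun x hx W hW =>
  let ⟨N, h1, h2, h3, _⟩ := h x hx W hW
  ⟨N, h1, h2, h3⟩

/-- the cocycle of a path functional -/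
theorem PF.exists_coc {A : Set X} (hA : LSC A) {φ : ∀ x y : X, Path x y → G} (h : PF A φ) :
    ∃ c : X → X → G, Coc A c ∧ ∀ x ∈ A, ∃ N ∈ 𝓝[A] x, ∀ y (p : Path x y), (∀ t, p t ∈ N) →
      c x y = φ x y p := by
  classical
  have ex : ∀ x ∈ A, ∃ N ∈ 𝓝[A] x, N ⊆ A ∧ (∀ y ∈ N, JoinedIn N x y) ∧
      ∀ y (p q : Path x y), (∀ t, p t ∈ N) → (∀ t, q t ∈ N) → φ x y p = φ x y q := by
    intro x hx
    obtain ⟨N, h1, h2, h3, h4⟩ := hA x hx univ univ_mem
    refine ⟨N, h1, fun z hz => (h2 hz).2, h3, fun y p q hp hq => ?_⟩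
    obtain ⟨F, hF⟩ := h4 y p q hp hq
    exact h.hom _ _ _ _ F hF
  choose! N hN hNA hj hu using ex
  let c : X → X → G := fun x y => if k : JoinedIn (N x) x y then φ x y k.somePath else 1
  have hc : ∀ x ∈ A, ∀ y (p : Path x y), (∀ t, p t ∈ N x) → c x y = φ x y p := by
    intro x hx y p hp
    have k : JoinedIn (N x) x y := ⟨p, hp⟩
    simp only [c, dif_pos k]
    exact hu x hx y _ _ k.somePath_mem hp
  refine ⟨c, fun x hx => ?_, fun x hx => ⟨N x, hN x hx, hc x hx⟩⟩
  filter_upwards [hN x hx, eventually_eventually_nhdsWithin.2 (hN x hx)] with y h1 h2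
  have hy : y ∈ A := hNA x hx h1
  obtain ⟨W, hW, hWs⟩ := mem_nhdsWithin_iff_exists_mem_nhds_inter.1 (inter_mem h2 (hN y hy))
  obtain ⟨M, hM, hMs, hMj, -⟩ := hA y hy W hW
  filter_upwards [hM] with z hz
  have j := hMj z hz
  have i := hj x hx y h1
  have m1 : ∀ t, j.somePath t ∈ N x := fun t => (hWs (hMs (j.somePath_mem t))).1
  have m2 : ∀ t, j.somePath t ∈ N y := fun t => (hWs (hMs (j.somePath_mem t))).2
  rw [hc x hx z (i.somePath.trans j.somePath) (trans_mem i.somePath_mem m1),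
    hc x hx y i.somePath i.somePath_mem, hc y hy z j.somePath m2,
    h.mul _ _ _ _ _ (fun t => hNA x hx (i.somePath_mem t)) fun t => hNA x hx (m1 t)]

/-- the straight path in `ℝ` -/
def lin (s t : ℝ) : Path s t where
  toFun := fun u => (1 - (u : ℝ)) * s + u * t
  continuous_toFun := by fun_prop
  source' := by simp
  target' := by simp

theorem lin_mem {K : Set ℝ} (hK : Convex ℝ K) {s t : ℝ} (hs : s ∈ K) (ht : t ∈ K) (u : I) :
    lin s t u ∈ K := hK hs ht (by linarith [u.2.2]) u.2.1 (by ring)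

/-- the holonomy of the cocycle of a functional is the functional -/
theorem PF.hol_eq {A : Set X} {φ : ∀ x y : X, Path x y → G} (h : PF A φ) {c : X → X → G}
    (hc : ∀ x ∈ A, ∃ N ∈ 𝓝[A] x, ∀ y (p : Path x y), (∀ t, p t ∈ N) → c x y = φ x y p)
    {x y : X} (p : Path x y) (hp : ∀ t, p t ∈ A) : hol c p.extend = φ x y p := by
  have hγ := p.continuous_extend
  have hm : ∀ t, p.extend t ∈ A := fun t => hp _
  let ψ : ℝ → ℝ → G := fun s t => φ _ _ ((lin s t).map hγ)
  have add : ∀ s t u, ψ s u = ψ s t * ψ t u := by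
    intro s t u
    obtain ⟨F, -⟩ := convex_homotopy convex_univ (lin s u) ((lin s t).trans (lin t u))
      (fun _ => trivial) (fun _ => trivial)
    have := h.hom _ _ _ _ (F.map ⟨p.extend, hγ⟩) (fun t => hm _)
    simp only [ψ]
    rw [← h.mul _ _ _ _ _ (fun t => hm _) (fun t => hm _), ← Path.map_trans]
    exact this
  have pr : Prim (Icc (0 : ℝ) 1) (fun s t => c (p.extend s) (p.extend t)) (ψ 0) := by
    intro s _
    obtain ⟨N, hN, hNc⟩ := hc _ (hm s)
    have : p.extend ⁻¹' N ∈ 𝓝 s := by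
      have := (hγ.continuousWithinAt (s := univ) (x := s)).tendsto_nhdsWithin (t := A)
        (fun t _ => hm t) hN
      rwa [nhdsWithin_univ] at this
    obtain ⟨δ, hδ, hb⟩ := Metric.mem_nhds_iff.1 this
    filter_upwards [mem_nhdsWithin_of_mem_nhds (Metric.ball_mem_nhds s hδ)] with t ht
    rw [add 0 s t, hNc _ ((lin s t).map hγ) fun u =>
      hb (lin_mem (convex_ball s δ) (Metric.mem_ball_self hδ) ht u)]
  rw [Lev33.hol_eq pr]
  have e0 : ψ 0 0 = 1 := by
    have := add 0 0 0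
    exact left_eq_mul.1 this
  rw [e0, inv_one, one_mul]
  refine pf_ext φ fun t => ?_
  show p.extend ((1 - (t : ℝ)) * 0 + t * 1) = p t
  simp

end Crest.Agent.X212.Lev33
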