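import Crest.Agent.X212.Rg3.Com
import Crest.Agent.X212.Lvf3.Main

/-!
# Row 212, layer T, ANN (helper33), part 1: the triangular wave; collared blocks
-/

set_option autoImplicit false

open Set Metric Topology Filter Crest.Agent.R096.Ce_537 Crest.Agent.X212.Prd34
open Crest.Agent.R096.Cx_609 (equivOfInjOn)

namespace Crest.Agent.X212.Lev33

/-! ### the triangular wave -/

/-- period one, zeros at `0` and `1/2`, slopes `±1` -/
noncomputable def tri (x : ℝ) : ℝ := 1 / 4 - |x - 1 / 4 - round (x - 1 / 4)|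

theorem tri_eq {y : ℝ} (n : ℤ) (h : |y - 1 / 4 - n| ≤ 1 / 2) : tri y = 1 / 4 - |y - 1 / 4 - n| := by
  unfold tri
  congr 1
  refine le_antisymm (round_le _ n) ?_
  by_cases e : round (y - 1 / 4) = n
  · rw [e]
  · have h1 : (1 : ℝ) ≤ |((round (y - 1 / 4) : ℤ) : ℝ) - n| := by
      exact_mod_cast Int.one_le_abs (sub_ne_zero.2 e)
    have h2 := abs_sub_le ((round (y - 1 / 4) : ℤ) : ℝ) (y - 1 / 4) n
    rw [abs_sub_comm _ (y - 1 / 4)] at h2
    linarith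

theorem tri_add_int (x : ℝ) (n : ℤ) : tri (x + n) = tri x := by
  unfold tri
  rw [show x + n - 1 / 4 = x - 1 / 4 + n by ring, round_add_intCast]
  push_cast
  congr 2; ring

theorem continuous_tri : Continuous tri := by
  have : tri = fun x => 1 / 4 - ‖((x - 1 / 4 : ℝ) : UnitAddCircle)‖ := by
    funext x; rw [UnitAddCircle.norm_eq]; rfl
  rw [this]
  exact continuous_const.sub
    (((AddCircle.continuous_mk' 1).comp (continuous_id.sub continuous_const)).norm)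

theorem pl_tri (x : ℝ) : PLOn tri (ball x (1 / 2)) := by
  have k : ∀ n : ℤ, PLOn (fun y : ℝ => 1 / 4 - |y - 1 / 4 - n|) (ball x (1 / 2)) := fun n =>
    Lad50.pl_sub (plOn_const _ _) (Lad50.pl_abs (Lad50.pl_sub
      (Lad50.pl_sub (plOn_id _) (plOn_const _ _)) (plOn_const _ _)))
  refine Lad50.pl_of_sel (k ⌊x - 1 / 4⌋) (k (⌊x - 1 / 4⌋ + 1)) continuous_tri.continuousOn
    fun y hy => ?_
  rw [Real.ball_eq_Ioo] at hy
  have h1 := Int.floor_le (x - 1 / 4)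
  have h2 := Int.lt_floor_add_one (x - 1 / 4)
  rcases le_total (y - 1 / 4 - ⌊x - 1 / 4⌋) (1 / 2) with k | k
  · exact Or.inl (tri_eq _ (abs_le.2 ⟨by linarith [hy.1], k⟩))
  · exact Or.inr (tri_eq _ (abs_le.2 ⟨by push_cast; linarith, by push_cast; linarith [hy.2]⟩))

/-- the sign of the slope at the zero `j / 2` -/
def sg (j : Fin 2) : ℝ := 1 - 2 * ((j : ℕ) : ℝ)

/-- the zero `j / 2` -/
noncomputable def hf (j : Fin 2) : ℝ := ((j : ℕ) : ℝ) / 2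

theorem sg_sq (j : Fin 2) : sg j * sg j = 1 := by fin_cases j <;> norm_num [sg]

theorem abs_sg (j : Fin 2) : |sg j| = 1 := by fin_cases j <;> norm_num [sg]

theorem tri_lin (j : Fin 2) (n : ℤ) {y : ℝ} (h : |y - hf j - n| ≤ 1 / 4) :
    tri y = sg j * (y - hf j - n) := by
  have h' := abs_le.1 h
  fin_cases j <;> simp only [hf, sg] at h' ⊢ <;> norm_num at h' ⊢
  · rw [tri_eq n (abs_le.2 ⟨by linarith, by linarith⟩), abs_of_nonpos (by linarith)]; ring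
  · rw [tri_eq n (abs_le.2 ⟨by linarith, by linarith⟩), abs_of_nonneg (by linarith)]; ring

theorem tri_sol (y : ℝ) : ∃ (j : Fin 2) (n : ℤ), y - hf j - n = sg j * tri y := by
  rcases le_total 0 (y - 1 / 4 - round (y - 1 / 4)) with k | k
  · refine ⟨1, round (y - 1 / 4), ?_⟩
    rw [tri, abs_of_nonneg k]; norm_num [hf, sg]; ring
  · refine ⟨0, round (y - 1 / 4), ?_⟩
    rw [tri, abs_of_nonpos k]; norm_num [hf, sg]; ring

theorem tri_hf (j : Fin 2) : tri (hf j) = 0 := by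
  rw [tri_lin j 0 (by simp)]; simp

/-! ### collared blocks -/

/-- the unit slab -/
def Sl : Set V := {p | 0 ≤ p 2 ∧ p 2 ≤ 1}

theorem convex_Sl : Convex ℝ Sl :=
  (convex_halfSpace_ge (f := fun y : V => y 2) ⟨fun _ _ => rfl, fun _ _ => rfl⟩ 0).inter
    (convex_halfSpace_le (f := fun y : V => y 2) ⟨fun _ _ => rfl, fun _ _ => rfl⟩ 1)

theorem isClosed_Sl : IsClosed Sl :=
  (isClosed_le continuous_const (continuous_apply 2)).inter
    (isClosed_le (continuous_apply 2) continuous_const)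

theorem lat2 {l : V} (hl : l ∈ lat {0, 1}) : l 2 = 0 := (hl 2).2 (by decide)

theorem lat1 {l : V} (hl : l ∈ lat {0, 1}) : ∃ n : ℤ, l 1 = n := (hl 1).1 (by decide)

theorem lat0 {l : V} (hl : l ∈ lat {0, 1}) : ∃ n : ℤ, l 0 = n := (hl 0).1 (by decide)

theorem mem_lat (m n : ℤ) : (![(m : ℝ), n, 0] : V) ∈ lat {0, 1} := fun i => by
  fin_cases i <;> simp

theorem sl_add {p l : V} (hp : p ∈ Sl) (hl : l ∈ lat {0, 1}) : p + l ∈ Sl := by
  simpa [Sl, lat2 hl] using hp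

theorem box_sub : Icc (0 : V) 1 ⊆ Sl := fun _ h => ⟨h.1 2, h.2 2⟩

theorem sl_red {q : V} (hq : q ∈ Sl) : ∃ l ∈ lat {0, 1}, q + l ∈ Icc (0 : V) 1 := by
  refine ⟨_, mem_lat (-⌊q 0⌋) (-⌊q 1⌋), fun i => ?_, fun i => ?_⟩ <;> fin_cases i <;> simp
  exacts [Int.floor_le _, Int.floor_le _, hq.1, by linarith [Int.lt_floor_add_one (q 0)],
    by linarith [Int.lt_floor_add_one (q 1)], hq.2]

/-- a compact block `W` with two collared walls; `Φ i` the lifted collars, `τ` the collar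
coordinate, `r` a retraction of the universal cover -/
structure Col (H : V → V) (W : Set V) (Φ : Fin 2 → V → V) (τ : V → ℝ) (r : V → V) : Prop where
  per : Per {0, 1} H
  cpt : IsCompact W
  sub : W ⊆ range H
  opn : IsOpen (W ∩ {z | 0 < τ z})
  cont : ∀ i, ContinuousOn (Φ i) Sl
  eqv : ∀ i, ∀ p ∈ Sl, ∀ l ∈ lat {0, 1}, Φ i (p + l) = Φ i p + l
  pl : ∀ i, LPL (fun p => H (Φ i p)) Sl
  fib : ∀ i i', ∀ p ∈ Sl, ∀ p' ∈ Sl, H (Φ i p) = H (Φ i' p') → i = i' ∧ p - p' ∈ lat {0, 1}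
  mem : ∀ i, ∀ p ∈ Sl, H (Φ i p) ∈ W
  τc : ContinuousOn τ W
  τΦ : ∀ i, ∀ p ∈ Sl, τ (H (Φ i p)) = p 2
  sur : ∀ z ∈ W, τ z < 1 → ∃ i, ∃ p ∈ Sl, H (Φ i p) = z
  rc : Continuous r
  rm : ∀ x, H (r x) ∈ W
  ri : ∀ x, H x ∈ W → r x = x

namespace Col

variable {H : V → V} {W : Set V} {Φ : Fin 2 → V → V} {τ : V → ℝ} {r : V → V}
  (h : Col H W Φ τ r)
include h

theorem fc (i : Fin 2) : ContinuousOn (fun p => H (Φ i p)) Sl :=
  h.per.cont.comp_continuousOn (h.cont i)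

theorem add (i : Fin 2) {p l : V} (hp : p ∈ Sl) (hl : l ∈ lat {0, 1}) :
    H (Φ i (p + l)) = H (Φ i p) := by rw [h.eqv i p hp l hl, per_add h.per _ hl]

theorem τ0 {z : V} (hz : z ∈ W) : 0 ≤ τ z := by
  by_contra k
  obtain ⟨i, p, hp, rfl⟩ := h.sur z hz (by linarith [not_le.1 k])
  exact k (h.τΦ i p hp ▸ hp.1)

theorem cptZ (i : Fin 2) : IsCompact ((fun p => H (Φ i p)) '' Sl) := by
  convert (isCompact_Icc (a := (0 : V)) (b := 1)).image_of_continuousOn ((h.fc i).mono box_sub)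
    using 1
  refine Subset.antisymm ?_ (image_mono box_sub)
  rintro _ ⟨q, hq, rfl⟩
  obtain ⟨l, hl, k⟩ := sl_red hq
  exact ⟨_, k, h.add i hq hl⟩

theorem img (i : Fin 2) {p : V} {N : Set V} (hN : N ∈ 𝓝[Sl] p) (hp : p ∈ Sl) :
    (fun p => H (Φ i p)) '' N ∈ 𝓝[(fun p => H (Φ i p)) '' Sl] H (Φ i p) := by
  obtain ⟨O, hO, hpO, hs⟩ := mem_nhdsWithin.1 hN
  have cB : IsCompact (Icc (0 : V) 1 ∩ ⋂ l ∈ lat {0, 1}, {x | x + l ∉ O}) :=
    isCompact_Icc.inter_right (isClosed_biInter fun l _ =>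
      (hO.preimage (continuous_id.add continuous_const)).isClosed_compl)
  have cl := (cB.image_of_continuousOn ((h.fc i).mono fun _ k => box_sub k.1)).isClosed
  filter_upwards [mem_nhdsWithin_of_mem_nhds (cl.isOpen_compl.mem_nhds (x := H (Φ i p))
    fun ⟨x, hx, e⟩ => mem_iInter₂.1 hx.2 _ (h.fib i i p hp x (box_sub hx.1) e.symm).2
      (by simpa using hpO)), self_mem_nhdsWithin]
  rintro _ k ⟨q, hq, rfl⟩
  obtain ⟨l, hl, k1⟩ := sl_red hq
  by_contra k2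
  refine k ⟨q + l, ⟨k1, mem_iInter₂.2 fun l' hl' k3 => k2 ⟨q + l + l', hs ⟨k3,
    sl_add (box_sub k1) hl'⟩, ?_⟩⟩, h.add i hq hl⟩
  exact (h.add i (box_sub k1) hl').trans (h.add i hq hl)

theorem nhds (i : Fin 2) {p : V} {N : Set V} (hN : N ∈ 𝓝[Sl] p) (hp : p ∈ Sl) (h1 : p 2 < 1) :
    (fun p => H (Φ i p)) '' N ∈ 𝓝[W] H (Φ i p) := by
  refine nhdsWithin_le_iff.2 ?_ (h.img i hN hp)
  have e1 : ∀ᶠ z in 𝓝[W] H (Φ i p), τ z < 1 :=
    h.τc _ (h.mem i p hp) (Iio_mem_nhds (by rw [h.τΦ i p hp]; exact h1))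
  have e2 : ∀ᶠ z in 𝓝 (H (Φ i p)), ∀ i', i' ≠ i → z ∉ (fun p => H (Φ i' p)) '' Sl := by
    rw [eventually_all]
    intro i'
    by_cases k : i' = i
    · exact Eventually.of_forall fun _ k' => (k' k).elim
    · filter_upwards [(h.cptZ i').isClosed.isOpen_compl.mem_nhds (x := H (Φ i p))
        fun ⟨q, hq, e⟩ => k (h.fib _ _ _ hq _ hp e).1] with z hz _ using hz
  filter_upwards [e1, mem_nhdsWithin_of_mem_nhds e2, self_mem_nhdsWithin] with z k1 k2 k3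
  obtain ⟨i', q, hq, rfl⟩ := h.sur z k3 k1
  by_cases k : i' = i
  · exact ⟨q, hq, by rw [k]⟩
  · exact (k2 i' k ⟨q, hq, rfl⟩).elim

theorem nhds' (i : Fin 2) {p : V} {N : Set V} (hN : N ∈ 𝓝[Sl] p) (h0 : 0 < p 2) (h1 : p 2 < 1) :
    (fun p => H (Φ i p)) '' N ∈ 𝓝 (H (Φ i p)) := by
  have hp : p ∈ Sl := ⟨h0.le, h1.le⟩
  have := h.nhds i hN hp h1
  rwa [nhdsWithin_eq_nhds.2 (mem_of_superset (h.opn.mem_nhds ⟨h.mem i p hp,
    show 0 < τ _ by rw [h.τΦ i p hp]; exact h0⟩) inter_subset_left)] at this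

/-- local inverses -/
theorem inv (i : Fin 2) {p : V} (hp : p ∈ Sl) {N0 : Set V} (hN0 : N0 ∈ 𝓝 p) :
    ∃ δ > 0, closedBall p δ ⊆ N0 ∧ ∃ e : PLEquiv (closedBall p δ ∩ Sl)
      ((fun p => H (Φ i p)) '' (closedBall p δ ∩ Sl)), e.f = fun p => H (Φ i p) := by
  obtain ⟨δ, hδ, hpl⟩ := h.pl i p hp
  obtain ⟨ε, hε, hb⟩ := nhds_basis_closedBall.mem_iff.1 (inter_mem hN0
    (inter_mem (ball_mem_nhds p hδ) (ball_mem_nhds p (show (0 : ℝ) < 1 / 2 by norm_num))))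
  refine ⟨ε, hε, fun x hx => (hb hx).1, equivOfInjOn ((convex_closedBall p ε).inter convex_Sl).finConv
    (isClosed_closedBall.inter isClosed_Sl) (hpl.mono fun x hx => ⟨(hb hx.1).2.1, hx.2⟩)
    fun x hx y hy e => ?_, rfl⟩
  refine sub_eq_zero.1 (lat_small (h.fib i i x hx.2 y hy.2 e).2 ?_)
  have := dist_triangle_right x y p
  rw [← dist_eq_norm]
  linarith [mem_ball.1 (hb hx.1).2.2, mem_ball.1 (hb hy.1).2.2]

/-- functions on the collars -/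
theorem desc {X : Type*} (f : Fin 2 → V → X) (d : V → X)
    (hf : ∀ i, ∀ p ∈ Sl, ∀ l ∈ lat {0, 1}, f i (p + l) = f i p) :
    ∃ g : V → X, (∀ i, ∀ p ∈ Sl, g (H (Φ i p)) = f i p) ∧
      ∀ z, (∀ i, ∀ p ∈ Sl, H (Φ i p) ≠ z) → g z = d z := by
  classical
  refine ⟨fun z => if k : ∃ q : Fin 2 × V, q.2 ∈ Sl ∧ H (Φ q.1 q.2) = z then
    f k.choose.1 k.choose.2 else d z, fun i p hp => ?_, fun z hz => dif_neg fun ⟨q, k1, k2⟩ =>
      hz _ _ k1 k2⟩
  have k : ∃ q : Fin 2 × V, q.2 ∈ Sl ∧ H (Φ q.1 q.2) = H (Φ i p) := ⟨(i, p), hp, rfl⟩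
  obtain ⟨e1, e2⟩ := h.fib _ _ _ k.choose_spec.1 _ hp k.choose_spec.2
  beta_reduce
  rw [dif_pos k, ← hf i p hp _ e2, add_sub_cancel, e1]

theorem cont_desc {X Y : Type*} [TopologicalSpace X] [TopologicalSpace Y] (i : Fin 2) {T : Set Y}
    {g : V × Y → X} (hg : ContinuousOn (fun q : V × Y => g (H (Φ i q.1), q.2)) (Sl ×ˢ T)) :
    ContinuousOn g (((fun p => H (Φ i p)) '' Sl) ×ˢ T) := by
  rintro ⟨_, t⟩ ⟨⟨p, hp, rfl⟩, ht⟩
  have := hg (p, t) ⟨hp, ht⟩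
  rw [ContinuousWithinAt, nhdsWithin_prod_eq] at this ⊢
  intro N hN
  obtain ⟨A, hA, B, hB, hs⟩ := mem_prod_iff.1 (this hN)
  refine mem_prod_iff.2 ⟨_, h.img i hA hp, B, hB, ?_⟩
  rintro ⟨_, s⟩ ⟨⟨q, hq, rfl⟩, hs'⟩
  exact hs (mk_mem_prod hq hs')

/-- the angle -/
theorem exists_theta : ∃ θ : V → ℝ, Continuous θ ∧
    (∀ x, ∀ l ∈ lat {0, 1}, θ (x + l) = θ x + l 1) ∧ ∀ i, ∀ p ∈ Sl, θ (Φ i p) = p 1 := by
  obtain ⟨g, g1, -⟩ := h.desc (fun i p => p 1 - Φ i p 1) (fun _ => 0) fun i p hp l hl => by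
    simp [h.eqv i p hp l hl]
  have c : ∀ i, ContinuousOn g ((fun p => H (Φ i p)) '' Sl) := fun i => by
    have := h.cont_desc i (T := (univ : Set Unit)) (g := fun q => g q.1) (ContinuousOn.congr
      (f := fun q : V × Unit => q.1 1 - Φ i q.1 1) ((by fun_prop : ContinuousOn
        (fun q : V × Unit => q.1 1) _).sub ((continuous_apply 1).comp_continuousOn
          ((h.cont i).comp continuousOn_fst fun _ k => k.1))) fun q hq => g1 i _ hq.1)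
    exact this.comp (f := fun z => (z, ())) (by fun_prop) fun z hz => ⟨hz, trivial⟩
  have cl := ((h.cptZ 0).union (h.cptZ 1)).isClosed
  obtain ⟨G, hG⟩ := ContinuousMap.exists_restrict_eq cl ⟨_, continuousOn_iff_continuous_domRestrict.1
    ((c 0).union_of_isClosed (c 1) (h.cptZ 0).isClosed (h.cptZ 1).isClosed)⟩
  refine ⟨fun x => x 1 + G (H x), (continuous_apply 1).add (G.continuous.comp h.per.cont),
    fun x l hl => by simp only [per_add h.per _ hl, Pi.add_apply]; ring, fun i p hp => ?_⟩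
  have m : H (Φ i p) ∈ (fun p => H (Φ 0 p)) '' Sl ∪ (fun p => H (Φ 1 p)) '' Sl := by
    fin_cases i
    exacts [Or.inl ⟨p, hp, rfl⟩, Or.inr ⟨p, hp, rfl⟩]
  have : G (H (Φ i p)) = g (H (Φ i p)) := DFunLike.congr_fun hG ⟨_, m⟩
  beta_reduce
  rw [this, g1 i p hp]; ring

/-- pushing off the walls -/
theorem exists_push : ∃ ρ : V × ℝ → V, ContinuousOn ρ (W ×ˢ Icc 0 (1 / 2)) ∧
    (∀ z ∈ W, ∀ s, s ≤ τ z → ρ (z, s) = z) ∧
    ∀ i, ∀ p ∈ Sl, ∀ s, ρ (H (Φ i p), s) = H (Φ i ![p 0, p 1, min 1 (max (p 2) s)]) := by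
  have ms : ∀ p ∈ Sl, ∀ s : ℝ, (![p 0, p 1, min 1 (max (p 2) s)] : V) ∈ Sl := fun p hp s =>
    ⟨le_min zero_le_one (le_max_of_le_left hp.1), min_le_left _ _⟩
  obtain ⟨g, g1, g2⟩ := h.desc (fun i p s => H (Φ i ![p 0, p 1, min 1 (max (p 2) s)]))
    (fun z _ => z) fun i p hp l hl => by
      funext s
      rw [← h.add i (ms p hp s) hl]
      congr 2
      funext k; fin_cases k <;> simp [lat2 hl]
  have id : ∀ z ∈ W, ∀ s, s ≤ τ z → g z s = z := by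
    intro z hz s hs
    by_cases k : ∃ i, ∃ p ∈ Sl, H (Φ i p) = z
    · obtain ⟨i, p, hp, rfl⟩ := k
      rw [h.τΦ i p hp] at hs
      simp only [g1 i p hp, max_eq_left hs, min_eq_right hp.2]
      congr 2
      funext k; fin_cases k <;> rfl
    · rw [g2 z fun i p hp e => k ⟨i, p, hp, e⟩]
  refine ⟨fun q => g q.1 q.2, ?_, id, fun i p hp s => by simp only [g1 i p hp]⟩
  have c : ∀ i, ContinuousOn (fun q : V × ℝ => g q.1 q.2)
      (((fun p => H (Φ i p)) '' Sl) ×ˢ Icc 0 (1 / 2)) := fun i => by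
    refine h.cont_desc i (ContinuousOn.congr (f := fun q : V × ℝ =>
      H (Φ i ![q.1 0, q.1 1, min 1 (max (q.1 2) q.2)])) ((h.fc i).comp ?_
        fun q hq => ms _ hq.1 _) fun q hq => by simp only [g1 i _ hq.1])
    refine Continuous.continuousOn (continuous_pi fun k => ?_)
    fin_cases k <;> simp <;> fun_prop
  have c' : ContinuousOn (fun q : V × ℝ => g q.1 q.2) ((W ∩ τ ⁻¹' Ici 1) ×ˢ Icc 0 (1 / 2)) :=
    continuousOn_fst.congr fun q hq => id _ hq.1.1 _ (by linarith [hq.2.2, show 1 ≤ τ q.1 from hq.1.2])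
  have cl := fun i => (h.cptZ i).isClosed.prod (isClosed_Icc (a := (0 : ℝ)) (b := 1 / 2))
  refine (((c 0).union_of_isClosed (c 1) (cl 0) (cl 1)).union_of_isClosed c' ((cl 0).union (cl 1))
    ((h.τc.preimage_isClosed_of_isClosed h.cpt.isClosed isClosed_Ici).prod isClosed_Icc)).mono ?_
  rintro ⟨z, s⟩ ⟨hz, hs⟩
  by_cases k : τ z < 1
  · obtain ⟨i, p, hp, rfl⟩ := h.sur z hz k
    fin_cases i
    exacts [Or.inl (Or.inl ⟨⟨p, hp, rfl⟩, hs⟩), Or.inl (Or.inr ⟨⟨p, hp, rfl⟩, hs⟩)]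
  · exact Or.inr ⟨⟨hz, not_lt.1 k⟩, hs⟩

end Col

end Crest.Agent.X212.Lev33
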