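import Crest.Agent.X212.Lev33.Ann1
import Crest.Agent.X212.Lev33.Inc

/-!
# Row 212, layer T, ANN (helper33), part 2: the first splitting of a collared block, labels
-/

set_option autoImplicit false

open Set Metric Topology Filter Crest.Agent.R096.Ce_537 Crest.Agent.X212.Prd34
  Crest.Agent.X212.Rg3
open Crest.Agent.R096.Cx_609 (isBall_of_injOn)

namespace Crest.Agent.X212.Lev33

theorem Fl.map {A' B' A B N N' : Set V} {p : V} (h : Fl A' B' p) (e : PLEquiv N N')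
    (hN : N ∈ 𝓝 p) (hN' : N' ∈ 𝓝 (e.f p)) (hA : ∀ q ∈ N, (e.f q ∈ A ↔ q ∈ A'))
    (hB : ∀ q ∈ N, (e.f q ∈ B ↔ q ∈ B')) : Fl A B (e.f p) := by
  obtain ⟨C, c, c0, hC, h1, h2⟩ := h.congr hN (A' := A' ∩ N) (B' := B' ∩ N)
    (fun y hy => and_iff_left hy) fun y hy => and_iff_left hy
  have CN : C ⊆ N := by
    intro z hz
    rcases le_total 0 (c.g z 2) with k | k
    · exact (h1.superset ⟨_, ⟨c.mg hz, k⟩, c.ri z hz⟩).2.2
    · exact (h2.superset ⟨_, ⟨c.mg hz, k⟩, c.ri z hz⟩).2.2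
  have key : ∀ {A A' T : Set V}, C ∩ (A' ∩ N) = c.f '' T → (∀ q ∈ N, (e.f q ∈ A ↔ q ∈ A')) →
      e.f '' C ∩ A = (fun y => e.f (c.f y)) '' T := by
    intro A A' T k1 k2
    rw [← image_image e.f c.f, ← k1]
    ext z
    constructor
    · rintro ⟨⟨q, hq, rfl⟩, k⟩
      exact ⟨q, ⟨hq, (k2 q (CN hq)).1 k, CN hq⟩, rfl⟩
    · rintro ⟨q, hq, rfl⟩
      exact ⟨⟨q, hq.1, rfl⟩, (k2 q hq.2.2).2 hq.2.1⟩
  refine ⟨e.f '' C, c.trans (e.restrImage CN), by rw [← c0]; rfl, ?_, key h1 hA, key h2 hB⟩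
  have hp := mem_of_mem_nhds hN
  have : e.g ⁻¹' C ∈ 𝓝 (e.f p) := e.pg.1.continuousAt hN' (by rw [e.li p hp]; exact hC)
  filter_upwards [this, hN'] with z k1 k2 using ⟨_, k1, e.ri z k2⟩

/-- primitives survive a move -/
theorem move_prim {G : Type*} [Group G] {U Γ A B A' B' : Set V} (h : St U Γ A B)
    (m : Move A B A' B') {κ : V → V → G} {a b : V → G} (ha : Prim (A ∪ Γ) κ a)
    (hb : Prim (B ∪ Γ) κ b) : Prim (A' ∪ Γ) κ a ∧ ∃ b', Prim (B' ∪ Γ) κ b' ∧ EqOn b' b Γ := by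
  classical
  obtain ⟨R, e, ε, hR, hs, h0, h1, rfl, rfl⟩ := m
  refine ⟨ha.mono (union_subset_union_left _ sdiff_subset), ?_⟩
  have sd : e.f '' (side ∩ lc ε) ⊆ A ∩ B := fun z ⟨y, hy, k⟩ => (hs.superset ⟨y, hy.1, k⟩).2
  have hA : e.f '' lc ε ⊆ A := by rintro _ ⟨y, hy, rfl⟩; exact hR (e.mf hy.1)
  obtain ⟨_, y0, hy0, rfl⟩ := (conn_lev e (t := 0) (by simp)).nonempty
  have m0 : e.f y0 ∈ e.f '' (side ∩ lc ε) :=
    ⟨y0, ⟨hy0.1, hy0.1.1, by rw [(hy0.2 : y0 2 = 0), abs_zero]; exact h0.le⟩, rfl⟩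
  have lc1 := (ha.mono fun z hz => Or.inl (sd hz).1).lco (hb.mono fun z hz => Or.inl (sd hz).2)
  let b' : V → G := fun x => if x ∈ e.f '' lc ε then b (e.f y0) * (a (e.f y0))⁻¹ * a x else b x
  have e1 : ∀ x ∈ B ∪ Γ, b' x = b x := by
    intro x hx
    simp only [b']
    split_ifs with k
    · have xB : x ∈ B := hx.resolve_right (disjoint_left.1 h.dj (h.spl.subA (hA k)))
      obtain ⟨y, hy, rfl⟩ := k
      obtain ⟨z, hz, q⟩ := hs.subset ⟨e.mf hy.1, hR (e.mf hy.1), xB⟩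
      have : b (e.f y0) * (a (e.f y0))⁻¹ = b (e.f y) * (a (e.f y))⁻¹ :=
        lc1.eq (conn_band e h1.le) m0 ⟨y, ⟨e.injOn hz.1 hy.1 q ▸ hz, hy⟩, rfl⟩
      rw [this]; group
    · rfl
  refine ⟨b', ?_, fun x hx => e1 x (Or.inr hx)⟩
  rw [union_right_comm]
  refine Prim.union (relCl_of_isOpen (hA.trans h.spl.subA) ?_) (IsClosed.relCl ?_ _)
    (hb.congr' e1) (((ha.mono fun z hz => Or.inl (hA hz)).mul_left _).congr' fun x hx => if_pos hx)
  · convert h.spl.clB using 1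
    ext z
    exact ⟨fun k => ⟨k.1, fun q => k.2 (Or.inl q)⟩,
      fun k => ⟨k.1, fun q => q.elim k.2 (disjoint_left.1 h.dj k.1)⟩⟩
  · refine (IsCompact.image_of_continuousOn ?_ (e.pf.1.mono fun _ h => h.1)).isClosed
    exact (isCompact_closedBall (0 : V) 1).inter_right
      (isClosed_le (f := fun y : V => |y 2|) (by fun_prop) continuous_const)

/-- the second coordinate -/
def co1 : Multiplicative V →* Multiplicative ℝ :=
  AddMonoidHom.toMultiplicative (Pi.evalAddMonoidHom (fun _ => ℝ) 1)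

/-- the second coordinate of the lattice cocycle -/
noncomputable def kap (H : V → V) (x y : V) : Multiplicative ℝ := co1 (latc H x y)

theorem lab_eq {H : V → V} {J : Finset (Fin 3)} (h : Per J H) {T : Set V}
    {b : V → Multiplicative ℝ} (hb : Prim T (kap H) b) {Y : Type*} [TopologicalSpace Y]
    {T' : Set Y} (hT' : IsPreconnected T') {g : Y → V} (hg : ContinuousOn g T')
    (hm : ∀ t ∈ T', H (g t) ∈ T) {s t : Y} (hs : s ∈ T') (ht : t ∈ T') :
    (b (H (g s))).toAdd - (sec H (H (g s)) - g s) 1 =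
      (b (H (g t))).toAdd - (sec H (H (g t)) - g t) 1 :=
  congrArg Multiplicative.toAdd ((((prim_of_lift h hg).map co1).lco
    (hb.comp (h.cont.comp_continuousOn hg) hm)).eq hT' hs ht)

/-- a collared block with an angle `θ` and a push `ρ` -/
structure Col2 (H : V → V) (W : Set V) (Φ : Fin 2 → V → V) (τ : V → ℝ) (r : V → V) (θ : V → ℝ)
    (ρ : V × ℝ → V) : Prop extends Col H W Φ τ r where
  θc : Continuous θ
  θe : ∀ x, ∀ l ∈ lat {0, 1}, θ (x + l) = θ x + l 1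
  θΦ : ∀ i, ∀ p ∈ Sl, θ (Φ i p) = p 1
  ρc : ContinuousOn ρ (W ×ˢ Icc 0 (1 / 2))
  ρi : ∀ z ∈ W, ∀ s, s ≤ τ z → ρ (z, s) = z
  ρΦ : ∀ i, ∀ p ∈ Sl, ∀ s, ρ (H (Φ i p), s) = H (Φ i ![p 0, p 1, min 1 (max (p 2) s)])

/-- the wave function -/
noncomputable def wf (H : V → V) (θ : V → ℝ) (z : V) : ℝ := tri (θ (sec H z))

/-- the open block -/
def Uo (W : Set V) (τ : V → ℝ) : Set V := W ∩ {z | 0 < τ z}

/-- the four boundary curves -/
def Gm (W : Set V) (τ w : V → ℝ) : Set V := {z | z ∈ W ∧ τ z = 0 ∧ w z = 0}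

/-- standard near the walls -/
def Std (W : Set V) (τ w : V → ℝ) (A B : Set V) (s : ℝ) : Prop :=
  ∀ z ∈ Uo W τ, τ z ≤ s → (z ∈ A ↔ 0 ≤ w z) ∧ (z ∈ B ↔ w z ≤ 0)

theorem Std.mem {W : Set V} {τ w : V → ℝ} {A B : Set V} {s : ℝ} (h : Std W τ w A B s)
    (hA : A ⊆ Uo W τ) {z : V} (hz : z ∈ W) (h0 : 0 ≤ τ z) (h1 : τ z ≤ s) :
    z ∈ A ∩ B ∪ Gm W τ w ↔ w z = 0 := by
  constructor
  · rintro (k | k)
    · have := h z (hA k.1) h1
      exact le_antisymm (this.2.1 k.2) (this.1.1 k.1)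
    · exact k.2.2
  · intro k
    rcases h0.eq_or_lt with q | q
    · exact Or.inr ⟨hz, q.symm, k⟩
    · have := h z ⟨hz, q⟩ h1
      exact Or.inl ⟨this.1.2 k.ge, this.2.2 k.le⟩

namespace Col2

variable {H : V → V} {W : Set V} {Φ : Fin 2 → V → V} {τ θ : V → ℝ} {r : V → V} {ρ : V × ℝ → V}
  (h : Col2 H W Φ τ r θ ρ)
include h

theorem θsec (x : V) : θ (sec H (H x)) = θ x + (sec H (H x) - x) 1 := by
  rw [← h.θe x _ (sec_lat h.per x), add_sub_cancel]

theorem wH (x : V) : wf H θ (H x) = tri (θ x) := by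
  obtain ⟨n, hn⟩ := lat1 (sec_lat h.per x)
  rw [wf, h.θsec, hn, tri_add_int]

theorem wΦ (i : Fin 2) {p : V} (hp : p ∈ Sl) : wf H θ (H (Φ i p)) = tri (p 1) := by
  rw [h.wH, h.θΦ i p hp]

theorem wc : ContinuousOn (wf H θ) W := by
  intro z hz
  obtain ⟨x, rfl⟩ := h.sub hz
  refine ContinuousAt.continuousWithinAt ?_
  rw [ContinuousAt, ← h.per.opn.map_nhds_eq h.per.cont.continuousAt, tendsto_map'_iff, h.wH]
  exact ((continuous_tri.comp h.θc).tendsto x).congr fun y => (h.wH y).symm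

theorem small {K : Set V} (hK : IsCompact K) (hU : K ⊆ Uo W τ) :
    ∃ s, 0 < s ∧ s ≤ 1 / 4 ∧ ∀ z ∈ K, s < τ z := by
  obtain ⟨a, ha, k⟩ := hK.exists_forall_le' (h.τc.mono fun _ hz => (hU hz).1) fun z hz => (hU hz).2
  exact ⟨min (a / 2) (1 / 4), by positivity, min_le_right _ _,
    fun z hz => (min_le_left _ _).trans_lt (by linarith [k z hz])⟩

theorem prim_floor (a : ℝ) {T : Set V} (hT : T ⊆ W)
    (hn : ∀ z ∈ T, ∀ n : ℤ, θ (sec H z) + a ≠ n) :
    Prim T (kap H) fun z => Multiplicative.ofAdd (⌊θ (sec H z) + a⌋ : ℝ) := by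
  intro x hx
  obtain ⟨h1, h2⟩ := lsec_tendsto h.per (h.sub (hT hx))
  have h3 : ∀ᶠ y in 𝓝 (sec H x), θ y + a ∈ Ioo (⌊θ (sec H x) + a⌋ : ℝ) (⌊θ (sec H x) + a⌋ + 1) :=
    (h.θc.add continuous_const).continuousAt (Ioo_mem_nhds
      (lt_of_le_of_ne (Int.floor_le _) (hn x hx _).symm) (Int.lt_floor_add_one _))
  filter_upwards [mem_nhdsWithin_of_mem_nhds (h1 h3), mem_nhdsWithin_of_mem_nhds h2] with y k1 k2
  have e := h.θsec (lsec H x y)
  obtain ⟨n, hn⟩ := lat1 (sec_lat h.per (lsec H x y))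
  rw [k2] at e hn
  show _ = Multiplicative.ofAdd ((⌊θ (sec H x) + a⌋ : ℝ) + (sec H y - lsec H x y) 1)
  rw [e, hn, add_right_comm, Int.floor_add_intCast,
    Int.floor_eq_iff.2 ⟨(mem_preimage.1 k1).1.le, (mem_preimage.1 k1).2⟩]
  push_cast; rfl

/-- **the first splitting** -/
theorem lev0 : ∃ A B, Spl (Uo W τ) A B ∧ Std W τ (wf H θ) A B (1 / 4) ∧
    (∀ x ∈ A, -(1 / 8) < wf H θ x) ∧ ∀ x ∈ B, wf H θ x < 1 / 8 := by
  let m : ℝ → ℝ := fun s => max 0 (min 1 (4 * s - 1))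
  have τU : ContinuousOn τ (Uo W τ) := h.τc.mono inter_subset_left
  have chart : ∀ x ∈ Uo W τ ∩ τ ⁻¹' Iio 1, ∃ i p, 0 < p 2 ∧ p 2 < 1 ∧ H (Φ i p) = x := by
    rintro x ⟨hx, h1⟩
    obtain ⟨i, p, hp, rfl⟩ := h.sur x hx.1 h1
    exact ⟨i, p, h.τΦ i p hp ▸ hx.2, h.τΦ i p hp ▸ h1, rfl⟩
  obtain ⟨A, B, K', t, sp, k1, k2, k3, k4, k5, k6⟩ := Lvf3.lev (Uo W τ) (Uo W τ ∩ τ ⁻¹' Iio 1)
    (Uo W τ ∩ τ ⁻¹' Ioi (1 / 2)) (W ∩ τ ⁻¹' Ici (3 / 4)) (wf H θ) (fun z => m (τ z)) (1 / 8) h.opn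
    (τU.isOpen_inter_preimage h.opn isOpen_Iio) inter_subset_left
    (τU.isOpen_inter_preimage h.opn isOpen_Ioi) inter_subset_left
    (h.cpt.of_isClosed_subset (h.τc.preimage_isClosed_of_isClosed h.cpt.isClosed isClosed_Ici)
      inter_subset_left)
    (fun z hz => by
      have : 3 / 4 ≤ τ z := hz.2
      exact ⟨⟨hz.1, show 0 < τ z by linarith⟩, show 1 / 2 < τ z by linarith⟩)
    (by norm_num) (h.wc.mono inter_subset_left)
    ((by fun_prop : Continuous m).comp_continuousOn τU)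
    (Lad50.locPL_of_nhds fun x hx => by
      obtain ⟨i, p, p0, p1, rfl⟩ := chart x hx
      have hp : p ∈ Sl := ⟨p0.le, p1.le⟩
      obtain ⟨δ, hδ, hb, e, he⟩ := h.inv i hp (N0 := (fun q : V => q 1) ⁻¹' ball (p 1) (1 / 2))
        ((continuous_apply 1).continuousAt (ball_mem_nhds _ (by norm_num)))
      refine ⟨_, h.nhds' i (inter_comm _ _ ▸ inter_mem_nhdsWithin Sl (closedBall_mem_nhds p hδ))
        p0 p1, ((pl_tri (p 1)).comp (Lad50.pl_apply e.pg 1) fun z hz => hb (e.mg hz).1).congr ?_⟩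
      rintro _ ⟨q, hq, rfl⟩
      have := e.li q hq
      rw [he] at this
      simp only [h.wΦ i hq.2, this])
    (fun x hx _ => by
      rcases lt_or_ge (τ x) 1 with k | k
      · exact Or.inl ⟨hx, k⟩
      · exact Or.inr ⟨hx.1, show 3 / 4 ≤ τ x by linarith⟩)
    (fun x hx => by
      have : 1 / 2 < τ x := hx.2
      simp only [m]
      rw [min_eq_left (by linarith), max_eq_right zero_le_one])
    (fun x _ => ⟨le_max_left _ _, max_le zero_le_one (min_le_left _ _)⟩)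
    (fun t ht x hx hw => by
      obtain ⟨i, p, p0, p1, rfl⟩ := chart x hx
      have hp : p ∈ Sl := ⟨p0.le, p1.le⟩
      obtain ⟨j, n, hn⟩ := tri_sol (p 1)
      simp only [h.wΦ i hp, h.τΦ i p hp] at hw
      have hm : |m (p 2)| ≤ 1 := by
        rw [abs_of_nonneg (le_max_left _ _)]; exact max_le zero_le_one (min_le_left _ _)
      have h4 : |p 1 - hf j - n| < 1 / 4 := by
        rw [hn, hw, abs_mul, abs_sg, abs_mul]
        nlinarith [abs_nonneg t, abs_nonneg (m (p 2))]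
      obtain ⟨δ, hδ, hb, e, he⟩ := h.inv i hp
        (N0 := {q : V | |q 1 - hf j - n| < 1 / 4} ∩ {q | 0 < q 2})
        (inter_mem ((isOpen_lt (by fun_prop) continuous_const).mem_nhds h4)
          ((isOpen_lt continuous_const (by fun_prop)).mem_nhds p0))
      have n1 : Sl ∈ 𝓝 p := (continuous_apply 2).continuousAt (Icc_mem_nhds p0 p1)
      let u : V → ℝ := fun q => sg j * (q 1 - hf j - n) - t * m (q 2)
      have u0 : u p = 0 := by
        simp only [u]; rw [hn, ← mul_assoc, sg_sq, one_mul, hw, sub_self]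
      have fl := Lvf3.fl_of_shear (u := u) (x := p) (d := ![0, sg j, 0]) one_pos
        (Lad50.pl_sub (Lad50.pl_mul _ (Lad50.pl_sub (Lad50.pl_sub (Lad50.pl_coord 1 _)
          (plOn_const _ _)) (plOn_const _ _))) (Lad50.pl_mul _ (Lad50.pl_max (plOn_const _ _)
            (Lad50.pl_min (plOn_const _ _) (Lad50.pl_sub (Lad50.pl_mul 4 (Lad50.pl_coord 2 _))
              (plOn_const _ _))))))
        (fun k => by
          have := abs_sg j
          rw [show sg j = 0 from congrFun k 1] at this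
          simp at this)
        (fun y s _ _ => by
          simp only [u, Pi.add_apply, Pi.smul_apply, smul_eq_mul, Matrix.cons_val]
          rw [mul_zero, add_zero]
          linear_combination s * sg_sq j)
      have key : ∀ q ∈ closedBall p δ ∩ Sl, e.f q ∈ Uo W τ ∧
          wf H θ (e.f q) - t * m (τ (e.f q)) = u q := fun q hq => by
        simp only [he, h.wΦ i hq.2, h.τΦ i q hq.2, tri_lin j n (hb hq.1).1.le, u, and_true]
        exact ⟨h.mem i q hq.2, show 0 < τ _ by rw [h.τΦ i q hq.2]; exact (hb hq.1).2⟩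
      have := fl.map e (A := {y | y ∈ Uo W τ ∧ t * m (τ y) ≤ wf H θ y})
        (B := {y | y ∈ Uo W τ ∧ wf H θ y ≤ t * m (τ y)}) (inter_mem (closedBall_mem_nhds p hδ) n1)
        (by
          rw [he]
          exact h.nhds' i (inter_comm _ _ ▸ inter_mem_nhdsWithin Sl (closedBall_mem_nhds p hδ))
            p0 p1)
        (fun q hq => by
          simp only [mem_ofPred_eq, (key q hq).1, true_and, u0, ← (key q hq).2, sub_nonneg])
        (fun q hq => by
          simp only [mem_ofPred_eq, (key q hq).1, true_and, u0, ← (key q hq).2, sub_nonpos])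
      rwa [he] at this)
  refine ⟨A, B, sp, fun z hz h1 => ?_, k5, k6⟩
  have := k4 z hz fun k => by
    have : 1 / 2 < τ z := (k2 k).2
    linarith
  simp only [m] at this
  rwa [max_eq_left ((min_le_right _ _).trans (by linarith)), mul_zero] at this

theorem st_of {A B : Set V} {s : ℝ} (hs : 0 < s) (sp : Spl (Uo W τ) A B)
    (sd : Std W τ (wf H θ) A B s) : St (Uo W τ) (Gm W τ (wf H θ)) A B := by
  have sW : A ∩ B ∪ Gm W τ (wf H θ) ⊆ W := fun z hz =>
    hz.elim (fun k => (sp.subA k.1).1) fun k => k.1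
  have key := fun z hz => sd.mem sp.subA (z := z) hz (h.τ0 hz)
  refine ⟨sp, disjoint_left.2 fun z k1 k2 => (ne_of_gt k1.2) k2.2.1,
    h.cpt.of_isClosed_subset ?_ sW, fun x hx W0 hW0 => ?_⟩
  · have c1 := h.τc.preimage_isClosed_of_isClosed h.cpt.isClosed (isClosed_Iic (a := s))
    have c2 := h.τc.preimage_isClosed_of_isClosed h.cpt.isClosed (isClosed_Ici (a := s))
    convert ((h.wc.mono inter_subset_left).preimage_isClosed_of_isClosed c1
      (isClosed_singleton (x := 0))).union (c2.sdiff (sp.clA.union sp.clB)) using 1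
    ext z
    constructor
    · intro k
      rcases le_total (τ z) s with q | q
      · exact Or.inl ⟨⟨sW k, q⟩, (key z (sW k) q).1 k⟩
      · have := k.resolve_right fun k => by linarith [k.2.1]
        exact Or.inr ⟨⟨sW k, q⟩, fun k => k.elim (fun k => k.2 this.1) fun k => k.2 this.2⟩
    · rintro (k | k)
      · exact (key z k.1.1 k.1.2).2 k.2
      · have zU : z ∈ Uo W τ := ⟨k.1.1, hs.trans_le k.1.2⟩
        exact Or.inl ⟨not_not.1 fun q => k.2 (Or.inl ⟨zU, q⟩), not_not.1 fun q => k.2 (Or.inr ⟨zU, q⟩)⟩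
  · obtain ⟨i, p, hp, rfl⟩ := h.sur x hx.1 (by rw [hx.2.1]; exact one_pos)
    have p2 : p 2 = 0 := h.τΦ i p hp ▸ hx.2.1
    have p1 : tri (p 1) = 0 := h.wΦ i hp ▸ hx.2.2
    obtain ⟨j, n, hn⟩ := tri_sol (p 1)
    rw [p1, mul_zero] at hn
    obtain ⟨N1, hN1, hs1⟩ := mem_nhdsWithin_iff_exists_mem_nhds_inter.1 (h.fc i p hp hW0)
    obtain ⟨δ, hδ, hb, e, he⟩ := h.inv i hp
      (N0 := N1 ∩ ({q : V | |q 1 - hf j - n| < 1 / 4} ∩ {q | q 2 < min s 1}))
      (inter_mem hN1 (inter_mem ((isOpen_lt (by fun_prop) continuous_const).mem_nhds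
        (by simp [hn])) ((isOpen_lt (by fun_prop) continuous_const).mem_nhds (by simp [p2, hs]))))
    let φ : P → V := fun y => ![p 0 + δ * y 0, p 1, δ / 2 * (y 1 + 1)]
    have mφ : MapsTo φ (cube 2) (closedBall p δ ∩ Sl) := by
      intro y hy
      have y0 := abs_le.1 (mem_cube.1 hy 0)
      have y1 := abs_le.1 (mem_cube.1 hy 1)
      have : φ y ∈ closedBall p δ := by
        rw [mem_closedBall, dist_pi_le_iff hδ.le]
        intro k
        rw [Real.dist_eq, abs_le]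
        fin_cases k <;> simp [φ, p2, hδ.le] <;> constructor <;> nlinarith
      exact ⟨this, show 0 ≤ δ / 2 * (y 1 + 1) by nlinarith,
        ((lt_min_iff.1 (hb this).2.2).2).le⟩
    have pφ : PLOn φ (cube 2) := Lad50.pl_vec3 (Lad50.pl_add (plOn_const _ _) (Lad50.pl_mul _
      (Lad50.pl_coord 0 _))) (plOn_const _ _) (Lad50.pl_mul _ (Lad50.pl_add (Lad50.pl_coord 1 _)
        (plOn_const _ _)))
    have iφ : Function.Injective φ := by
      intro y y' k
      have k0 : p 0 + δ * y 0 = p 0 + δ * y' 0 := congrFun k 0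
      have k2 : δ / 2 * (y 1 + 1) = δ / 2 * (y' 1 + 1) := congrFun k 2
      funext a; fin_cases a
      · exact mul_left_cancel₀ hδ.ne' (add_left_cancel k0)
      · exact add_right_cancel (mul_left_cancel₀ (half_pos hδ).ne' k2)
    refine ⟨_, _, isBall_of_injOn (e.pf.comp pφ mφ) fun y hy y' hy' k =>
      iφ (e.injOn (mφ hy) (mφ hy') k), ?_, ?_, ![0, -1], ?_, ?_⟩
    · rintro _ ⟨y, hy, rfl⟩
      have k := mφ hy
      simp only [he]
      refine ⟨(key _ (h.mem i _ k.2) ?_).2 ?_, hs1 ⟨(hb k.1).1, k.2⟩⟩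
      · rw [h.τΦ i _ k.2]; exact ((lt_min_iff.1 (hb k.1).2.2).1).le
      · rw [h.wΦ i k.2]; exact p1
    · filter_upwards [nhdsWithin_mono _ sW (h.nhds i (inter_comm _ _ ▸ inter_mem_nhdsWithin Sl
        (closedBall_mem_nhds p hδ) : closedBall p δ ∩ Sl ∈ _) hp (by rw [p2]; exact one_pos)),
        self_mem_nhdsWithin]
      rintro _ ⟨q, hq, rfl⟩ k
      have k1 := (key _ (h.mem i _ hq.2) (by
        rw [h.τΦ i _ hq.2]; exact ((lt_min_iff.1 (hb hq.1).2.2).1).le)).1 k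
      rw [h.wΦ i hq.2, tri_lin j n (hb hq.1).2.1.le] at k1
      have k2 : q 1 = p 1 := by
        have := congrArg (sg j * ·) k1
        simp only [← mul_assoc, sg_sq] at this
        linarith
      have d := (dist_pi_le_iff hδ.le).1 (mem_closedBall.1 hq.1)
      have d0 := abs_le.1 (Real.dist_eq _ _ ▸ d 0)
      have d2 := abs_le.1 (Real.dist_eq _ _ ▸ d 2)
      refine ⟨![(q 0 - p 0) / δ, 2 * q 2 / δ - 1], mem_cube.2 fun a => ?_, ?_⟩
      · fin_cases a <;> simp only [Fin.zero_eta, Fin.mk_one, Matrix.cons_val, abs_le]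
        · rw [le_div_iff₀ hδ, div_le_iff₀ hδ]; constructor <;> linarith
        · have := hq.2.1
          have k3 : 0 ≤ 2 * q 2 / δ := by positivity
          have k4 : 2 * q 2 / δ ≤ 2 := by rw [div_le_iff₀ hδ]; linarith
          constructor <;> linarith
      · simp only [he]
        congr 2
        funext a; fin_cases a <;> simp [φ, k2] <;> field_simp <;> ring
    · rw [mem_sph2, mem_cube]
      exact ⟨fun a => by fin_cases a <;> simp, Or.inr (by simp)⟩
    · simp only [he]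
      congr 2
      funext a; fin_cases a <;> simp [φ, p2]

end Col2

end Crest.Agent.X212.Lev33
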