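import Crest.Agent.X212.Lev33.Ann2

/-!
# Row 212, layer T, ANN (helper33), part 3: the components of the compressed surface
-/

set_option autoImplicit false

open Set Metric Topology Filter Crest.Agent.R096.Ce_537 Crest.Agent.X212.Prd34
  Crest.Agent.X212.Rg3 Crest.Agent.X212.Srf12

namespace Crest.Agent.X212.Lev33

theorem hol_cyc {X G G' : Type*} [TopologicalSpace X] [CommGroup G] [CommGroup G'] {C : Set X}
    {c : X → X → G} {k : X → X → G'} (hc : Coc C c) (hk : Coc C k)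
    (inj : ∀ x (L : Path x x), (∀ t, L t ∈ C) → hol k L.extend = 1 → hol c L.extend = 1) {x y : X}
    (p : Path x x) (σ : Path y y) (hp : ∀ t, p t ∈ C) (hσ : ∀ t, σ t ∈ C) (j : JoinedIn C x y)
    (e : hol k p.extend = hol k σ.extend) : hol c p.extend = hol c σ.extend := by
  obtain ⟨q, hq⟩ := j
  have m1 : ∀ t, σ.symm t ∈ C := fun t => hσ _
  have m2 : ∀ t, q.symm t ∈ C := fun t => hq _
  have := inj x (p.trans (q.trans (σ.symm.trans q.symm)))
    (trans_mem hp (trans_mem hq (trans_mem m1 m2))) (by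
      rw [hol_trans hk hp (trans_mem hq (trans_mem m1 m2)), hol_trans hk hq (trans_mem m1 m2),
        hol_trans hk m1 m2, hol_symm hk hσ, hol_symm hk hq, e, mul_inv_cancel_comm_assoc,
        mul_inv_cancel])
  rwa [hol_trans hc hp (trans_mem hq (trans_mem m1 m2)), hol_trans hc hq (trans_mem m1 m2),
    hol_trans hc m1 m2, hol_symm hc hσ, hol_symm hc hq, mul_inv_cancel_comm_assoc,
    mul_inv_eq_one] at this

theorem vec_sl {a b c : ℝ} (h0 : 0 ≤ c) (h1 : c ≤ 1) : (![a, b, c] : V) ∈ Sl := ⟨h0, h1⟩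

/-- the data after compression -/
structure Dat (H : V → V) (W : Set V) (Φ : Fin 2 → V → V) (τ : V → ℝ) (r : V → V) (θ : V → ℝ)
    (ρ : V × ℝ → V) (A B : Set V) (s : ℝ) (a b : V → Multiplicative ℝ) : Prop
    extends Col2 H W Φ τ r θ ρ where
  st : St (Uo W τ) (Gm W τ (wf H θ)) A B
  s0 : 0 < s
  s1 : s ≤ 1 / 4
  sd : Std W τ (wf H θ) A B s
  pa : Prim (A ∪ Gm W τ (wf H θ)) (kap H) a
  pb : Prim (B ∪ Gm W τ (wf H θ)) (kap H) b
  ea : ∀ z ∈ Gm W τ (wf H θ), a z = Multiplicative.ofAdd (⌊θ (sec H z) + 1 / 4⌋ : ℝ)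
  eb : ∀ z ∈ Gm W τ (wf H θ), b z = Multiplicative.ofAdd (⌊θ (sec H z) + 3 / 4⌋ : ℝ)
  inc : ∀ x (p : Path x x), (∀ t, p t ∈ A ∩ B) → NH (Uo W τ) p → NH (A ∩ B) p

variable {H : V → V} {W : Set V} {Φ : Fin 2 → V → V} {τ θ : V → ℝ} {r : V → V} {ρ : V × ℝ → V}

namespace Col2

variable (h : Col2 H W Φ τ r θ ρ)
include h

theorem shift (i : Fin 2) (x y : ℝ) {c : ℝ} (h0 : 0 ≤ c) (h1 : c ≤ 1) (m n : ℤ) :
    Φ i ![x + m, y + n, c] = Φ i ![x, y, c] + ![(m : ℝ), n, 0] := by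
  rw [← h.eqv i _ (vec_sl h0 h1) _ (mem_lat m n)]
  congr 1
  funext k; fin_cases k <;> simp

theorem gm (i j : Fin 2) (x : ℝ) : H (Φ i ![x, hf j, 0]) ∈ Gm W τ (wf H θ) :=
  ⟨h.mem i _ (vec_sl le_rfl zero_le_one), h.τΦ i _ (vec_sl le_rfl zero_le_one),
    (h.wΦ i (vec_sl le_rfl zero_le_one)).trans (tri_hf j)⟩

theorem mem_gm {z : V} (hz : z ∈ Gm W τ (wf H θ)) : ∃ i j x, H (Φ i ![x, hf j, 0]) = z := by
  obtain ⟨i, p, hp, rfl⟩ := h.sur z hz.1 (by rw [hz.2.1]; exact one_pos)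
  have p2 : p 2 = 0 := h.τΦ i p hp ▸ hz.2.1
  have p1 : tri (p 1) = 0 := h.wΦ i hp ▸ hz.2.2
  obtain ⟨j, n, hn⟩ := tri_sol (p 1)
  rw [p1, mul_zero] at hn
  refine ⟨i, j, p 0, ?_⟩
  rw [← h.add i (vec_sl le_rfl zero_le_one) (mem_lat 0 n)]
  congr 2
  funext k; fin_cases k <;> simp [p2]
  linarith

theorem cv (i : Fin 2) {c : ℝ} (h0 : 0 ≤ c) (h1 : c ≤ 1) {f g : ℝ → ℝ} (hf : Continuous f)
    (hg : Continuous g) : Continuous fun x => Φ i ![f x, g x, c] :=
  (h.cont i).comp_continuous (continuous_pi fun k => by fin_cases k <;> simp <;> fun_prop)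
    fun _ => vec_sl h0 h1

theorem ρW {z : V} (hz : z ∈ W) {s : ℝ} (hs : s ≤ 1) : ρ (z, s) ∈ W ∧ s ≤ τ (ρ (z, s)) := by
  rcases le_or_gt s (τ z) with k | k
  · rw [h.ρi z hz s k]; exact ⟨hz, k⟩
  · obtain ⟨i, p, hp, rfl⟩ := h.sur z hz (k.trans_le hs)
    have m : (![p 0, p 1, min 1 (max (p 2) s)] : V) ∈ Sl :=
      vec_sl (le_min zero_le_one (le_max_of_le_left hp.1)) (min_le_left _ _)
    rw [h.ρΦ i p hp, h.τΦ i _ m]
    exact ⟨h.mem i _ m, le_min hs (le_max_right _ _)⟩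

theorem exists_dat (inc : IncStmt) : ∃ A B s a b, Dat H W Φ τ r θ ρ A B s a b := by
  obtain ⟨A0, B0, sp, sd, w1, w2⟩ := h.lev0
  obtain ⟨A, B, K, st, ⟨a, b, q1, q2, q3, q4⟩, k1, k2, k3, k4⟩ := inc (Uo W τ) (Gm W τ (wf H θ))
    (fun A B => ∃ a b, Prim (A ∪ Gm W τ (wf H θ)) (kap H) a ∧ Prim (B ∪ Gm W τ (wf H θ)) (kap H) b ∧
      EqOn a (fun z => Multiplicative.ofAdd (⌊θ (sec H z) + 1 / 4⌋ : ℝ)) (Gm W τ (wf H θ)) ∧
      EqOn b (fun z => Multiplicative.ofAdd (⌊θ (sec H z) + 3 / 4⌋ : ℝ)) (Gm W τ (wf H θ)))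
    (fun z hz => by
      obtain ⟨i, j, x, rfl⟩ := h.mem_gm hz
      have c := h.cv i le_rfl zero_le_one continuous_id (continuous_const (y := hf j))
      refine ⟨range fun x => H (Φ i ![x, hf j, 0]), by rintro _ ⟨y, rfl⟩; exact h.gm i j y,
        ⟨x, rfl⟩, isPreconnected_range (h.per.cont.comp c), _,
        (coc_par h.per (i := 0) (by decide)).mono fun z hz =>
          h.sub (hz.elim (fun k => k.1) fun k => k.1), ?_⟩
      have e := h.shift i 0 (hf j) le_rfl zero_le_one 1 0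
      simp only [Int.cast_one, zero_add, Int.cast_zero, add_zero] at e
      exact not_tr_par h.per (by decide) c (fun t => ⟨t, rfl⟩) (by
        simp only [id, e]
        exact (per_add h.per _ (by simpa using mem_lat 1 0)).symm) (by simp [e]))
    (fun A B A' B' st ⟨a, b, q1, q2, q3, q4⟩ m _ => by
      obtain ⟨k1, b', k2, k3⟩ := move_prim st m q1 q2
      exact ⟨a, b', k1, k2, q3, k3.trans q4⟩)
    (fun A B A' B' st ⟨a, b, q1, q2, q3, q4⟩ m _ => by
      obtain ⟨k1, a', k2, k3⟩ := move_prim st.symm m q2 q1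
      exact ⟨a', b, k2, k1, k3.trans q3, q4⟩)
    A0 B0 (h.st_of (by norm_num) sp sd) ⟨_, _,
      h.prim_floor _ (fun z hz => hz.elim (fun k => (sp.subA k).1) fun k => k.1) fun z hz n e => by
        have : wf H θ z = -(1 / 4) := by
          rw [wf, tri_lin 0 n (by rw [← e]; norm_num [hf]), ← e]; norm_num [hf, sg]
        rcases hz with k | k
        · linarith [w1 z k]
        · linarith [k.2.2],
      h.prim_floor _ (fun z hz => hz.elim (fun k => (sp.subB k).1) fun k => k.1) fun z hz n e => by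
        have : wf H θ z = 1 / 4 := by
          rw [wf, tri_lin 0 (n - 1) (by push_cast; rw [← e]; ring_nf; norm_num [hf])]
          push_cast; rw [← e]; norm_num [hf, sg]; ring
        rcases hz with k | k
        · linarith [w2 z k]
        · linarith [k.2.2], fun _ _ => rfl, fun _ _ => rfl⟩
  obtain ⟨s, s0, s1, hs⟩ := h.small k1 k2
  refine ⟨A, B, s, a, b, h, st, s0, s1, fun z hz k => ?_, q1, q2, q3, q4, k4⟩
  have e := k3 z fun q => (hs z q).not_ge k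
  rw [e.1, e.2]
  exact sd z hz (k.trans s1)

end Col2

namespace Dat

variable {A B : Set V} {s : ℝ} {a b : V → Multiplicative ℝ} (h : Dat H W Φ τ r θ ρ A B s a b)
include h

theorem sW : A ∩ B ∪ Gm W τ (wf H θ) ⊆ W := fun _ hz =>
  hz.elim (fun k => (h.st.spl.subA k.1).1) fun k => k.1

theorem lab (i j : Fin 2) (x : ℝ) (l : V) (hl : l ∈ lat {0, 1}) :
    (a (H (Φ i ![x, hf j, 0] + l))).toAdd -
      (sec H (H (Φ i ![x, hf j, 0] + l)) - (Φ i ![x, hf j, 0] + l)) 1 = l 1 ∧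
    (b (H (Φ i ![x, hf j, 0] + l))).toAdd - (a (H (Φ i ![x, hf j, 0] + l))).toAdd = (j : ℕ) := by
  have m : H (Φ i ![x, hf j, 0] + l) ∈ Gm W τ (wf H θ) := by
    rw [per_add h.per _ hl]; exact h.gm i j x
  obtain ⟨n, hn⟩ := lat1 (sec_lat h.per (Φ i ![x, hf j, 0] + l))
  obtain ⟨k, hk⟩ := lat1 hl
  have e : θ (sec H (H (Φ i ![x, hf j, 0] + l))) = hf j + (k + n : ℤ) := by
    rw [h.θsec, h.θe _ _ hl, h.θΦ i _ (vec_sl le_rfl zero_le_one), hn, hk]
    push_cast; simp [add_assoc]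
  have f1 : ⌊hf j + 1 / 4⌋ = 0 := by fin_cases j <;> norm_num [hf, Int.floor_eq_iff]
  have f2 : ⌊hf j + 3 / 4⌋ = (j : ℕ) := by fin_cases j <;> norm_num [hf, Int.floor_eq_iff]
  rw [h.ea _ m, h.eb _ m, e, hn, hk, add_right_comm (hf j) _ (1 / 4),
    add_right_comm (hf j) _ (3 / 4), Int.floor_add_intCast, Int.floor_add_intCast, f1, f2]
  simp

/-- the component of the curve `j` on the first wall -/
def Cp (_ : Dat H W Φ τ r θ ρ A B s a b) (j : Fin 2) : Set V :=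
  connectedComponentIn (A ∩ B ∪ Gm W τ (wf H θ)) (H (Φ 0 ![0, hf j, 0]))

theorem clop (j : Fin 2) : Clop (A ∩ B ∪ Gm W τ (wf H θ)) (h.Cp j) := (Srf.lcv h.st.srf).lpc.clop _

theorem conn (j : Fin 2) : IsConnected (h.Cp j) :=
  isConnected_connectedComponentIn_iff.2 (Or.inr (h.gm 0 j 0))

theorem base (j : Fin 2) : H (Φ 0 ![0, hf j, 0]) ∈ h.Cp j :=
  mem_connectedComponentIn (Or.inr (h.gm 0 j 0))

theorem del (j : Fin 2) {z : V} (hz : z ∈ h.Cp j) : (b z).toAdd - (a z).toAdd = (j : ℕ) := by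
  have := (h.lab 0 j 0 0 lat_zero).2
  rw [add_zero] at this
  rw [← this]
  exact congrArg Multiplicative.toAdd (((h.pa.mono fun z hz => ((h.clop j).sub hz).imp_left
    fun k => k.1).lco (h.pb.mono fun z hz => ((h.clop j).sub hz).imp_left fun k => k.2)).eq
      (h.conn j).2 hz (h.base j))

theorem vert (i j j' : Fin 2) {p : V} (hp : p ∈ Sl) (h2 : p 2 ≤ s) {n : ℤ} (h1 : p 1 = hf j + n) :
    H (Φ i p) ∈ h.Cp j' ↔ H (Φ i ![0, hf j, 0]) ∈ h.Cp j' := by
  have cv : Convex ℝ (Sl ∩ ({q : V | q 2 ≤ s} ∩ {q | q 1 = hf j + n})) :=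
    convex_Sl.inter ((convex_halfSpace_le (f := fun y : V => y 2)
      ⟨fun _ _ => rfl, fun _ _ => rfl⟩ s).inter
      (convex_hyperplane (f := fun y : V => y 1) ⟨fun _ _ => rfl, fun _ _ => rfl⟩ _))
  have pc := cv.isPreconnected.image _ ((h.fc i).mono inter_subset_left)
  have sb : (fun p => H (Φ i p)) '' (Sl ∩ ({q : V | q 2 ≤ s} ∩ {q | q 1 = hf j + n})) ⊆
      A ∩ B ∪ Gm W τ (wf H θ) := by
    rintro _ ⟨q, hq, rfl⟩
    refine (h.sd.mem h.st.spl.subA (h.mem i q hq.1) (h.τ0 (h.mem i q hq.1))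
      (by rw [h.τΦ i q hq.1]; exact hq.2.1)).2 ?_
    rw [h.wΦ i hq.1, (hq.2.2 : q 1 = _), tri_add_int, tri_hf]
  have m0 : H (Φ i ![0, hf j, 0]) ∈
      (fun p => H (Φ i p)) '' (Sl ∩ ({q : V | q 2 ≤ s} ∩ {q | q 1 = hf j + n})) :=
    ⟨![0, hf j, 0] + ![((0 : ℤ) : ℝ), n, 0], ⟨sl_add (vec_sl le_rfl zero_le_one) (mem_lat 0 n),
      by simpa using h.s0.le, by simp⟩, h.add i (vec_sl le_rfl zero_le_one) (mem_lat 0 n)⟩
  exact ⟨fun k => (h.clop j').subset pc sb ⟨p, ⟨hp, h2, h1⟩, rfl⟩ k m0,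
    fun k => (h.clop j').subset pc sb m0 k ⟨p, ⟨hp, h2, h1⟩, rfl⟩⟩

theorem memC (i j : Fin 2) {p : V} (hp : p ∈ Sl) (h2 : p 2 ≤ s) (hC : H (Φ i p) ∈ h.Cp j) :
    (∃ n : ℤ, p 1 = hf j + n) ∧ H (Φ i ![0, hf j, 0]) ∈ h.Cp j := by
  have k := (h.sd.mem h.st.spl.subA (h.mem i p hp) (h.τ0 (h.mem i p hp))
    (by rw [h.τΦ i p hp]; exact h2)).1 ((h.clop j).sub hC)
  rw [h.wΦ i hp] at k
  obtain ⟨j', n, hn⟩ := tri_sol (p 1)
  rw [k, mul_zero] at hn
  have k1 := (h.vert i j' j hp h2 (n := n) (by linarith)).1 hC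
  have k2 := (h.lab i j' 0 0 lat_zero).2
  rw [add_zero, h.del j k1] at k2
  obtain rfl : j = j' := Fin.ext (by exact_mod_cast k2)
  exact ⟨⟨n, by linarith⟩, k1⟩

theorem ρC (j : Fin 2) {z : V} (hz : z ∈ h.Cp j) {t : ℝ} (ht : t ≤ s) : ρ (z, t) ∈ h.Cp j := by
  have zW := h.sW ((h.clop j).sub hz)
  rcases le_or_gt t (τ z) with k | k
  · rwa [h.ρi z zW t k]
  · obtain ⟨i, p, hp, rfl⟩ := h.sur z zW (by linarith [h.s1])
    rw [h.τΦ i p hp] at k
    obtain ⟨⟨n, hn⟩, k1⟩ := h.memC i j hp (by linarith) hz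
    rw [h.ρΦ i p hp]
    exact (h.vert i j j (vec_sl (le_min zero_le_one (le_max_of_le_left hp.1)) (min_le_left _ _))
      ((min_le_right _ _).trans (max_le (by linarith) ht)) hn).2 k1

theorem ρAB (j : Fin 2) {z : V} (hz : z ∈ h.Cp j) : ρ (z, s) ∈ A ∩ B :=
  ((h.clop j).sub (h.ρC j hz le_rfl)).resolve_right fun k => by
    linarith [(h.ρW (h.sW ((h.clop j).sub hz)) (s := s) (by linarith [h.s1])).2, k.2.1, h.s0]

theorem fcont : Continuous fun x => ρ (H (r x), s) :=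
  h.ρc.comp_continuous ((h.per.cont.comp h.rc).prodMk continuous_const) fun x =>
    ⟨h.rm x, h.s0.le, by linarith [h.s1]⟩

theorem fU (x : V) : ρ (H (r x), s) ∈ Uo W τ :=
  have := h.ρW (h.rm x) (s := s) (by linarith [h.s1])
  ⟨this.1, h.s0.trans_le this.2⟩

/-- **the component reaches the other wall** -/
theorem other (j : Fin 2) : H (Φ 1 ![0, hf j, 0]) ∈ h.Cp j := by
  classical
  by_contra hn
  have s1 : s ≤ 1 := by linarith [h.s1]
  have cl : Clop (A ∩ B) (h.Cp j ∩ (A ∩ B)) := ⟨inter_subset_right, fun x hx => by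
    filter_upwards [((h.clop j).lc.mono subset_union_left) x hx, self_mem_nhdsWithin] with y k1 k2
    exact propext ⟨fun q => ⟨k1 ▸ q.1, hx⟩, fun q => ⟨k1 ▸ q.1, k2⟩⟩⟩
  let sd : V → Z2 := fun x => if x ∈ B then 1 else Multiplicative.ofAdd 1
  have hχ := cross h.st.spl.union h.st.spl.clA h.st.spl.clB cl (sd := sd)
    (fun x hx => if_neg hx.2) fun x hx => if_pos hx
  set χ := fun x y => if x ∈ h.Cp j ∩ (A ∩ B) then (sd x)⁻¹ * sd y else 1
  obtain ⟨β, hβ⟩ := (hχ.comp (T := univ) h.fcont.continuousOn fun x _ => h.fU x).prim_convex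
    convex_univ
  have l1 := mem_lat 0 1
  have p1 : Prim (H ⁻¹' W) (fun x y => χ (ρ (H x, s)) (ρ (H y, s))) β :=
    (hβ.mono (subset_univ _)).congr (geq_of_eq fun x hx y hy => by rw [h.ri x hx, h.ri y hy])
  have p2 := p1.comp (T := H ⁻¹' W) (f := fun x => x + ![((0 : ℤ) : ℝ), (1 : ℤ), 0]) (by fun_prop)
    fun x hx => by show H _ ∈ W; rw [per_add h.per _ l1]; exact hx
  simp only [per_add h.per _ l1] at p2
  have pc : IsPreconnected (H ⁻¹' W) := by
    convert isPreconnected_range h.rc using 1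
    exact Subset.antisymm (fun x hx => ⟨x, h.ri x hx⟩) (by rintro _ ⟨x, rfl⟩; exact h.rm x)
  have m := fun i t => h.mem i ![0, t, 0] (vec_sl le_rfl zero_le_one)
  have e := (p1.lco p2).eq pc (m 0 (hf j - 1 / 2)) (m 1 (hf j - 1 / 2))
  have sh : ∀ i, Φ i ![0, hf j - 1 / 2, 0] + ![((0 : ℤ) : ℝ), (1 : ℤ), 0] =
      Φ i ![0, hf j + 1 / 2, 0] := fun i => by
    rw [← h.shift i _ _ le_rfl zero_le_one]
    congr 1
    funext k; fin_cases k <;> simp
    ring
  simp only [sh] at e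
  have pr : ∀ i, Prim (Icc (hf j - 1 / 2) (hf j + 1 / 2))
      (fun t t' => χ (H (Φ i ![0, t, s])) (H (Φ i ![0, t', s]))) fun t => β (Φ i ![0, t, 0]) := by
    intro i
    have := p1.comp (T := Icc (hf j - 1 / 2) (hf j + 1 / 2))
      (h.cv i le_rfl zero_le_one continuous_const continuous_id).continuousOn fun t _ => m i t
    simpa [h.ρΦ i _ (vec_sl le_rfl zero_le_one), h.s0.le, s1] using this
  have t0 : hf j - 1 / 2 ∈ Icc (hf j - 1 / 2) (hf j + 1 / 2) := ⟨le_rfl, by linarith⟩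
  have t1 : hf j + 1 / 2 ∈ Icc (hf j - 1 / 2) (hf j + 1 / 2) := ⟨by linarith, le_rfl⟩
  have q1 : Prim (Icc (hf j - 1 / 2) (hf j + 1 / 2))
      (fun t t' => χ (H (Φ 1 ![0, t, s])) (H (Φ 1 ![0, t', s]))) fun _ => 1 := by
    intro t _
    filter_upwards with t'
    simp only [χ]
    rw [if_neg fun k => hn (h.memC 1 j (vec_sl h.s0.le s1) le_rfl k.1).2, mul_one]
  let γ : ℝ → Z2 := fun t => if sg j * (t - hf j) ≤ 0 then 1 else Multiplicative.ofAdd 1
  have q0 : Prim (Icc (hf j - 1 / 2) (hf j + 1 / 2))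
      (fun t t' => χ (H (Φ 0 ![0, t, s])) (H (Φ 0 ![0, t', s]))) γ := by
    intro t ht
    refine mem_nhdsWithin_of_mem_nhds ?_
    by_cases k : t = hf j
    · have es : ∀ t', |t' - hf j| < 1 / 4 → sd (H (Φ 0 ![0, t', s])) = γ t' := fun t' k' => by
        have mm : (![0, t', s] : V) ∈ Sl := vec_sl h.s0.le s1
        have := (h.sd _ ⟨h.mem 0 _ mm, show 0 < τ _ by rw [h.τΦ 0 _ mm]; exact h.s0⟩
          (by rw [h.τΦ 0 _ mm]; exact le_rfl)).2
        rw [h.wΦ 0 mm, tri_lin j 0 (by simpa using k'.le)] at this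
        simp only [sd, γ, this]
        simp
      have mC := h.ρC j (h.base j) le_rfl
      have mS := h.ρAB j (h.base j)
      rw [h.ρΦ 0 _ (vec_sl le_rfl zero_le_one)] at mC mS
      simp only [Matrix.cons_val, max_eq_right h.s0.le, min_eq_right s1] at mC mS
      subst k
      filter_upwards [(isOpen_lt (f := fun t' => |t' - hf j|) (by fun_prop)
        continuous_const).mem_nhds (show |hf j - hf j| < 1 / 4 by simp)] with t' k'
      show γ t' = γ (hf j) * χ _ _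
      simp only [χ]
      rw [if_pos ⟨mC, mS⟩, es t' k', es _ (by simp), mul_inv_cancel_left]
    · have nC : H (Φ 0 ![0, t, s]) ∉ h.Cp j ∩ (A ∩ B) := fun q => by
        obtain ⟨n, hn⟩ := (h.memC 0 j (vec_sl h.s0.le s1) le_rfl q.1).1
        have hn' : t = hf j + n := hn
        have : |(n : ℝ)| < 1 := abs_lt.2 ⟨by linarith [ht.1], by linarith [ht.2]⟩
        obtain rfl : n = 0 := Int.abs_lt_one_iff.1 (by exact_mod_cast this)
        exact k (by simpa using hn')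
      simp only [χ, if_neg nC, mul_one]
      have nz : sg j * (t - hf j) ≠ 0 := mul_ne_zero
        (fun q => by simpa [q] using sg_sq j) (sub_ne_zero.2 k)
      have c : Continuous fun t => sg j * (t - hf j) := by fun_prop
      rcases nz.lt_or_gt with q | q
      · filter_upwards [c.continuousAt (Iio_mem_nhds q)] with t' k'
        simp only [γ]
        rw [if_pos q.le, if_pos (le_of_lt k')]
      · filter_upwards [c.continuousAt (Ioi_mem_nhds q)] with t' k'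
        simp only [γ]
        rw [if_neg q.not_ge, if_neg (not_le.2 k')]
  have e1 := (q1.lco (pr 1)).eq isPreconnected_Icc t0 t1
  have e0 := (q0.lco (pr 0)).eq isPreconnected_Icc t0 t1
  simp only [inv_one, mul_one] at e1
  rw [← e1, mul_inv_cancel, mul_inv_eq_one] at e
  rw [e, mul_right_inj, inv_inj] at e0
  revert e0
  fin_cases j <;> norm_num [γ, sg] <;> decide

end Dat

end Crest.Agent.X212.Lev33
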