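import Crest.Agent.X212.Lev33.Ann3

/-!
# Row 212, layer T, ANN (helper33), part 4: the components are annuli
-/

set_option autoImplicit false

open Set Metric Topology Filter Crest.Agent.R096.Ce_537 Crest.Agent.X212.Prd34
  Crest.Agent.X212.Rg3 Crest.Agent.X212.Srf12 unitInterval

namespace Crest.Agent.X212.Lev33

theorem hol_lift {J : Finset (Fin 3)} {H : V → V} (h : Per J H) {x z w : V} (p : Path x x)
    (q : Path z w) (hq : ∀ t, H (q t) = p t) :
    hol (latc H) p.extend = Multiplicative.ofAdd (z - w) := by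
  have := hol_latc h (path_cont q) (by simpa using (hq 0).trans (by simpa using (hq 1).symm))
  simp only [Path.extend_zero, Path.extend_one] at this
  rw [← this]
  exact hol_congr (latc_coc h) (path_cont p) (path_maps fun t => ⟨_, hq t⟩) fun t ht => by
    simp only [Path.extend_apply _ ht, hq]

variable {H : V → V} {W : Set V} {Φ : Fin 2 → V → V} {τ θ : V → ℝ} {r : V → V} {ρ : V × ℝ → V}

theorem Col2.loop (h : Col2 H W Φ τ r θ ρ) (i j : Fin 2) :
    Loop (range fun x => H (Φ i ![x, hf j, 0])) fun x => H (Φ i ![x, hf j, 0]) := by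
  refine ⟨fun R => Lad50.plOn_of_locPL (Lad50.locPL_of_nhds (Ω := univ) fun x _ => ?_)
    isCompact_Icc (subset_univ _), rfl, fun x y => ⟨fun e => ?_, ?_⟩⟩
  · obtain ⟨δ, hδ, k⟩ := h.pl i ![x, hf j, 0] (vec_sl le_rfl zero_le_one)
    have p : PLOn (fun x : ℝ => (![x, hf j, 0] : V)) univ :=
      Lad50.pl_vec3 (plOn_id _) (plOn_const _ _) (plOn_const _ _)
    exact ⟨_, (continuousOn_univ.1 p.1).continuousAt (ball_mem_nhds _ hδ),
      k.comp (p.mono (subset_univ _)) fun y hy => ⟨hy, vec_sl le_rfl zero_le_one⟩⟩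
  · exact lat0 (h.fib i i _ (vec_sl le_rfl zero_le_one) _ (vec_sl le_rfl zero_le_one) e).2
  · rintro ⟨m, hm⟩
    have := h.shift i y (hf j) le_rfl zero_le_one m 0
    rw [Int.cast_zero, add_zero, ← hm, add_sub_cancel] at this
    rw [this, per_add h.per _ (by simpa [hm] using mem_lat m 0)]

namespace Dat

variable {A B : Set V} {s : ℝ} {a b : V → Multiplicative ℝ} (h : Dat H W Φ τ r θ ρ A B s a b)
include h

theorem curve (i j : Fin 2) (x : ℝ) : H (Φ i ![x, hf j, 0]) ∈ h.Cp j := by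
  refine (h.vert i j j (vec_sl le_rfl zero_le_one) h.s0.le (n := 0) (by simp)).2 ?_
  fin_cases i
  exacts [h.base j, h.other j]

theorem bdry (j : Fin 2) : Gm W τ (wf H θ) ∩ h.Cp j =
    (range fun x => H (Φ 0 ![x, hf j, 0])) ∪ range fun x => H (Φ 1 ![x, hf j, 0]) := by
  refine Subset.antisymm (fun z hz => ?_) ?_
  · obtain ⟨i, j', x, rfl⟩ := h.mem_gm hz.1
    have k2 := (h.lab i j' x 0 lat_zero).2
    rw [add_zero, h.del j hz.2] at k2
    obtain rfl : j = j' := Fin.ext (by exact_mod_cast k2)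
    fin_cases i
    exacts [Or.inl ⟨x, rfl⟩, Or.inr ⟨x, rfl⟩]
  · rintro _ (⟨x, rfl⟩ | ⟨x, rfl⟩) <;> exact ⟨h.gm _ j x, h.curve _ j x⟩

theorem CA (j : Fin 2) : h.Cp j ⊆ A ∪ Gm W τ (wf H θ) := fun _ hz =>
  ((h.clop j).sub hz).imp_left fun k => k.1

theorem h1rel (j : Fin 2) : H1Rel (h.Cp j) (range fun x => H (Φ 0 ![x, hf j, 0])) := by
  classical
  have GC : (range fun x => H (Φ 0 ![x, hf j, 0])) ⊆ h.Cp j := by
    rintro _ ⟨x, rfl⟩; exact h.curve 0 j x
  have CW : h.Cp j ⊆ W := (h.clop j).sub.trans h.sW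
  have CH := CW.trans h.sub
  refine h1rel_of GC fun c hc ⟨β, hβ⟩ => ?_
  have ht : ∀ (f : ℝ → ℝ), Continuous f → (∀ t ∈ Icc (0 : ℝ) 1, 0 ≤ f t ∧ f t ≤ s) →
      ∀ T ⊆ h.Cp j, (Tr T fun x y => c (ρ (x, f 0)) (ρ (y, f 0))) →
        Tr T fun x y => c (ρ (x, f 1)) (ρ (y, f 1)) := by
    rintro f hf hm T hT ⟨b0, h0⟩
    exact hc.homotopy (H := fun q => ρ (q.1, f q.2)) (h.ρc.comp (by fun_prop) fun q hq =>
      ⟨CW (hT hq.1), (hm _ hq.2).1, by linarith [(hm _ hq.2).2, h.s1]⟩)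
      (fun q hq => h.ρC j (hT hq.1) (hm _ hq.2).2) h0
  have g0 : ∀ T ⊆ h.Cp j, Geq T c fun x y => c (ρ (x, 0)) (ρ (y, 0)) := fun T hT =>
    geq_of_eq fun x hx y hy => by
      rw [h.ρi x (CW (hT hx)) 0 (h.τ0 (CW (hT hx))), h.ρi y (CW (hT hy)) 0 (h.τ0 (CW (hT hy)))]
  obtain ⟨β', hβ'⟩ := ht (fun t => t * s) (by fun_prop) (fun t k =>
    ⟨mul_nonneg k.1 h.s0.le, by nlinarith [k.2, h.s0]⟩) _ GC
    (by simpa using Tr.congr ⟨β, hβ⟩ (g0 _ GC))
  simp only [one_mul] at hβ'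
  refine Tr.congr ?_ (g0 _ Subset.rfl).symm
  have key := ht (fun t => (1 - t) * s) (by fun_prop) (fun t k =>
    ⟨mul_nonneg (by linarith [k.2]) h.s0.le, by nlinarith [k.1, h.s0]⟩) _ Subset.rfl
  simp only [sub_zero, one_mul, sub_self, zero_mul] at key
  have cρ : ContinuousOn (fun z => ρ (z, s)) (h.Cp j) :=
    h.ρc.comp (by fun_prop) fun z hz => ⟨CW hz, h.s0.le, by linarith [h.s1]⟩
  have hc' := hc.comp cρ fun z hz => h.ρC j hz le_rfl
  have lpc := (h.clop j).lpc (Srf.lcv h.st.srf).lpc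
  refine key (prim_of_hol lpc hc' fun x p hp => ?_)
  have hx : x ∈ h.Cp j := by simpa using hp 0
  obtain ⟨z, hz⟩ := CH hx
  obtain ⟨w, q, hq⟩ := lift_path h.per p (fun t => CH (hp t)) hz
  have hw : H w = x := by simpa using hq 1
  have l1 := lab_eq h.per h.pa (T' := (univ : Set I)) isPreconnected_univ q.continuous.continuousOn
    (fun t _ => by rw [hq]; exact h.CA j (hp t)) (s := 0) (t := 1) trivial trivial
  simp only [Path.source, Path.target, hz, hw, Pi.sub_apply] at l1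
  have hl := (h.per.fib w z).1 (hw.trans hz.symm)
  obtain ⟨m, hm⟩ := lat0 hl
  have e := h.shift 0 0 (hf j) le_rfl zero_le_one m 0
  simp only [zero_add, Int.cast_zero, add_zero] at e
  let q' : Path (Φ 0 ![0, hf j, 0]) (Φ 0 ![0, hf j, 0] + ![(m : ℝ), 0, 0]) :=
    ⟨⟨fun t => Φ 0 ![m * t, hf j, 0], (h.cv 0 le_rfl zero_le_one (f := fun t => m * t)
      (by fun_prop) continuous_const).comp continuous_subtype_val⟩, by simp, by simp [e]⟩
  let κ : Path (H (Φ 0 ![0, hf j, 0])) (H (Φ 0 ![0, hf j, 0])) :=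
    (q'.map h.per.cont).cast rfl (per_add h.per _ (by simpa using mem_lat m 0)).symm
  have hκ : ∀ t, κ t ∈ range fun x => H (Φ 0 ![x, hf j, 0]) := fun t => ⟨_, rfl⟩
  rw [hol_cyc hc' ((latc_coc h.per).mono CH) ?_ p κ hp (fun t => GC (hκ t))
    (lpc.joined (h.conn j).2 hx (h.base j)) ?_, hol_prim hβ' (path_cont κ) (path_maps hκ)]
  · simp
  · intro x L hL e
    obtain ⟨z, hz⟩ := CH (show x ∈ h.Cp j by simpa using hL 0)
    obtain ⟨w, q, hq⟩ := lift_path h.per L (fun t => CH (hL t)) hz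
    rw [hol_lift h.per L q hq] at e
    obtain rfl : z = w := sub_eq_zero.1 e
    have eq : ∀ t, (q.map h.fcont) t = ρ (L t, s) := fun t => by
      show ρ (H (r (q t)), s) = _
      rw [h.ri _ (by rw [hq]; exact CW (hL t)), hq]
    obtain ⟨F, -⟩ := convex_homotopy convex_univ q (Path.refl z) (fun _ => trivial) fun _ => trivial
    obtain ⟨F', hF'⟩ := h.inc _ (q.map h.fcont) (fun t => by rw [eq]; exact h.ρAB j (hL t))
      ⟨F.map ⟨_, h.fcont⟩, fun t => h.fU _⟩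
    have hd := ((h.clop j).ext hc).mono subset_union_left
    have k := hol_homotopy hd F' hF'
    rw [hol_refl hd (by simpa using hF' (1, 0))] at k
    have mC : ∀ t, (q.map h.fcont) t ∈ h.Cp j := fun t => by rw [eq]; exact h.ρC j (hL t) le_rfl
    rw [← hol_geq hc (geq_of_eq fun x hx y _ => (if_pos hx).symm) (path_cont _) (path_maps mC)] at k
    rw [← k, hol_comp]
    exact (hol_congr hc (path_cont _) (path_maps mC) fun t ht => by
      simp only [Path.extend_apply _ ht, eq]).symm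
  · rw [hol_lift h.per p q hq, hol_lift h.per κ q' fun _ => rfl]
    congr 1
    have l2 := lat2 hl
    rw [sub_add_cancel_left]
    funext k
    rw [Pi.sub_apply] at hm l2
    fin_cases k <;> simp <;> linarith

theorem ann (ar : AnnRec) (j : Fin 2) : ∃ α : P → V, ContinuousOn α strip ∧
    (∀ y ∈ strip, ∀ m : ℤ, α ![y 0 + m, y 1] = α y + ![(m : ℝ), 0, 0]) ∧
    (∀ x : ℝ, α ![x, 0] = Φ 0 ![x, hf j, 0] ∧ α ![x, 1] = Φ 1 ![x, hf j, 0]) ∧
    (∀ y : P, 0 < y 1 → y 1 < 1 → H (α y) ∈ Uo W τ) ∧ LPL (fun y => H (α y)) strip ∧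
    (∀ y ∈ strip, H (α y) ∈ h.Cp j) ∧ ∀ y ∈ strip, ∀ y' ∈ strip, H (α y) = H (α y') →
      (∃ m : ℤ, y 0 - y' 0 = m) ∧ y 1 = y' 1 := by
  have z1 := fun x => vec_sl (a := x) (b := hf j) le_rfl zero_le_one
  obtain ⟨g, an, g0, g1⟩ := ar (h.Cp j) _ _ _ _ (h.bdry j ▸ Srf.clop h.st.srf (h.clop j))
    (by
      rw [disjoint_left]
      rintro _ ⟨x, e⟩ ⟨y, e'⟩
      exact absurd (h.fib _ _ _ (z1 x) _ (z1 y) (e.trans e'.symm)).1 (by decide))
    (h.conn j) (h.h1rel j) (h.loop 0 j) (h.loop 1 j)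
  obtain ⟨ε, g1⟩ : ∃ ε : ℤ, ∀ x, g ![1, x] = H (Φ 1 ![ε * x, hf j, 0]) := by
    rcases g1 with k | k
    exacts [⟨1, by simpa using k⟩, ⟨-1, by simpa using k⟩]
  set T : Set P := {y | |y 0| ≤ 1} with hT
  have cT : Convex ℝ T := by
    have : T = (fun y : P => y 0) ⁻¹' Icc (-1) 1 := by ext y; simp [hT, abs_le]
    rw [this]
    exact (convex_Icc _ _).linear_preimage (LinearMap.proj (R := ℝ) (φ := fun _ : Fin 2 => ℝ) 0)
  have cg : ContinuousOn g T := fun y hy => by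
    refine ((an.pl (|y 1| + 1)).1 y ⟨hy, by linarith⟩).mono_of_mem_nhdsWithin ?_
    filter_upwards [self_mem_nhdsWithin, mem_nhdsWithin_of_mem_nhds
      ((isOpen_lt (f := fun z : P => |z 1|) (by fun_prop) continuous_const).mem_nhds
        (show |y 1| < |y 1| + 1 from lt_add_one _))] with z k1 k2 using ⟨k1, le_of_lt k2⟩
  have mg : ∀ y ∈ T, g y ∈ h.Cp j := fun y hy => an.img.subset ⟨y, hy, rfl⟩
  have t0 : ∀ x : ℝ, (![-1, x] : P) ∈ T := fun x => by simp [hT]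
  have t1 : ∀ x : ℝ, (![1, x] : P) ∈ T := fun x => by simp [hT]
  obtain ⟨G, G1, G2, G3⟩ := exists_lift_convex h.per cT cg
    (fun y hy => h.sub (h.sW ((h.clop j).sub (mg y hy)))) (t0 0) (g0 0).symm
  have cv : ∀ c : ℝ, Continuous fun x : ℝ => (![c, x] : P) := fun c =>
    continuous_pi fun k => by fin_cases k <;> simp <;> fun_prop
  have e0 : ∀ x, G ![-1, x] = Φ 0 ![x, hf j, 0] := fun x => by
    have := lift_uniq h.per (T := univ) isPreconnected_univ
      (G1.comp (cv (-1)).continuousOn fun x _ => t0 x)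
      (h.cv 0 le_rfl zero_le_one continuous_id continuous_const).continuousOn
      (fun t _ => (G2 _ (t0 t)).trans (g0 t)) (s := 0) (t := x) trivial trivial
    simp only [Function.comp, id, G3, sub_self] at this
    exact sub_eq_zero.1 this
  have ep : ∀ y ∈ T, ∀ m : ℤ, G ![y 0, y 1 + m] = G y + ![(m : ℝ), 0, 0] := fun y hy m => by
    have := lift_uniq h.per cT.isPreconnected (g := fun y => G ![y 0, y 1 + m])
      (G1.comp (Continuous.continuousOn (continuous_pi fun k => by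
        fin_cases k <;> simp <;> fun_prop)) fun y hy => hy) G1
      (fun t ht => by
        rw [G2 _ ht, G2 _ (show (![t 0, t 1 + m] : P) ∈ T from ht)]
        exact (an.fib ![t 0, t 1 + m] t ht ht).2 ⟨rfl, m, by simp⟩) (t0 0) hy
    have e := h.shift 0 0 (hf j) le_rfl zero_le_one m 0
    simp only [Matrix.cons_val, e0, Int.cast_zero, add_zero] at this e
    rw [e, add_sub_cancel_left] at this
    rw [← this, add_sub_cancel]
  have hl := (h.per.fib _ _).1 ((G2 _ (t1 0)).trans (g1 0))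
  set l := G ![1, 0] - Φ 1 ![ε * (0 : ℝ), hf j, 0] with hl'
  have e1 : ∀ x, G ![1, x] = Φ 1 ![ε * x, hf j, 0] + l := fun x => by
    have := lift_uniq h.per (T := univ) isPreconnected_univ
      (G1.comp (cv 1).continuousOn fun x _ => t1 x)
      (h.cv 1 le_rfl zero_le_one (f := fun x => ε * x) (by fun_prop) continuous_const).continuousOn
      (fun t _ => (G2 _ (t1 t)).trans (g1 t)) (s := 0) (t := x) trivial trivial
    simp only [Function.comp, ← hl'] at this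
    rw [← this, add_sub_cancel]
  obtain rfl : ε = 1 := by
    have k1 := ep _ (t1 0) 1
    have k2 := h.shift 1 0 (hf j) le_rfl zero_le_one ε 0
    simp only [Matrix.cons_val, e1, Int.cast_zero, add_zero, zero_add, Int.cast_one, mul_one,
      mul_zero] at k1 k2
    rw [k2, add_right_comm, add_right_inj] at k1
    have : (ε : ℝ) = 1 := congrFun k1 0
    exact_mod_cast this
  simp only [Int.cast_one, one_mul] at e1
  have l1 : l 1 = 0 := by
    have := lab_eq h.per h.pa cT.isPreconnected G1 (fun t ht => by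
      rw [G2 t ht]; exact h.CA j (mg t ht)) (t1 0) (t0 0)
    have k := (h.lab 0 j 0 0 lat_zero).1
    rw [add_zero] at k
    rwa [e0, e1, (h.lab 1 j 0 l hl).1, k] at this
  obtain ⟨m, hm⟩ := lat0 hl
  have el : l = ![(m : ℝ), 0, 0] := by
    funext k; fin_cases k
    exacts [hm, l1, lat2 hl]
  let ψ : P → P := fun y => ![2 * y 1 - 1, y 0 - m * y 1]
  have pψ : PLOn ψ univ := Lad50.pl_vec2 (Lad50.pl_sub (Lad50.pl_mul _ (Lad50.pl_coord 1 _))
    (plOn_const _ _)) (Lad50.pl_sub (Lad50.pl_coord 0 _) (Lad50.pl_mul _ (Lad50.pl_coord 1 _)))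
  have cψ := continuousOn_univ.1 pψ.1
  have mψ : ∀ y ∈ strip, ψ y ∈ T := fun y hy =>
    show |2 * y 1 - 1| ≤ 1 from abs_le.2 ⟨by linarith [hy.1], by linarith [hy.2]⟩
  refine ⟨fun y => G (ψ y), G1.comp cψ.continuousOn mψ, fun y hy n => ?_, fun x => ⟨?_, ?_⟩,
    fun y y0 y1 => ?_, fun y hy => ?_, fun y hy => ?_, fun y hy y' hy' e => ?_⟩
  · rw [← ep _ (mψ y hy) n]
    refine congrArg G ?_
    funext k; fin_cases k <;> simp [ψ]
    ring
  · simp [ψ, e0]
  · have := h.shift 1 (x - m) (hf j) le_rfl zero_le_one m 0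
    simp only [sub_add_cancel, Int.cast_zero, add_zero] at this
    rw [this, ← el, ← e1]
    norm_num [ψ]
  · have k := mψ y ⟨y0.le, y1.le⟩
    rw [G2 _ k]
    refine h.st.spl.subA (((h.clop j).sub (mg _ k)).resolve_right fun q => ?_).1
    rcases (h.bdry j).subset ⟨q, mg _ k⟩ with ⟨x, e⟩ | ⟨x, e⟩
    · have : (-1 : ℝ) = 2 * y 1 - 1 := ((an.fib _ _ (t0 x) k).1 ((g0 x).trans e)).1
      linarith
    · have : (1 : ℝ) = 2 * y 1 - 1 := ((an.fib _ _ (t1 x) k).1 ((g1 x).trans (by simpa using e))).1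
      linarith
  · obtain ⟨δ, hδ, k⟩ := Metric.mem_nhds_iff.1 (cψ.continuousAt (x := y)
      ((isOpen_lt (f := fun z : P => |z 1|) (by fun_prop) continuous_const).mem_nhds
        (show |ψ y 1| < |ψ y 1| + 1 from lt_add_one _)))
    exact ⟨δ, hδ, ((an.pl (|ψ y 1| + 1)).comp (pψ.mono (subset_univ _)) fun z hz =>
      ⟨mψ z hz.2, le_of_lt (k hz.1)⟩).congr fun z hz => G2 _ (mψ z hz.2)⟩
  · beta_reduce
    rw [G2 _ (mψ y hy)]; exact mg _ (mψ y hy)
  · beta_reduce at e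
    rw [G2 _ (mψ y hy), G2 _ (mψ y' hy')] at e
    obtain ⟨k1, n, k2⟩ := (an.fib _ _ (mψ y hy) (mψ y' hy')).1 e
    have k1' : 2 * y 1 - 1 = 2 * y' 1 - 1 := k1
    have k2' : y 0 - m * y 1 - (y' 0 - m * y' 1) = n := k2
    have k3 : y 1 = y' 1 := by linarith
    exact ⟨⟨n, by rw [k3] at k2'; linarith⟩, k3⟩

end Dat

/-- **two annuli in a collared block** -/
theorem Col.ann (h : Col H W Φ τ r) (inc : IncStmt) (ar : AnnRec) :
    ∃ α : Fin 2 → P → V, ∀ j, ContinuousOn (α j) strip ∧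
      (∀ y ∈ strip, ∀ m : ℤ, α j ![y 0 + m, y 1] = α j y + ![(m : ℝ), 0, 0]) ∧
      (∀ x : ℝ, α j ![x, 0] = Φ 0 ![x, hf j, 0] ∧ α j ![x, 1] = Φ 1 ![x, hf j, 0]) ∧
      (∀ y : P, 0 < y 1 → y 1 < 1 → H (α j y) ∈ Uo W τ) ∧ LPL (fun y => H (α j y)) strip ∧
      ∀ j', ∀ y ∈ strip, ∀ y' ∈ strip, H (α j y) = H (α j' y') →
        j = j' ∧ (∃ m : ℤ, y 0 - y' 0 = m) ∧ y 1 = y' 1 := by
  obtain ⟨θ, t1, t2, t3⟩ := h.exists_theta
  obtain ⟨ρ, r1, r2, r3⟩ := h.exists_push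
  obtain ⟨A, B, s, a, b, d⟩ := Col2.exists_dat ⟨h, t1, t2, t3, r1, r2, r3⟩ inc
  choose α k1 k2 k3 k4 k5 k6 k7 using d.ann ar
  refine ⟨α, fun j => ⟨k1 j, k2 j, k3 j, k4 j, k5 j, fun j' y hy y' hy' e => ?_⟩⟩
  have := d.del j (k6 j y hy)
  rw [e, d.del j' (k6 j' y' hy')] at this
  obtain rfl : j' = j := Fin.ext (by exact_mod_cast this)
  exact ⟨rfl, k7 _ y hy y' hy' e⟩

end Crest.Agent.X212.Lev33
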