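import Crest.Agent.X212.Lev33.Ann4
import Crest.Agent.X212.Thk1.Col
import Crest.Agent.X212.Prd34.Rng

/-!
# Row 212, layer T, ANN (helper33), part 5: collars of compact boundaries; `AnnStmt`
-/

set_option autoImplicit false

open Set Metric Topology Filter Crest.Agent.R096.Ce_537 Crest.Agent.X212.Prd34
  Crest.Agent.X212.Rg3 Crest.Agent.X212.Thk1

namespace Crest.Agent.X212.Lev33

/-- **collar of a compact boundary** -/
theorem Mf.collar {M D : Set V} (h : Mf M D) (hD : IsCompact D) :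
    ∃ P : Pc 0 M ∅ D, P.Q = D ∧ ∀ x ∈ D, P.O ∈ 𝓝[M] x := by
  refine collar0 hD h.1 fun x hx => ?_
  obtain ⟨B, e, e0, hB, h1, h2⟩ := h.2.2 x hx
  have sb : ∀ T, e.f '' (cube 3 ∩ T) ⊆ B := by rintro T _ ⟨y, hy, rfl⟩; exact e.mf hy.1
  have m1 : ∀ z ∈ B, ∀ t ∈ Icc (0 : ℝ) 1, lv t (pr (e.g z)) ∈ cube 3 := fun z hz t ht =>
    lv_mem (abs_le.2 ⟨by linarith [ht.1], ht.2⟩) (pr_mem (e.mg hz))
  have z0 : (0 : ℝ) ∈ Icc (0 : ℝ) 1 := ⟨le_rfl, zero_le_one⟩
  have q0 : ∀ q ∈ e.f '' (cube 3 ∩ fl), e.f (lv 0 (pr (e.g q))) = q := by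
    rintro _ ⟨y, hy, rfl⟩
    rw [e.li y hy.1, ← (hy.2 : y 2 = 0), lv_pr]
  refine ⟨⟨e.f '' (cube 3 ∩ fl), e.f '' (cube 3 ∩ up),
    ⟨fun q => e.f (lv q.2 (pr (e.g q.1))), fun z => (e.f (lv 0 (pr (e.g z))), e.g z 2), ?_, ?_,
      fun q hq => ⟨_, ⟨m1 _ (sb _ hq.1) _ hq.2, hq.2.1⟩, rfl⟩, ?_, fun q hq => ?_, ?_⟩,
    ?_, fun z hz => (h2.superset hz).2, fun z hz => (h1.superset hz).2, q0, fun q hq t ht k => ?_,
    fun _ _ _ _ => Iff.rfl⟩, ?_⟩
  · have := e.pg.comp (pl_fst' ((e.f '' (cube 3 ∩ fl)) ×ˢ Icc (0 : ℝ) 1)) fun q hq => sb _ hq.1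
    exact e.pf.comp (Lad50.pl_vec3 (pl_coord this 0) (pl_coord this 1) (pl_snd' _))
      fun q hq => m1 _ (sb _ hq.1) _ hq.2
  · have := e.pg.mono (sb up)
    exact pl_pair (e.pf.comp (Lad50.pl_vec3 (pl_coord this 0) (pl_coord this 1) (plOn_const 0 _))
      fun z hz => m1 _ (sb _ hz) _ z0) (pl_coord this 2)
  · rintro _ ⟨y, hy, rfl⟩
    refine ⟨⟨_, ⟨m1 _ (e.mf hy.1) _ z0, rfl⟩, rfl⟩, ?_⟩
    simp only [e.li y hy.1]
    exact ⟨hy.2, (abs_le.1 (mem_cube.1 hy.1 2)).2⟩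
  · simp only [e.li _ (m1 _ (sb _ hq.1) _ hq.2), pr_lv, q0 _ hq.1]
    rfl
  · rintro _ ⟨y, hy, rfl⟩
    simp only [e.li _ (m1 _ (e.mf hy.1) _ z0), pr_lv]
    rw [e.li y hy.1, lv_pr]
  · exact ((isCompact_closedBall (0 : V) 1).inter_right
      (isClosed_eq (continuous_apply 2) continuous_const)).image_of_continuousOn
      (e.pf.1.mono inter_subset_left)
  · have m := m1 _ (sb _ hq) t ht
    exact (mem_img e m).1 (h2.subset ⟨e.mf m, k⟩)
  · show e.f '' (cube 3 ∩ up) ∈ _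
    rw [← h1, inter_comm]
    exact inter_mem_nhdsWithin M hB

theorem col_of {H : V → V} (per : Per {0, 1} H) {W D : Set V} (mf : Mf W D) (cW : IsCompact W)
    (sub : W ⊆ range H) {v : Fin 2 → P → V} (vc : ∀ i, Continuous (v i))
    (ve : ∀ i y m, lv 0 m ∈ lat {0, 1} → v i (y + m) = v i y + lv 0 m)
    (vp : ∀ i, LocPL (fun y => H (v i y)) univ)
    (vf : ∀ i i' y y', H (v i y) = H (v i' y') → i = i' ∧ lv 0 (y - y') ∈ lat {0, 1})
    (hD : ∀ z, z ∈ D ↔ ∃ i y, H (v i y) = z) {r : V → V} (rc : Continuous r)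
    (rm : ∀ x, H (r x) ∈ W) (ri : ∀ x, H x ∈ W → r x = x) :
    ∃ Φ τ, Col H W Φ τ r ∧ (∀ i y, Φ i (lv 0 y) = v i y) ∧ Uo W τ = W \ D := by
  classical
  have cD : IsCompact D := by
    convert cW.diff mf.2.1 using 1
    exact (sdiff_sdiff_cancel_left mf.1).symm
  obtain ⟨P, PQ, PO⟩ := Mf.collar mf cD
  have DO : D ⊆ interior (P.O ∪ Wᶜ) := fun x hx => mem_interior_iff_mem_nhds.2 (by
    filter_upwards [eventually_nhdsWithin_iff.1 (PO x hx)] with y hy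
    exact (em (y ∈ W)).imp hy id)
  have pos : ∀ y ∈ P.O, y ∉ D → 0 < (P.c.g y).2 := fun y hy hn =>
    lt_of_le_of_ne (P.g2 hy).1 fun k => hn (P.memD hy k.symm)
  have c2 : ContinuousOn (fun y => (P.c.g y).2) P.O := continuous_snd.comp_continuousOn P.c.pg.1
  obtain ⟨a, ha, hK⟩ := (P.cO.diff (isOpen_interior (s := P.O ∪ Wᶜ))).exists_forall_le'
    (c2.mono sdiff_subset) fun y hy => pos y hy.1 fun k => hy.2 (DO k)
  set δ := min a 1
  have d0 : 0 < δ := lt_min ha one_pos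
  let τ : V → ℝ := fun z => if z ∈ P.O then min 1 (δ⁻¹ * (P.c.g z).2) else 1
  let F : Fin 2 → V → V := fun i p => P.c.f (H (v i (pr p)), δ * p 2)
  have mF : ∀ i, ∀ p ∈ Sl, (H (v i (pr p)), δ * p 2) ∈ P.Q ×ˢ Icc (0 : ℝ) 1 := fun i p hp =>
    ⟨PQ.superset ((hD _).2 ⟨i, _, rfl⟩), mul_nonneg d0.le hp.1,
      mul_le_one₀ (min_le_right _ _) hp.1 hp.2⟩
  have pF : ∀ i, LPL (F i) Sl := fun i p _ => by
    obtain ⟨ε, hε, k⟩ := vp i (pr p) trivial
    obtain ⟨ε', hε', k'⟩ := Metric.mem_nhds_iff.1 (continuous_pr.continuousAt (ball_mem_nhds _ hε))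
    exact ⟨ε', hε', P.c.pf.comp (pl_pair (k.comp (pl_pr _) fun q hq => k' hq.1)
      (pl_mul δ (Lad50.pl_coord 2 _))) fun q hq => mF i q hq.2⟩
  have cF : ∀ i, ContinuousOn (F i) Sl := fun i => P.c.pf.1.comp (Continuous.continuousOn
    ((per.cont.comp ((vc i).comp continuous_pr)).prodMk (by fun_prop))) (mF i)
  have FO : ∀ i, ∀ p ∈ Sl, F i p ∈ P.O := fun i p hp => P.c.mf (mF i p hp)
  have s0 : ∀ y, lv 0 y ∈ Sl := fun y => ⟨le_rfl, zero_le_one⟩
  have F0 : ∀ i y, F i (lv 0 y) = H (v i y) := fun i y => by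
    show P.c.f (H (v i (pr (lv 0 y))), δ * 0) = _
    rw [pr_lv, mul_zero]
    exact P.zero _ (PQ.superset ((hD _).2 ⟨i, _, rfl⟩))
  choose Φ Φc ΦF Φ0 using fun i => exists_lift_convex per convex_Sl (cF i)
    (fun p hp => sub (P.OA (FO i p hp))) (s0 0) (F0 i 0).symm
  have cl : Continuous (lv 0) := continuous_lv.comp (continuous_const.prodMk continuous_id)
  have e0 : ∀ i y, Φ i (lv 0 y) = v i y := fun i y => by
    have := lift_uniq per (T := univ) isPreconnected_univ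
      ((Φc i).comp cl.continuousOn fun x _ => s0 x) (vc i).continuousOn
      (fun t _ => (ΦF i _ (s0 t)).trans (F0 i t)) (s := 0) (t := y) trivial trivial
    simp only [Function.comp, Φ0, sub_self] at this
    exact sub_eq_zero.1 this
  have el : ∀ l ∈ lat {0, 1}, lv 0 (pr l) = l := fun l hl => by rw [← lat2 hl, lv_pr]
  have eU : Uo W τ = W \ D := by
    ext z
    refine and_congr_right fun _ => ⟨fun k hz => ?_, fun k => ?_⟩
    · have zO := P.QO le_rfl (PQ.superset hz)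
      simp [τ, zO, P.g2_zero zO hz] at k
    · show 0 < τ z
      simp only [τ]
      split_ifs with q
      exacts [lt_min one_pos (mul_pos (inv_pos.2 d0) (pos z q k)), one_pos]
  refine ⟨Φ, τ, ⟨per, cW, sub, show IsOpen (Uo W τ) from eU ▸ mf.2.1, Φc, fun i p hp l hl => ?_,
    fun i p hp => ?_, fun i i' p hp p' hp' e => ?_, fun i p hp => ?_, ?_, fun i p hp => ?_,
    fun z hz k => ?_, rc, rm, ri⟩, e0, eU⟩
  · have := lift_uniq per convex_Sl.isPreconnected (g := fun p => Φ i (p + l))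
      ((Φc i).comp (by fun_prop) fun p hp => sl_add hp hl) (Φc i) (fun q hq => by
        rw [ΦF i _ (sl_add hq hl), ΦF i _ hq]
        simp only [F]
        rw [show pr (q + l) = pr q + pr l by funext k; fin_cases k <;> rfl,
          ve i _ _ (by rwa [el l hl]), per_add per _ (by rwa [el l hl]), Pi.add_apply, lat2 hl,
          add_zero]) (s0 0) hp
    rw [show lv 0 0 + l = lv 0 (0 + pr l) by
      rw [zero_add, el l hl]; funext k; fin_cases k <;> simp [lv], e0, e0,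
      ve i _ _ (by rwa [el l hl]), el l hl, add_sub_cancel_left] at this
    exact sub_eq_iff_eq_add'.1 this
  · obtain ⟨ε, hε, k⟩ := pF i p hp
    exact ⟨ε, hε, k.congr fun q hq => ΦF i q hq.2⟩
  · rw [ΦF i p hp, ΦF i' p' hp'] at e
    have k := P.c.injOn (mF i p hp) (mF i' p' hp') e
    obtain ⟨k1, k2⟩ := vf _ _ _ _ (congrArg Prod.fst k)
    have k3 : p 2 = p' 2 := mul_left_cancel₀ d0.ne' (congrArg Prod.snd k)
    refine ⟨k1, ?_⟩
    convert k2 using 1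
    funext a; fin_cases a <;> simp [lv, pr, k3]
  · rw [ΦF i p hp]; exact P.OA (FO i p hp)
  · refine ((ContinuousOn.congr (f := fun z => min 1 (δ⁻¹ * (P.c.g z).2))
      (continuousOn_const.inf (continuousOn_const.mul c2)) fun z hz => if_pos hz).union_of_isClosed
      (ContinuousOn.congr (f := fun _ => 1) continuousOn_const fun z hz => ?_) P.cO.isClosed
      (cW.diff (isOpen_interior (s := P.O ∪ Wᶜ))).isClosed).mono fun z hz => ?_
    · show (if z ∈ P.O then _ else _) = _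
      split_ifs with q
      · refine min_eq_left ?_
        rw [le_inv_mul_iff₀ d0, mul_one]
        exact (min_le_left _ _).trans (hK z ⟨q, hz.2⟩)
      · rfl
    · by_cases q : z ∈ interior (P.O ∪ Wᶜ)
      · exact Or.inl ((interior_subset q).resolve_right fun k => k hz)
      · exact Or.inr ⟨hz, q⟩
  · rw [ΦF i p hp]
    simp only [τ, if_pos (FO i p hp)]
    rw [P.c.li _ (mF i p hp), inv_mul_cancel_left₀ d0.ne', min_eq_right hp.2]
  · have q : z ∈ P.O := by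
      by_contra q
      simp [τ, q] at k
    simp only [τ, if_pos q, min_lt_iff, lt_self_iff_false, false_or] at k
    obtain ⟨i, y, e⟩ := (hD _).1 (P.QD (P.g1 q))
    have m : lv (δ⁻¹ * (P.c.g z).2) y ∈ Sl := ⟨mul_nonneg (inv_pos.2 d0).le (P.g2 q).1, k.le⟩
    refine ⟨i, _, m, ?_⟩
    rw [ΦF i _ m]
    show P.c.f (H (v i (pr (lv _ y))), δ * (δ⁻¹ * (P.c.g z).2)) = z
    rw [pr_lv, e, mul_inv_cancel_left₀ d0.ne', P.fg q]

/-- **(ANN)** -/
theorem ann (hF : FlatStmt) (inc : IncStmt) (ar : AnnRec) : AnnStmt := by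
  intro H hH c u u' hu hu'
  have hc : c + 1 / 3 ≤ c + 1 - 1 / 3 := by linarith
  have h2 : (2 : Fin 3) ∉ ({0, 1} : Finset (Fin 3)) := by decide
  obtain ⟨mf, e⟩ := mf_blk0 hF hH hu hu' hc
  obtain ⟨r, rc, rm, ri⟩ := (hu.pln3 hF (by simp) hH).toPln2.exists_retr
    (hu'.pln3 hF (by simp) hH).toPln2 (by rintro _ ⟨y, rfl⟩; exact Or.inl (hu.sub_Up hu' hc y))
  have sl : ∀ x, x ∈ slab ∅ := fun x i hi => absurd hi (Finset.notMem_empty i)
  have fb : ∀ {c δ : ℝ} {u : P → V}, Rung ∅ {0, 1} H c δ u → ∀ y y', H (u y) = H (u y') →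
      lv 0 (y - y') ∈ lat {0, 1} := by
    intro c δ u hu y y' e
    have hl := (hH.fib _ _).1 e
    have el : lv 0 (pr (u y - u y')) = u y - u y' := by rw [← lat2 hl, lv_pr]
    have := hu.eqv y' (pr (u y - u y')) (by rwa [el])
    rw [el, add_sub_cancel] at this
    rwa [← hu.inj this, add_sub_cancel_left, el]
  have ne : ∀ y y', H (u y) ≠ H (u' y') := fun y y' e => by
    linarith [coord_eq hH e h2, abs_lt.1 (hu.ht y), abs_lt.1 (hu'.ht y')]
  obtain ⟨Φ, τ, col, e0, eU⟩ := col_of hH mf (isCompact_blk hF (by simp) (by simp) hH hu hu')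
    (image_subset_range _ _) (v := ![u, u'])
    (fun i => by fin_cases i; exacts [hu.cont, hu'.cont])
    (fun i => by fin_cases i; exacts [hu.eqv, hu'.eqv])
    (fun i => by fin_cases i; exacts [hu.pl, hu'.pl])
    (fun i i' y y' e => by
      fin_cases i <;> fin_cases i'
      exacts [⟨rfl, fb hu y y' e⟩, (ne _ _ e).elim, (ne _ _ e.symm).elim, ⟨rfl, fb hu' y y' e⟩])
    (fun z => ⟨by
      rintro ⟨_, ⟨y, rfl⟩ | ⟨y, rfl⟩, rfl⟩
      exacts [⟨0, y, rfl⟩, ⟨1, y, rfl⟩], by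
      rintro ⟨i, y, rfl⟩
      fin_cases i
      exacts [⟨_, Or.inl ⟨y, rfl⟩, rfl⟩, ⟨_, Or.inr ⟨y, rfl⟩, rfl⟩]⟩) rc
    (fun x => ⟨r x, ⟨⟨sl _, (rm x).1⟩, (rm x).2⟩, rfl⟩) fun x hx => by
      have := hH.sat (hu.add_Blk (by simp) h2 hu') x hx
      exact ri x ⟨this.1.2, this.2⟩
  obtain ⟨α, hα⟩ := col.ann inc ar
  refine ⟨α, fun j => ?_⟩
  obtain ⟨k1, k2, k3, k4, k5, k6⟩ := hα j
  refine ⟨k1, k2, fun s => ⟨(k3 s).1.trans (e0 0 ![s, hf j]), (k3 s).2.trans (e0 1 ![s, hf j])⟩,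
    fun y y0 y1 => ?_, k5, k6⟩
  have := k4 y y0 y1
  rw [eU, e] at this
  exact hH.sat (Z := Up u ∩ Dn u') (fun l hl x hx => ⟨hu.add_Up h2 hl hx.1, hu'.add_Dn h2 hl hx.2⟩) _ this

end Crest.Agent.X212.Lev33
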