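import Crest.Agent.X212.Lev33.Hol

/-!
# Row 212, layer T, LEV (helper33): `H¹(S; ℤ/2)` by germ cocycles; the count under surgery
-/

set_option autoImplicit false
set_option linter.unusedSectionVars false

open Set Topology Filter

namespace Crest.Agent.X212.Lev33

variable {X : Type*} [TopologicalSpace X] {G : Type*} [CommGroup G]

/-- has a primitive -/
def Tr {G : Type*} [Group G] (S : Set X) (c : X → X → G) : Prop := ∃ b, Prim S c b

theorem Tr.mono {G : Type*} [Group G] {S T : Set X} {c : X → X → G} (h : Tr S c) (hT : T ⊆ S) :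
    Tr T c := let ⟨b, hb⟩ := h; ⟨b, hb.mono hT⟩

theorem Tr.congr {G : Type*} [Group G] {S : Set X} {c c' : X → X → G} (h : Tr S c)
    (e : Geq S c c') : Tr S c' := let ⟨b, hb⟩ := h; ⟨b, hb.congr e⟩

theorem Coc.mul {S : Set X} {c c' : X → X → G} (h : Coc S c) (h' : Coc S c') :
    Coc S (fun x y => c x y * c' x y) := by
  intro x hx
  filter_upwards [h x hx, h' x hx] with y h1 h2
  filter_upwards [h1, h2] with z k1 k2
  rw [k1, k2]; exact mul_mul_mul_comm _ _ _ _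

theorem Coc.inv {S : Set X} {c : X → X → G} (h : Coc S c) : Coc S (fun x y => (c x y)⁻¹) :=
  h.map (MulEquiv.inv G).toMonoidHom

theorem Coc.div {S : Set X} {c c' : X → X → G} (h : Coc S c) (h' : Coc S c') :
    Coc S (fun x y => c x y * (c' x y)⁻¹) := h.mul h'.inv

theorem Prim.mul {S : Set X} {c c' : X → X → G} {b b' : X → G} (h : Prim S c b)
    (h' : Prim S c' b') : Prim S (fun x y => c x y * c' x y) (fun x => b x * b' x) := by
  intro x hx
  filter_upwards [h x hx, h' x hx] with y h1 h2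
  rw [h1, h2]; exact mul_mul_mul_comm _ _ _ _

theorem Prim.inv {S : Set X} {c : X → X → G} {b : X → G} (h : Prim S c b) :
    Prim S (fun x y => (c x y)⁻¹) (fun x => (b x)⁻¹) := h.map (MulEquiv.inv G).toMonoidHom

theorem Tr.mul {S : Set X} {c c' : X → X → G} (h : Tr S c) (h' : Tr S c') :
    Tr S (fun x y => c x y * c' x y) :=
  let ⟨_, hb⟩ := h; let ⟨_, hb'⟩ := h'; ⟨_, hb.mul hb'⟩

theorem Tr.inv {S : Set X} {c : X → X → G} (h : Tr S c) : Tr S (fun x y => (c x y)⁻¹) :=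
  let ⟨_, hb⟩ := h; ⟨_, hb.inv⟩

theorem prim_cob {G : Type*} [Group G] (S : Set X) (b : X → G) :
    Prim S (fun x y => (b x)⁻¹ * b y) b :=
  fun _ _ => Eventually.of_forall fun _ => by group

theorem tr_one {G : Type*} [Group G] (S : Set X) : Tr S (fun _ _ => (1 : G)) :=
  ⟨fun _ => 1, fun _ _ => Eventually.of_forall fun _ => by simp⟩

theorem geq_of_eq {G : Type*} [Group G] {S : Set X} {c c' : X → X → G}
    (h : ∀ x ∈ S, ∀ y ∈ S, c x y = c' x y) : Geq S c c' := fun x hx => by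
  filter_upwards [self_mem_nhdsWithin] with y hy using h x hx y hy

/-- Mayer-Vietoris, connected overlap -/
theorem Tr.union {G : Type*} [Group G] {A B : Set X} (hA : RelCl A B) (hB : RelCl B A)
    {c : X → X → G} (h1 : Tr A c) (h2 : Tr B c) (hc : IsPreconnected (A ∩ B)) : Tr (A ∪ B) c := by
  classical
  obtain ⟨a, ha⟩ := h1
  obtain ⟨b, hb⟩ := h2
  have ex : ∃ g : G, ∀ y ∈ A ∩ B, a y = g * b y := by
    rcases (A ∩ B).eq_empty_or_nonempty with h | ⟨x, hx⟩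
    · exact ⟨1, fun y hy => by rw [h] at hy; exact hy.elim⟩
    · exact ⟨_, fun y hy => (hb.mono inter_subset_right).uniq (ha.mono inter_subset_left) hc hx hy⟩
  obtain ⟨g, hg⟩ := ex
  refine ⟨fun y => if y ∈ A then a y else g * b y, Prim.union hA hB
    (ha.congr' fun x hx => if_pos hx) ((hb.mul_left g).congr' fun x hx => ?_)⟩
  split_ifs with h
  · exact hg x ⟨h, hx⟩
  · rfl

/-- cohomology classes -/
def hs (G : Type*) [CommGroup G] (S : Set X) : Setoid {c : X → X → G // Coc S c} where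
  r := fun c c' => Tr S (fun x y => c.1 x y * (c'.1 x y)⁻¹)
  iseqv := ⟨fun c => (tr_one S).congr (geq_of_eq fun _ _ _ _ => by simp),
    fun h => h.inv.congr (geq_of_eq fun _ _ _ _ => by simp [mul_comm]),
    fun h h' => (h.mul h').congr (geq_of_eq fun _ _ _ _ => by simp)⟩

/-- first cohomology -/
def HH (G : Type*) [CommGroup G] (S : Set X) : Type _ := Quotient (hs G S)

/-- the class -/
def cl {S : Set X} {c : X → X → G} (h : Coc S c) : HH G S := Quotient.mk (hs G S) ⟨c, h⟩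

theorem cl_eq {S : Set X} {c c' : X → X → G} (h : Coc S c) (h' : Coc S c') :
    cl h = cl h' ↔ Tr S (fun x y => c x y * (c' x y)⁻¹) := Quotient.eq

theorem cl_surj {S : Set X} (a : HH G S) : ∃ c, ∃ h : Coc S c, a = cl h := by
  obtain ⟨⟨c, h⟩, rfl⟩ := Quotient.exists_rep a
  exact ⟨c, h, rfl⟩

/-- restriction -/
def res {S T : Set X} (hT : T ⊆ S) : HH G S → HH G T :=
  Quotient.map (fun c => ⟨c.1, c.2.mono hT⟩) fun _ _ h => Tr.mono h hT

theorem res_cl {S T : Set X} (hT : T ⊆ S) {c : X → X → G} (h : Coc S c) :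
    res hT (cl h) = cl (h.mono hT) := rfl

/-- finiteness -/
theorem finite_HH {X : Type*} [PseudoMetricSpace X] [Finite G] {S : Set X} (hS : IsCompact S)
    (hl : ∀ x ∈ S, ∀ W ∈ 𝓝 x, ∃ N ∈ 𝓝[S] x, N ⊆ W ∩ S ∧ IsPreconnected N)
    (ht : ∀ x ∈ S, ∃ N ∈ 𝓝[S] x, N ⊆ S ∧ ∀ c : X → X → G, Coc N c → Tr N c) :
    Finite (HH G S) := by
  classical
  choose! N hN hNS hNt using ht
  have hO : ∀ x ∈ S, ∃ O : Set X, IsOpen O ∧ x ∈ O ∧ O ∩ S ⊆ N x := fun x hx =>
    mem_nhdsWithin.1 (hN x hx)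
  choose! O hO1 hO2 hO3 using hO
  obtain ⟨δ, hδ, hleb⟩ := lebesgue_number_lemma_of_metric (c := fun x : S => O x) hS
    (fun x => hO1 x x.2) (fun x hx => mem_iUnion.2 ⟨⟨x, hx⟩, hO2 x hx⟩)
  have hM : ∀ x ∈ S, ∃ M ∈ 𝓝[S] x, M ⊆ Metric.ball x (δ / 3) ∩ S ∧ IsPreconnected M :=
    fun x hx => hl x hx _ (Metric.ball_mem_nhds x (by positivity))
  choose! M hM hMs hMc using hM
  obtain ⟨t, htS, htc⟩ := hS.elim_nhdsWithin_subcover (fun x => {y | M x ∈ 𝓝[S] y})
    (fun x hx => eventually_eventually_nhdsWithin.2 (hM x hx))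
  -- primitives on big sets
  have big : ∀ x ∈ S, ∀ c : X → X → G, Coc S c → Tr (Metric.ball x δ ∩ S) c := by
    intro x hx c hc
    obtain ⟨z, hz⟩ := hleb x hx
    exact (hNt z z.2 c (hc.mono (hNS z z.2))).mono fun y hy => hO3 z z.2 ⟨hz hy.1, hy.2⟩
  have sub : ∀ x ∈ S, M x ⊆ Metric.ball x δ ∩ S := fun x hx y hy =>
    ⟨Metric.ball_subset_ball (by linarith) (hMs x hx hy).1, (hMs x hx hy).2⟩
  have ex : ∀ a : HH G S, ∃ c, ∃ h : Coc S c, a = cl h ∧ ∃ (b : S → X → G) (e : S → S → G),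
      (∀ i : S, Prim (M i) c (b i)) ∧ ∀ i j : S, ∀ y ∈ M i ∩ M j, b i y = e i j * b j y := by
    intro a
    obtain ⟨c, h, rfl⟩ := cl_surj a
    have p : ∀ i : S, ∃ b, Prim (M i) c b := fun i => (big i i.2 c h).mono (sub i i.2)
    choose b hb using p
    have q : ∀ i j : S, ∃ e : G, ∀ y ∈ M i ∩ M j, b i y = e * b j y := by
      intro i j
      rcases (M i ∩ M j).eq_empty_or_nonempty with k | ⟨y0, hy0⟩
      · exact ⟨1, fun y hy => by rw [k] at hy; exact hy.elim⟩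
      obtain ⟨β, hβ⟩ := big i i.2 c h
      have sj : M j ⊆ Metric.ball (i : X) δ ∩ S := by
        intro y hy
        refine ⟨?_, (hMs j j.2 hy).2⟩
        have h1 := (hMs j j.2 hy).1
        have h2 := (hMs j j.2 hy0.2).1
        have h3 := (hMs i i.2 hy0.1).1
        rw [Metric.mem_ball] at *
        have := dist_triangle4 y (j : X) y0 i
        rw [dist_comm (j : X) y0] at this
        linarith
      refine ⟨b i y0 * (b j y0)⁻¹, fun y hy => ?_⟩
      rw [(hβ.mono (sub i i.2)).uniq (hb i) (hMc i i.2) hy0.1 hy.1,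
        (hβ.mono sj).uniq (hb j) (hMc j j.2) hy0.2 hy.2]
      group
    choose e he using q
    exact ⟨c, h, rfl, b, e, hb, he⟩
  choose c hc hcl b e hb he using ex
  refine Finite.of_injective (fun (a : HH G S) (p : t × t) =>
    e a ⟨p.1, htS _ p.1.2⟩ ⟨p.2, htS _ p.2.2⟩) fun a a' k => ?_
  rw [hcl a, hcl a', cl_eq]
  have cov : ∀ y : S, ∃ i : t, M i ∈ 𝓝[S] (y : X) := fun y => by
    obtain ⟨i, hi, h⟩ := mem_iUnion₂.1 (htc y.2)
    exact ⟨⟨i, hi⟩, h⟩
  choose ι hι using cov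
  let j : t → S := fun i => ⟨i, htS i i.2⟩
  refine ⟨fun y => if hy : y ∈ S then b a (j (ι ⟨y, hy⟩)) y * (b a' (j (ι ⟨y, hy⟩)) y)⁻¹ else 1,
    fun y hy => ?_⟩
  have m := hι ⟨y, hy⟩
  have hyM : y ∈ M (ι ⟨y, hy⟩) := mem_of_mem_nhdsWithin hy m
  have le : 𝓝[S] y ≤ 𝓝[M (ι ⟨y, hy⟩)] y := nhdsWithin_le_iff.2 m
  filter_upwards [m, self_mem_nhdsWithin, (hb a (j (ι ⟨y, hy⟩)) y hyM).filter_mono le,
    (hb a' (j (ι ⟨y, hy⟩)) y hyM).filter_mono le] with z h1 h2 h3 h4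
  have hzM : z ∈ M (ι ⟨z, h2⟩) := mem_of_mem_nhdsWithin h2 (hι ⟨z, h2⟩)
  have k1 : e a (j (ι ⟨z, h2⟩)) (j (ι ⟨y, hy⟩)) = e a' (j (ι ⟨z, h2⟩)) (j (ι ⟨y, hy⟩)) :=
    congrFun k (ι ⟨z, h2⟩, ι ⟨y, hy⟩)
  rw [dif_pos h2, dif_pos hy, he a _ (j (ι ⟨y, hy⟩)) z ⟨hzM, h1⟩,
    he a' _ (j (ι ⟨y, hy⟩)) z ⟨hzM, h1⟩, k1, h3, h4]
  simp only [mul_inv_rev]
  simp only [mul_assoc, mul_comm, mul_left_comm, mul_inv_cancel, one_mul]

/-! ### clopen parts -/

/-- `T` is clopen in `S` -/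
structure Clop (S T : Set X) : Prop where
  sub : T ⊆ S
  lc : LCo S (fun x => x ∈ T)

theorem Clop.mem {S T : Set X} (h : Clop S T) {x : X} (hx : x ∈ T) : T ∈ 𝓝[S] x := by
  filter_upwards [h.lc x (h.sub hx)] with y hy
  rw [hy]; exact hx

theorem Clop.notMem {S T : Set X} (h : Clop S T) {x : X} (hx : x ∈ S) (hx' : x ∉ T) :
    Tᶜ ∈ 𝓝[S] x := by
  filter_upwards [h.lc x hx] with y hy
  show y ∉ T
  rw [hy]; exact hx'

theorem clop_of {S T : Set X} (h : T ⊆ S) (h1 : ∀ x ∈ T, T ∈ 𝓝[S] x)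
    (h2 : ∀ x ∈ S, x ∉ T → Tᶜ ∈ 𝓝[S] x) : Clop S T := by
  refine ⟨h, fun x hx => ?_⟩
  by_cases k : x ∈ T
  · filter_upwards [h1 x k] with y hy using propext ⟨fun _ => k, fun _ => hy⟩
  · filter_upwards [h2 x hx k] with y hy using propext ⟨fun j => (hy j).elim, fun j => (k j).elim⟩

theorem Clop.subset {S T C : Set X} (h : Clop S T) (hC : IsPreconnected C) (hCS : C ⊆ S) {x : X}
    (hx : x ∈ C) (hxT : x ∈ T) : C ⊆ T := fun y hy => by
  have := (h.lc.mono hCS).eq hC hx hy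
  exact this ▸ hxT

open Classical in
/-- extension by `1` -/
theorem Clop.ext {G : Type*} [Group G] {S T : Set X} (h : Clop S T) {c : X → X → G}
    (hc : Coc T c) : Coc S (fun x y => if x ∈ T then c x y else 1) := by
  intro x hx
  by_cases k : x ∈ T
  · filter_upwards [h.mem k, (hc x k).filter_mono (nhdsWithin_le_iff.2 (h.mem k))] with y h1 h2
    filter_upwards [h2.filter_mono (nhdsWithin_le_iff.2 (h.mem h1))] with z h3
    rw [if_pos k, if_pos k, if_pos h1, h3]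
  · filter_upwards [h.notMem hx k] with y h1
    filter_upwards with z
    rw [if_neg k, if_neg k, if_neg h1, mul_one]

/-- nontrivial cohomology -/
def Ntr (G : Type*) [Group G] (T : Set X) : Prop := ∃ c : X → X → G, Coc T c ∧ ¬ Tr T c

/-- `k` disjoint clopen parts with nontrivial cohomology -/
def Fam (G : Type*) [Group G] (S : Set X) (k : ℕ) : Prop :=
  ∃ T : Fin k → Set X, (∀ i, Clop S (T i) ∧ Ntr G (T i)) ∧ Pairwise fun i j => Disjoint (T i) (T j)

theorem fam_zero (G : Type*) [Group G] (S : Set X) : Fam G S 0 :=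
  ⟨Fin.elim0, fun i => i.elim0, fun i => i.elim0⟩

theorem Fam.le {S : Set X} [Finite (HH G S)] {k : ℕ} (h : Fam G S k) : k ≤ Nat.card (HH G S) := by
  classical
  obtain ⟨T, hT, hd⟩ := h
  choose c hc hn using fun i => (hT i).2
  have := Nat.card_le_card_of_injective (fun i => cl ((hT i).1.ext (hc i))) (fun i j e => by
    by_contra hij
    rw [cl_eq] at e
    refine hn i ((e.mono (hT i).1.sub).congr (geq_of_eq fun x hx y _ => ?_))
    rw [if_pos hx, if_neg (disjoint_left.1 (hd hij) hx), inv_one, mul_one])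
  simpa using this

/-! ### surgery -/

/-- `S = S0 ∪ R` is changed into `S' = S0 ∪ D₁ ∪ D₂` -/
structure Sg (G : Type*) [Group G] (S0 R D₁ D₂ : Set X) : Prop where
  c0 : IsClosed S0
  cR : IsClosed R
  c1 : IsClosed D₁
  c2 : IsClosed D₂
  dj : Disjoint D₁ D₂
  bd : S0 ∩ R = S0 ∩ (D₁ ∪ D₂)
  t1 : ∀ c : X → X → G, Coc D₁ c → Tr D₁ c
  t2 : ∀ c : X → X → G, Coc D₂ c → Tr D₂ c
  p1 : IsConnected (S0 ∩ D₁)
  p2 : IsConnected (S0 ∩ D₂)
  pR : IsPreconnected R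
  q1 : IsPreconnected D₁
  q2 : IsPreconnected D₂

theorem Sg.inj {S0 R D₁ D₂ : Set X} (h : Sg G S0 R D₁ D₂) :
    Function.Injective (res (G := G) (show S0 ⊆ S0 ∪ D₁ ∪ D₂ from fun _ hx => Or.inl (Or.inl hx))) := by
  intro a a' e
  obtain ⟨c, hc, rfl⟩ := cl_surj a
  obtain ⟨c', hc', rfl⟩ := cl_surj a'
  rw [res_cl, res_cl, cl_eq] at e
  rw [cl_eq]
  have hd := hc.div hc'
  refine Tr.union (IsClosed.relCl (h.c0.union h.c1) _) (IsClosed.relCl h.c2 _)
    (Tr.union (IsClosed.relCl h.c0 _) (IsClosed.relCl h.c1 _) e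
      (h.t1 _ (hd.mono fun _ hx => Or.inl (Or.inr hx))) h.p1.2)
    (h.t2 _ (hd.mono subset_union_right)) ?_
  rw [union_inter_distrib_right, h.dj.inter_eq, union_empty]
  exact h.p2.2

theorem lco_two {A : Type*} {D₁ D₂ : Set X} (c1 : IsClosed D₁) (c2 : IsClosed D₂) {f : X → A}
    {u v : A} (h1 : ∀ x ∈ D₁, f x = u) (h2 : ∀ x ∈ D₂, f x = v) : LCo (D₁ ∪ D₂) f :=
  LCo.union (IsClosed.relCl c1 _) (IsClosed.relCl c2 _)
    (fun x hx => by filter_upwards [self_mem_nhdsWithin] with y hy; rw [h1 x hx, h1 y hy])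
    (fun x hx => by filter_upwards [self_mem_nhdsWithin] with y hy; rw [h2 x hx, h2 y hy])

theorem Sg.range {S0 R D₁ D₂ : Set X} (h : Sg G S0 R D₁ D₂) (a : HH G (S0 ∪ D₁ ∪ D₂)) :
    ∃ a' : HH G (S0 ∪ R), res subset_union_left a' =
      res (show S0 ⊆ S0 ∪ D₁ ∪ D₂ from fun _ hx => Or.inl (Or.inl hx)) a := by
  classical
  obtain ⟨c, hc, rfl⟩ := cl_surj a
  obtain ⟨b1, hb1⟩ := h.t1 c (hc.mono fun _ hx => Or.inl (Or.inr hx))
  obtain ⟨b2, hb2⟩ := h.t2 c (hc.mono subset_union_right)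
  let b : X → G := fun x => if x ∈ D₁ then b1 x else b2 x
  have hb : Prim (D₁ ∪ D₂) c b := Prim.union (IsClosed.relCl h.c1 _) (IsClosed.relCl h.c2 _)
    (hb1.congr' fun x hx => if_pos hx)
    (hb2.congr' fun x hx => if_neg fun k => disjoint_left.1 h.dj k hx)
  have hc0 : Coc S0 c := hc.mono fun _ hx => Or.inl (Or.inl hx)
  have e : Geq (S0 ∩ R) (fun x y => b x * c x y * (b y)⁻¹) (fun _ _ => 1) := by
    rw [h.bd]
    intro x hx
    filter_upwards [hb.mono inter_subset_right x hx] with y hy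
    rw [hy]; group
  obtain ⟨d, hd, d0, -⟩ := Coc.glue (IsClosed.relCl h.c0 _) (IsClosed.relCl h.cR _) (hc0.gauge b)
    (tr_one R).choose_spec.coc e
  refine ⟨cl hd, ?_⟩
  rw [res_cl, res_cl, cl_eq]
  refine ⟨fun x => (b x)⁻¹, fun x hx => ?_⟩
  filter_upwards [d0 x hx] with y hy
  rw [hy]
  simp only [mul_assoc, mul_comm, mul_left_comm, mul_inv_cancel_left]

theorem Sg.le {S0 R D₁ D₂ : Set X} (h : Sg G S0 R D₁ D₂) [Finite (HH G (S0 ∪ R))] :
    Nat.card (HH G (S0 ∪ D₁ ∪ D₂)) ≤ Nat.card (HH G (S0 ∪ R)) := by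
  choose j hj using h.range
  exact Nat.card_le_card_of_injective j fun a a' e => h.inj (by rw [← hj, ← hj, e])

/-- either the count drops or the two discs are separated -/
theorem Sg.lt_or {S0 R D₁ D₂ : Set X} (h : Sg G S0 R D₁ D₂) [Finite (HH G (S0 ∪ R))] [Nontrivial G] :
    Nat.card (HH G (S0 ∪ D₁ ∪ D₂)) < Nat.card (HH G (S0 ∪ R)) ∨
      ∃ β : X → G, LCo (S0 ∪ D₁ ∪ D₂) β ∧ ∀ x ∈ D₁, ∀ y ∈ D₂, β x ≠ β y := by
  classical
  obtain ⟨w, hw⟩ := exists_ne (1 : G)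
  let χ : X → G := fun x => if x ∈ D₁ then 1 else w
  have χ1 : ∀ x ∈ D₁, χ x = 1 := fun x hx => if_pos hx
  have χ2 : ∀ x ∈ D₂, χ x = w := fun x hx => if_neg fun k => disjoint_left.1 h.dj k hx
  have e : Geq (S0 ∩ R) (fun _ _ => 1) (fun x y => (χ x)⁻¹ * χ y) := by
    rw [h.bd]
    intro x hx
    filter_upwards [(lco_two h.c1 h.c2 χ1 χ2).mono inter_subset_right x hx] with y hy
    rw [hy]; group
  obtain ⟨d, hd, d0, dR⟩ := Coc.glue (IsClosed.relCl h.c0 _) (IsClosed.relCl h.cR _)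
    (tr_one S0).choose_spec.coc (prim_cob R χ).coc e
  by_cases ht : Tr (S0 ∪ R) d
  · right
    obtain ⟨β, hβ⟩ := ht
    have l0 : LCo S0 β := prim_one_iff.1 ((hβ.mono subset_union_left).congr d0)
    have lR := (hβ.mono subset_union_right).congr dR
    obtain ⟨x1, hx1⟩ := h.p1.1
    obtain ⟨x2, hx2⟩ := h.p2.1
    have r1 : x1 ∈ R := (h.bd.superset ⟨hx1.1, Or.inl hx1.2⟩).2
    have r2 : x2 ∈ R := (h.bd.superset ⟨hx2.1, Or.inr hx2.2⟩).2
    have k := (prim_cob R χ).uniq lR h.pR r1 r2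
    rw [χ1 x1 hx1.2, χ2 x2 hx2.2, inv_one, mul_one] at k
    let β' : X → G := fun x => if x ∈ D₁ then β x1 else if x ∈ D₂ then β x2 else β x
    have b1 : ∀ x ∈ D₁, β' x = β x1 := fun x hx => if_pos hx
    have b2 : ∀ x ∈ D₂, β' x = β x2 := fun x hx => by
      simp only [β']; rw [if_neg fun k => disjoint_left.1 h.dj k hx, if_pos hx]
    have b0 : ∀ x ∈ S0, β' x = β x := by
      intro x hx
      by_cases k1 : x ∈ D₁
      · rw [b1 x k1]; exact (l0.mono inter_subset_left).eq h.p1.2 hx1 ⟨hx, k1⟩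
      by_cases k2 : x ∈ D₂
      · rw [b2 x k2]; exact (l0.mono inter_subset_left).eq h.p2.2 hx2 ⟨hx, k2⟩
      simp only [β']; rw [if_neg k1, if_neg k2]
    refine ⟨β', ?_, fun x hx y hy => ?_⟩
    · rw [union_assoc]
      refine LCo.union (IsClosed.relCl h.c0 _) (IsClosed.relCl (h.c1.union h.c2) _) ?_
        (lco_two h.c1 h.c2 b1 b2)
      intro x hx
      filter_upwards [l0 x hx, self_mem_nhdsWithin] with y h1 h2
      rw [b0 y h2, b0 x hx, h1]
    · rw [b1 x hx, b2 y hy, k]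
      intro q
      exact hw (left_eq_mul.1 q)
  · left
    choose j hj using h.range
    have ji : Function.Injective j := fun a a' e => h.inj (by rw [← hj, ← hj, e])
    have : Finite (HH G (S0 ∪ D₁ ∪ D₂)) := Finite.of_injective j ji
    refine lt_of_le_of_ne h.le fun q => ht ?_
    have js : Function.Surjective j := (ji.bijective_of_nat_card_le q.ge).2
    obtain ⟨a, ha⟩ := js (cl hd)
    obtain ⟨a', ha'⟩ := js (cl (tr_one (G := G) (S0 ∪ R)).choose_spec.coc)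
    have : a = a' := by
      apply h.inj
      rw [← hj, ← hj, ha, ha', res_cl, res_cl, cl_eq]
      exact (tr_one S0).congr (d0.symm.trans (geq_of_eq fun _ _ _ _ => by simp))
    rw [this, ha', eq_comm, cl_eq] at ha
    exact ha.congr (geq_of_eq fun _ _ _ _ => by simp)

/-- one more clopen part in the separating case -/
theorem Sg.fam {S0 R D₁ D₂ : Set X} (h : Sg G S0 R D₁ D₂) {k : ℕ} (hk : Fam G (S0 ∪ R) k)
    {S₁ S₂ : Set X} (k1 : Clop (S0 ∪ D₁ ∪ D₂) S₁) (k2 : Clop (S0 ∪ D₁ ∪ D₂) S₂)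
    (n1 : Ntr G S₁) (n2 : Ntr G S₂) (p1 : IsPreconnected S₁) (p2 : IsPreconnected S₂)
    (d1 : D₁ ⊆ S₁) (d2 : D₂ ⊆ S₂) (dj : Disjoint S₁ S₂) : Fam G (S0 ∪ D₁ ∪ D₂) (k + 1) := by
  classical
  obtain ⟨T, hT, hd⟩ := hk
  obtain ⟨x1, hx1⟩ := h.p1.1
  obtain ⟨x2, hx2⟩ := h.p2.1
  have r1 : x1 ∈ R := (h.bd.superset ⟨hx1.1, Or.inl hx1.2⟩).2
  have r2 : x2 ∈ R := (h.bd.superset ⟨hx2.1, Or.inr hx2.2⟩).2
  -- parts that miss `R`
  have miss : ∀ i, x1 ∉ T i → Clop (S0 ∪ D₁ ∪ D₂) (T i) ∧ Disjoint (T i) S₁ ∧ Disjoint (T i) S₂ := by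
    intro i hi
    have dR : ∀ x ∈ T i, x ∉ R := fun x hx hxR =>
      hi ((hT i).1.subset h.pR subset_union_right hxR hx r1)
    have s0 : T i ⊆ S0 := fun x hx => ((hT i).1.sub hx).resolve_right (dR x hx)
    have dD : ∀ x ∈ D₁ ∪ D₂, (x ∈ T i) = False := fun x hx =>
      eq_false fun q => dR x q (h.bd.superset ⟨s0 q, hx⟩).2
    have cl : Clop (S0 ∪ D₁ ∪ D₂) (T i) := by
      refine ⟨fun x hx => Or.inl (Or.inl (s0 hx)), ?_⟩
      rw [union_assoc]
      exact LCo.union (IsClosed.relCl h.c0 _) (IsClosed.relCl (h.c1.union h.c2) _)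
        ((hT i).1.lc.mono subset_union_left)
        (lco_two h.c1 h.c2 (fun x hx => dD x (Or.inl hx)) fun x hx => dD x (Or.inr hx))
    refine ⟨cl, disjoint_left.2 fun x hx hx' => hi (cl.subset p1 k1.sub hx' hx (d1 hx1.2)),
      disjoint_left.2 fun x hx hx' => dR x2 (cl.subset p2 k2.sub hx' hx (d2 hx2.2)) r2⟩
  refine ⟨Fin.cons S₂ fun i => if x1 ∈ T i then S₁ else T i, fun i => ?_, fun i j hij => ?_⟩
  · refine Fin.cases ⟨k2, n2⟩ (fun i => ?_) i
    simp only [Fin.cons_succ]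
    split_ifs with q
    · exact ⟨k1, n1⟩
    · exact ⟨(miss i q).1, (hT i).2⟩
  · have z : ∀ i, Disjoint (if x1 ∈ T i then S₁ else T i) S₂ := fun i => by
      split_ifs with q
      · exact dj
      · exact (miss i q).2.2
    revert hij
    refine Fin.cases ?_ (fun i => ?_) i <;> refine Fin.cases ?_ (fun j => ?_) j <;> intro hij
    · exact (hij rfl).elim
    · exact (z j).symm
    · exact z i
    · simp only [Fin.cons_succ]
      have hij' : i ≠ j := fun q => hij (by rw [q])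
      split_ifs with q q' q'
      · exact (disjoint_left.1 (hd hij') q q').elim
      · exact (miss j q').2.1.symm
      · exact (miss i q).2.1
      · exact hd hij'

end Crest.Agent.X212.Lev33
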