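import Crest.Agent.X212.Lev33.Ann5
import Crest.Agent.X212.Rz42.Main
import Crest.Agent.X212.Rg3.Main
import Crest.Agent.X212.Thk1.Main

/-!
# Row 212, layer T, LEV+RUNG (helper33): export
-/

set_option autoImplicit false

namespace Crest.Agent.X212.Lev33

open Crest.Agent.X212.Prd34

theorem incStmt (lt : LTStmt) (sp : SphStmt) : IncStmt := inc lt Thk1.thickStmt Lad50.compStmt sp

theorem rung0Stmt (lt : LTStmt) (sp : SphStmt) (tr : TorRec) : Rung0Stmt :=
  Rz42.rung0 Lvf3.lev (incStmt lt sp) tr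

theorem rung1Stmt (lt : LTStmt) (sp : SphStmt) (ar : AnnRec) : Rung1Stmt :=
  Rg3.rung1 (incStmt lt sp) Lvf3.lev ar

theorem annStmt (lt : LTStmt) (sp : SphStmt) (ar : AnnRec) : AnnStmt :=
  ann Thk1.flatStmt (incStmt lt sp) ar

end Crest.Agent.X212.Lev33
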