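import Crest.Agent.X212.Lev33.Hol

/-!
# Row 212, layer T, LEV (helper33): the two-sided step

If loops of `S = A ∩ B` that bound in `A` or in `B` bound in `S`, then loops of `S` that bound in
`A ∪ B` bound in `S` (free local systems; `S` may be disconnected).
-/

set_option autoImplicit false
set_option linter.unusedSectionVars false

open Set Topology Filter unitInterval Cardinal

namespace Crest.Agent.X212.Lev33

/-- two free actions of a small group on a big set are conjugate -/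
theorem free_conj {Γ Λ : Type} [Group Γ] [Infinite Λ] (hc : #Γ < #Λ) (ρ ρ' : Γ →* Equiv.Perm Λ)
    (h : ∀ g ω, ρ g ω = ω → g = 1) (h' : ∀ g ω, ρ' g ω = ω → g = 1) :
    ∃ sg : Equiv.Perm Λ, ∀ g, ρ g * sg = sg * ρ' g := by
  have key : ∀ ρ : Γ →* Equiv.Perm Λ, (∀ g ω, ρ g ω = ω → g = 1) →
      ∃ E : Λ × Γ ≃ Λ, ∀ o g k, ρ k (E (o, g)) = E (o, k * g) := by
    intro ρ h
    let s : Setoid Λ := ⟨fun a b => ∃ g, ρ g a = b, fun a => ⟨1, by simp⟩,
      fun {a b} ⟨g, hg⟩ => ⟨g⁻¹, by rw [← hg]; simp⟩,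
      fun {a b c} ⟨g, hg⟩ ⟨k, hk⟩ => ⟨k * g, by rw [map_mul, Equiv.Perm.mul_apply, hg, hk]⟩⟩
    let f : Quotient s × Γ → Λ := fun p => ρ p.2 p.1.out
    have hf : Function.Bijective f := by
      constructor
      · rintro ⟨o, g⟩ ⟨o', g'⟩ e
        simp only [f] at e
        have e1 : ρ (g'⁻¹ * g) o.out = o'.out := by
          rw [map_mul, Equiv.Perm.mul_apply, e]; simp
        have e2 : o = o' := by
          rw [← o.out_eq, ← o'.out_eq]; exact Quotient.sound ⟨_, e1⟩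
        subst e2
        have := h _ _ e1
        rw [inv_mul_eq_one.1 this]
      · intro ω
        obtain ⟨g, hg⟩ : s.r (Quotient.mk s ω).out ω := Quotient.exact (Quotient.out_eq _)
        exact ⟨(Quotient.mk s ω, g), hg⟩
    have c1 : #(Quotient s) * #Γ = #Λ := by
      rw [← mk_congr (Equiv.ofBijective f hf)]; simp
    have c2 : #(Quotient s) = #Λ := by
      refine le_antisymm mk_quotient_le (not_lt.1 fun k => ?_)
      exact (mul_lt_of_lt (aleph0_le_mk Λ) k hc).ne c1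
    obtain ⟨e⟩ := Cardinal.eq.1 c2
    refine ⟨(e.symm.prodCongr (Equiv.refl Γ)).trans (Equiv.ofBijective f hf), fun o g k => ?_⟩
    simp [f]
  obtain ⟨E, hE⟩ := key ρ h
  obtain ⟨E', hE'⟩ := key ρ' h'
  refine ⟨E'.symm.trans E, fun g => ?_⟩
  ext ω
  obtain ⟨⟨o, k⟩, rfl⟩ := E'.surjective ω
  simp [hE, hE']

variable {X : Type} [TopologicalSpace X]

/-- a path with range in `A` as a path of the subtype -/
def toSub {A : Set X} {x y : X} (p : Path x y) (hp : ∀ t, p t ∈ A) (hx : x ∈ A) (hy : y ∈ A) :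
    Path (⟨x, hx⟩ : A) ⟨y, hy⟩ where
  toFun := fun t => ⟨p t, hp t⟩
  continuous_toFun := by fun_prop
  source' := by simp
  target' := by simp

theorem toSub_trans {A : Set X} {x y z : X} (p : Path x y) (q : Path y z) (hp : ∀ t, p t ∈ A)
    (hq : ∀ t, q t ∈ A) (hx : x ∈ A) (hy : y ∈ A) (hz : z ∈ A) :
    toSub (p.trans q) (trans_mem hp hq) hx hz = (toSub p hp hx hy).trans (toSub q hq hy hz) := by
  ext t
  show (p.trans q) t = _
  rw [Path.trans_apply, Path.trans_apply]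
  split_ifs <;> rfl

theorem toSub_homotopic {A : Set X} {x y : X} {p q : Path x y} (F : p.Homotopy q)
    (hF : ∀ t, F t ∈ A) (hp : ∀ t, p t ∈ A) (hq : ∀ t, q t ∈ A) (hx : x ∈ A) (hy : y ∈ A) :
    (toSub p hp hx hy).Homotopic (toSub q hq hx hy) := by
  refine ⟨⟨⟨⟨fun z => ⟨F z, hF z⟩, by fun_prop⟩, ?_, ?_⟩, ?_⟩⟩
  · intro t; ext; simp [toSub]
  · intro t; ext; simp [toSub]
  · intro t s hs
    ext
    exact F.eq_fst t hs

theorem ofSub_homotopy {A : Set X} {x y : A} {p q : Path x y} (h : p.Homotopic q) :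
    ∃ F : (p.map continuous_subtype_val).Homotopy (q.map continuous_subtype_val), ∀ t, F t ∈ A := by
  obtain ⟨F⟩ := h
  exact ⟨F.map ⟨Subtype.val, continuous_subtype_val⟩, fun t => (F t).2⟩

/-- `p` bounds in `A` -/
def NH (A : Set X) {x : X} (p : Path x x) : Prop :=
  ∃ F : p.Homotopy (Path.refl x), ∀ t, F t ∈ A

/-- the big set -/
abbrev Big (X : Type) : Type := Set ((I → X) ⊕ ℕ)

theorem lt_big {α : Type} (f : α → (I → X)) (hf : Function.Injective f) : #α < #(Big X) := by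
  have h1 : #α ≤ #((I → X) ⊕ ℕ) := mk_le_of_injective (Sum.inl_injective.comp hf)
  exact h1.trans_lt (by rw [mk_set]; exact cantor _)

/-- a free functional -/
theorem exists_free (A : Set X) : ∃ φ : ∀ x y : X, Path x y → Equiv.Perm (Big X), PF A φ ∧
    ∀ x (p : Path x x), (∀ t, p t ∈ A) → ∀ ω, φ x x p ω = ω → NH A p := by
  classical
  let Om : A → Type := fun x => Σ z : A, Path.Homotopic.Quotient z x
  have hOm : ∀ x : A, Nonempty (Om x × Big X ≃ Big X) := by
    intro x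
    have h1 : #(Om x) ≤ #(Big X) := by
      refine le_trans (mk_le_of_surjective (f := fun q : Σ z : A, Path z x =>
        (⟨q.1, .mk q.2⟩ : Om x)) ?_) (lt_big (fun q t => (q.2 t : X)) ?_).le
      · rintro ⟨z, q⟩
        obtain ⟨q, rfl⟩ := Path.Homotopic.Quotient.mk_surjective q
        exact ⟨⟨z, q⟩, rfl⟩
      · rintro ⟨z, q⟩ ⟨z', q'⟩ e
        obtain rfl : z = z' := by
          have := congrFun e 0
          simp only [Path.source] at this
          exact Subtype.ext this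
        congr 1
        ext t
        exact congrFun e t
    have : Nonempty (Om x) := ⟨⟨x, .refl x⟩⟩
    rw [← Cardinal.eq, mk_prod, lift_id, lift_id]
    exact mul_eq_right (aleph0_le_mk _) h1 (mk_ne_zero _)
  let ε : ∀ x : A, Om x × Big X ≃ Big X := fun x => (hOm x).some
  let T : ∀ x y : A, Path.Homotopic.Quotient x y → (Om x ≃ Om y) := fun x y p =>
    ⟨fun q => ⟨q.1, q.2.trans p⟩, fun q => ⟨q.1, q.2.trans p.symm⟩,
      fun q => by simp [Path.Homotopic.Quotient.trans_assoc],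
      fun q => by simp [Path.Homotopic.Quotient.trans_assoc]⟩
  let ψ : ∀ x y : A, Path.Homotopic.Quotient x y → Equiv.Perm (Big X) := fun x y p =>
    ((ε x).symm.trans (((T x y p).prodCongr (Equiv.refl _)).trans (ε y)))⁻¹
  have ψmul : ∀ (x y z : A) (p : Path.Homotopic.Quotient x y) (q : Path.Homotopic.Quotient y z),
      ψ x z (p.trans q) = ψ x y p * ψ y z q := by
    intro x y z p q
    simp only [ψ]
    rw [← mul_inv_rev]
    congr 1
    ext ω : 1
    obtain ⟨⟨o, l⟩, rfl⟩ := (ε x).surjective ω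
    simp [T, Path.Homotopic.Quotient.trans_assoc]
  have s0 : ∀ {x y : X} {p : Path x y}, (∀ t, p t ∈ A) → x ∈ A := fun hp => by simpa using hp 0
  have s1 : ∀ {x y : X} {p : Path x y}, (∀ t, p t ∈ A) → y ∈ A := fun hp => by simpa using hp 1
  refine ⟨fun x y p => if hp : ∀ t, p t ∈ A then
    ψ _ _ (.mk (toSub p hp (s0 hp) (s1 hp))) else 1, ⟨?_, ?_⟩, ?_⟩
  · intro x y z p q hp hq
    rw [dif_pos hp, dif_pos hq, dif_pos (trans_mem hp hq), ← ψmul,
      toSub_trans p q hp hq (s0 hp) (s1 hp) (s1 hq)]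
    rfl
  · intro x y p q F hF
    have hp : ∀ t, p t ∈ A := fun t => by simpa using hF (0, t)
    have hq : ∀ t, q t ∈ A := fun t => by simpa using hF (1, t)
    rw [dif_pos hp, dif_pos hq,
      Path.Homotopic.Quotient.eq.2 (toSub_homotopic F hF hp hq (s0 hp) (s1 hp))]
  · intro x p hp ω e
    simp only [dif_pos hp, ψ] at e
    rw [Equiv.Perm.inv_eq_iff_eq] at e
    obtain ⟨⟨⟨z, q⟩, l⟩, rfl⟩ := (ε ⟨x, s0 hp⟩).surjective ω
    simp only [Equiv.trans_apply, Equiv.symm_apply_apply, Equiv.prodCongr_apply, Prod.map,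
      EmbeddingLike.apply_eq_iff_eq, Prod.mk.injEq, T, Equiv.coe_fn_mk] at e
    have e1 : q = q.trans (.mk (toSub p hp (s0 hp) (s0 hp))) := eq_of_heq (Sigma.mk.inj e.1).2
    have e2 : Path.Homotopic.Quotient.mk (toSub p hp (s0 hp) (s0 hp)) = .refl _ := by
      have := congrArg (fun r => q.symm.trans r) e1
      simpa [← Path.Homotopic.Quotient.trans_assoc] using this.symm
    exact ofSub_homotopy (Path.Homotopic.Quotient.eq.1 e2)

/-- two functionals that are free on the loops of `S` are gauge equivalent on `S` -/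
theorem gauge_of_free {S : Set X} {φ φ' : ∀ x y : X, Path x y → Equiv.Perm (Big X)} (h : PF S φ)
    (h' : PF S φ') (hf : ∀ x (p : Path x x), (∀ t, p t ∈ S) → ∀ ω, φ x x p ω = ω → NH S p)
    (hf' : ∀ x (p : Path x x), (∀ t, p t ∈ S) → ∀ ω, φ' x x p ω = ω → NH S p) :
    ∃ g : X → Equiv.Perm (Big X), ∀ x y (p : Path x y), (∀ t, p t ∈ S) →
      φ x y p = g x * φ' x y p * (g y)⁻¹ := by
  classical
  have hom : ∀ {φ : ∀ x y : X, Path x y → Equiv.Perm (Big X)}, PF S φ →
      (∀ x (p : Path x x), (∀ t, p t ∈ S) → ∀ ω, φ x x p ω = ω → NH S p) → ∀ b : S,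
      ∃ ρ : FundamentalGroup S b →* Equiv.Perm (Big X), (∀ g ω, ρ g ω = ω → g = 1) ∧
        ∀ p : Path b b, ρ (Path.Homotopic.Quotient.mk p) =
          (φ b b (p.map continuous_subtype_val))⁻¹ := by
    intro φ h hf b
    let r : Path.Homotopic.Quotient b b → Equiv.Perm (Big X) :=
      Quotient.lift (fun p : Path b b => (φ b b (p.map continuous_subtype_val))⁻¹) (by
        intro p q hpq
        obtain ⟨F, hF⟩ := ofSub_homotopy hpq
        rw [h.hom _ _ _ _ F hF])
    refine ⟨MonoidHom.mk' (fun g => r g) ?_, ?_, fun p => rfl⟩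
    · intro g k
      obtain ⟨g, rfl⟩ := Path.Homotopic.Quotient.mk_surjective g
      obtain ⟨k, rfl⟩ := Path.Homotopic.Quotient.mk_surjective k
      show (φ b b ((k.trans g).map continuous_subtype_val))⁻¹ =
        (φ b b (g.map continuous_subtype_val))⁻¹ * (φ b b (k.map continuous_subtype_val))⁻¹
      rw [Path.map_trans, h.mul _ _ _ _ _ (fun t => (k t).2) (fun t => (g t).2), mul_inv_rev]
    · intro g ω e
      obtain ⟨g, rfl⟩ := Path.Homotopic.Quotient.mk_surjective g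
      have e' : (φ b b (g.map continuous_subtype_val))⁻¹ ω = ω := e
      rw [Equiv.Perm.inv_eq_iff_eq] at e'
      obtain ⟨F, hF⟩ := hf _ _ (fun t => (g t).2) ω e'.symm
      exact Path.Homotopic.Quotient.eq.2
        (toSub_homotopic F hF (fun t => (g t).2) (fun _ => b.2) b.2 b.2)
  have sig : ∀ b ∈ S, ∃ sg : Equiv.Perm (Big X), ∀ p : Path b b, (∀ t, p t ∈ S) →
      φ b b p * sg = sg * φ' b b p := by
    intro b hb
    obtain ⟨ρ, h1, h2⟩ := hom h hf ⟨b, hb⟩
    obtain ⟨ρ', h1', h2'⟩ := hom h' hf' ⟨b, hb⟩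
    have hc : #(FundamentalGroup S ⟨b, hb⟩) < #(Big X) := by
      refine lt_of_le_of_lt (mk_le_of_surjective Path.Homotopic.Quotient.mk_surjective)
        (lt_big (fun (q : Path (⟨b, hb⟩ : S) ⟨b, hb⟩) t => (q t : X)) fun q q' e => ?_)
      ext t
      exact congrFun e t
    obtain ⟨sg, hsg⟩ := free_conj hc ρ ρ' h1 h1'
    refine ⟨sg, fun p hp => ?_⟩
    have := hsg (Path.Homotopic.Quotient.mk (toSub p hp hb hb))
    rw [h2, h2'] at this
    have e : (φ b b p)⁻¹ * sg = sg * (φ' b b p)⁻¹ := this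
    calc φ b b p * sg = φ b b p * (sg * (φ' b b p)⁻¹) * φ' b b p := by group
      _ = _ := by rw [← e]; group
  choose! sg hsg using sig
  refine ⟨fun x => if hx : x ∈ S then (φ _ _ (rep_joined hx).somePath)⁻¹ * sg (rep S x) *
    φ' _ _ (rep_joined hx).somePath else 1, fun x y p hp => ?_⟩
  have hx : x ∈ S := by simpa using hp 0
  have hy : y ∈ S := by simpa using hp 1
  have e := rep_eq (show JoinedIn S x y from ⟨p, hp⟩)
  beta_reduce
  rw [dif_pos hx, dif_pos hy]
  set τ := (rep_joined hx).somePath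
  have hτ : ∀ t, τ t ∈ S := (rep_joined hx).somePath_mem
  let υ := (rep_joined hy).somePath.cast e rfl
  have hυ : ∀ t, υ t ∈ S := (rep_joined hy).somePath_mem
  rw [pf_ext φ (p := (rep_joined hy).somePath) (q := υ) fun _ => rfl,
    pf_ext φ' (p := (rep_joined hy).somePath) (q := υ) fun _ => rfl, ← e]
  have k := hsg _ (rep_joined hx).source_mem ((τ.trans p).trans υ.symm)
    (trans_mem (trans_mem hτ hp) fun t => hυ _)
  rw [h.mul _ _ _ _ _ (trans_mem hτ hp) (fun t => hυ _), h.mul _ _ _ _ _ hτ hp, h.symm _ hυ,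
    h'.mul _ _ _ _ _ (trans_mem hτ hp) (fun t => hυ _), h'.mul _ _ _ _ _ hτ hp, h'.symm _ hυ] at k
  calc φ x y p = (φ _ _ τ)⁻¹ * (φ _ _ τ * φ x y p * (φ _ _ υ)⁻¹ * sg (rep S x)) *
        (sg (rep S x))⁻¹ * φ _ _ υ := by group
    _ = _ := by rw [k]; group

theorem PF.mono {G : Type*} [Group G] {A S : Set X} {φ : ∀ x y : X, Path x y → G} (h : PF A φ)
    (hS : S ⊆ A) : PF S φ :=
  ⟨fun x y z p q hp hq => h.mul x y z p q (fun t => hS (hp t)) fun t => hS (hq t),
    fun x y p q F hF => h.hom x y p q F fun t => hS (hF t)⟩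

/-- **the two-sided step** -/
theorem two {A B : Set X} (cA : RelCl A B) (cB : RelCl B A) (lA : LSC A) (lB : LSC B)
    (lS : LPC (A ∩ B))
    (hA : ∀ x (p : Path x x), (∀ t, p t ∈ A ∩ B) → NH A p → NH (A ∩ B) p)
    (hB : ∀ x (p : Path x x), (∀ t, p t ∈ A ∩ B) → NH B p → NH (A ∩ B) p)
    {x : X} (p : Path x x) (hp : ∀ t, p t ∈ A ∩ B) (h : NH (A ∪ B) p) : NH (A ∩ B) p := by
  obtain ⟨φ, hφ, fφ⟩ := exists_free A
  obtain ⟨ψ, hψ, fψ⟩ := exists_free B
  have f1 : ∀ x (p : Path x x), (∀ t, p t ∈ A ∩ B) → ∀ ω, φ x x p ω = ω → NH (A ∩ B) p :=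
    fun x p hp ω e => hA x p hp (fφ x p (fun t => (hp t).1) ω e)
  have f2 : ∀ x (p : Path x x), (∀ t, p t ∈ A ∩ B) → ∀ ω, ψ x x p ω = ω → NH (A ∩ B) p :=
    fun x p hp ω e => hB x p hp (fψ x p (fun t => (hp t).2) ω e)
  obtain ⟨g, hg⟩ := gauge_of_free (hφ.mono inter_subset_left) (hψ.mono inter_subset_right) f1 f2
  obtain ⟨c, hc, hcφ⟩ := hφ.exists_coc lA
  obtain ⟨d, hd, hdψ⟩ := hψ.exists_coc lB
  have e : Geq (A ∩ B) c (fun x y => g x * d x y * (g y)⁻¹) := by
    intro x hx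
    obtain ⟨N, hN, h1⟩ := hcφ x hx.1
    obtain ⟨M, hM, h2⟩ := hdψ x hx.2
    obtain ⟨W, hW, hWs⟩ := mem_nhdsWithin_iff_exists_mem_nhds_inter.1 hN
    obtain ⟨W', hW', hWs'⟩ := mem_nhdsWithin_iff_exists_mem_nhds_inter.1 hM
    obtain ⟨L, hL, hLs, hj⟩ := lS x hx _ (inter_mem hW hW')
    filter_upwards [hL] with y hy
    have j := hj y hy
    have m := fun t => hLs (j.somePath_mem t)
    rw [h1 y j.somePath fun t => hWs ⟨(m t).1.1, (m t).2.1⟩,
      h2 y j.somePath fun t => hWs' ⟨(m t).1.2, (m t).2.2⟩, hg _ _ _ fun t => (m t).2]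
  obtain ⟨k, hk, kA, -⟩ := Coc.glue cA cB hc (hd.gauge g) e
  obtain ⟨F, hF⟩ := h
  have h1 := hol_homotopy hk F hF
  have hx : x ∈ A := by simpa using (hp 0).1
  rw [hol_refl hk (Or.inl hx), hol_geq (hk.mono subset_union_left) kA (path_cont p)
    (path_maps fun t => (hp t).1), hφ.hol_eq hcφ p fun t => (hp t).1] at h1
  exact f1 x p hp ∅ (by rw [h1]; rfl)

end Crest.Agent.X212.Lev33
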