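import Crest.Agent.X212.Lev33.St
import Crest.Agent.X212.Lev33.H1
import Crest.Agent.X212.Lev33.Two
import Crest.Agent.X212.Srf12.Defs

/-!
# Row 212, layer T, LEV (helper33): the compression theorem `IncStmt` and the recognition Props
-/

set_option autoImplicit false

open Set Metric Topology Crest.Agent.R096.Ce_537 Crest.Agent.X212.Prd34 Crest.Agent.X212.Srf12

namespace Crest.Agent.X212.Lev33

/-- `ℤ/2` -/
abbrev Z2 := Multiplicative (ZMod 2)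

/-- compression along a thickened disc on the side `A` -/
def Move (A B A' B' : Set V) : Prop :=
  ∃ (R : Set V) (e : PLEquiv (cube 3) R) (ε : ℝ), R ⊆ A ∧ R ∩ (A ∩ B) = e.f '' side ∧
    0 < ε ∧ ε < 1 ∧ A' = A \ e.f '' lo ε ∧ B' = B ∪ e.f '' lc ε

/-- arbitrarily small discs at a boundary point -/
def BdAt (S : Set V) (x : V) : Prop :=
  ∀ W ∈ 𝓝 x, ∃ D Γ : Set V, IsBall 2 D Γ ∧ D ⊆ S ∩ W ∧ D ∈ 𝓝[S] x ∧ x ∈ Γ

/-- a splitting of `U` whose surface is compactified by `Γ` -/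
structure St (U Γ A B : Set V) : Prop where
  spl : Spl U A B
  dj : Disjoint U Γ
  cpt : IsCompact (A ∩ B ∪ Γ)
  bd : ∀ x ∈ Γ, BdAt (A ∩ B ∪ Γ) x

/-- **(INC)** compression until the surface is `π₁`-injective; `Q` any invariant -/
def IncStmt : Prop := ∀ (U Γ : Set V) (Q : Set V → Set V → Prop),
  (∀ x ∈ Γ, ∃ L ⊆ Γ, x ∈ L ∧ IsPreconnected L ∧ ∃ c : V → V → Z2, Coc (U ∪ Γ) c ∧ ¬ Tr L c) →
  (∀ A B A' B', St U Γ A B → Q A B → Move A B A' B' → St U Γ A' B' → Q A' B') →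
  (∀ A B A' B', St U Γ A B → Q A B → Move B A B' A' → St U Γ A' B' → Q A' B') →
  ∀ A B, St U Γ A B → Q A B → ∃ A' B' K, St U Γ A' B' ∧ Q A' B' ∧ IsCompact K ∧ K ⊆ U ∧
    (∀ x, x ∉ K → ((x ∈ A' ↔ x ∈ A) ∧ (x ∈ B' ↔ x ∈ B))) ∧
    ∀ x (p : Path x x), (∀ t, p t ∈ A' ∩ B') → NH U p → NH (A' ∩ B') p

/-- **(SPH)** (12) -/
def SphStmt : Prop := ∀ S : Set V, Srf S ∅ → IsConnected S → H1 S → Sph S

/-- **(ANN-REC)** (12) -/
def AnnRec : Prop := ∀ (S G₁ G₂ : Set V) (γ₁ γ₂ : ℝ → V), Srf S (G₁ ∪ G₂) → Disjoint G₁ G₂ →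
  IsConnected S → H1Rel S G₁ → Loop G₁ γ₁ → Loop G₂ γ₂ →
  ∃ g, Ann S g ∧ (∀ s, g ![-1, s] = γ₁ s) ∧ ((∀ s, g ![1, s] = γ₂ s) ∨ ∀ s, g ![1, s] = γ₂ (-s))

/-- **(TOR-REC)** (12) -/
def TorRec : Prop := ∀ (H : V → V) (S : Set V), Per {0, 1} H → Srf S ∅ → S ⊆ range H →
  IsConnected (H ⁻¹' S) → H1 (H ⁻¹' S) →
  ∃ u : P → V, Continuous u ∧ Tor S (fun y => H (u y)) ∧
    ∀ y m : P, lv 0 m ∈ lat {0, 1} → u (y + m) = u y + lv 0 m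

end Crest.Agent.X212.Lev33
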